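import Vale.Agent.P048.Full.Ctx
import Vale.Agent.P048.Cycle.Main

/-!
From the impossibility of a minimal counterexample to the Ramsey identity.
-/

namespace Vale.Agent.P048.Full

open Finset Vale.Agent.P048.Cycle

theorem card_le_of {k : ℕ} (hk3 : 3 ≤ k)
    (hstep : ∀ (r : ℕ) (V : Type) [Fintype V] [DecidableEq V] (G : SimpleGraph V),
      k ≤ 2 * r → FCtx G k r → False) :
    ∀ (r : ℕ) {V : Type} [Fintype V] [DecidableEq V] (G : SimpleGraph V),
      r ≤ k → al G univ ≤ r → ¬HasCyc G (k + 1) → Fintype.card V ≤ k * r := by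
  intro r
  induction r using Nat.strong_induction_on with
  | _ r ih =>
    intro V _ _ G hk hal hC
    by_cases hsmall : 2 * r + 1 ≤ k
    · exact Cycle.card_le r G hsmall hal hC
    by_contra hbig
    refine hstep r V G (by omega) ⟨hk, hk3, by omega, hal, by omega, hC, fun U hU => ?_⟩
    have := ih (al G U) hU (G.comap (fun x : {x // x ∈ U} => x.val)) (by omega) ?_
      (fun hc => hC (hc.map Subtype.val_injective))
    · simpa using this
    · obtain ⟨J, j1, j2, j3⟩ := exists_al (G.comap (fun x : {x // x ∈ U} => x.val)) univ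
      rw [← j3, ← card_image_of_injective J Subtype.val_injective]
      refine le_al (fun x hx => ?_) ?_
      · obtain ⟨y, -, rfl⟩ := mem_image.mp hx; exact y.2
      · intro a ha b hb
        obtain ⟨a', ha', rfl⟩ := mem_image.mp ha
        obtain ⟨b', hb', rfl⟩ := mem_image.mp hb
        exact j2 a' ha' b' hb'

/-- The Ramsey identity from the counting bound. -/
theorem ramsey_of_card_le {m n : ℕ} (hn : 3 ≤ n) (hm : 3 ≤ m)
    (hle : ∀ {V : Type} [Fintype V] [DecidableEq V] (G : SimpleGraph V),
      al G univ ≤ n - 1 → ¬HasCyc G (m - 1 + 1) → Fintype.card V ≤ (m - 1) * (n - 1)) :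
    IsLeast {N : ℕ | ∀ G : SimpleGraph (Fin N),
      (SimpleGraph.cycleGraph m).IsContained G ∨ ¬G.IndepSetFree n} ((m - 1) * (n - 1) + 1) := by
  constructor
  · intro G
    by_contra hc
    simp only [not_or, not_not] at hc
    obtain ⟨hG, hfree⟩ := hc
    have hal : al G univ ≤ n - 1 := by
      obtain ⟨J, -, j2, j3⟩ := exists_al G univ
      by_contra hh
      obtain ⟨K, hK, hKc⟩ := exists_subset_card_eq (show n ≤ J.card by omega)
      refine hfree K ⟨fun a ha b hb _ => j2 a (hK ha) b (hK hb), hKc⟩
    have := hle G hal fun hc => hG (by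
      rw [show m - 1 + 1 = m by omega] at hc
      exact hc.contained (by omega))
    rw [Fintype.card_fin] at this
    omega
  · intro N hN
    by_contra hlt
    obtain ⟨h1, h2⟩ := blocks_bad (m := m) (n := n) (N := N) (by omega) (by omega) (by omega)
    rcases hN (blocks m N) with h | h
    · exact h1 h
    · exact h h2

end Vale.Agent.P048.Full
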