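import Vale.Agent.P048.Cycle.Colour

/-!
The colour lemma for a cycle with an arbitrary chord in a finset which is far from bipartite.
-/

namespace Vale.Agent.P048.Full

open Finset Vale.Agent.P048.Cycle

variable {V : Type*} [DecidableEq V] {G : SimpleGraph V} {f : ℕ → V} {L : ℕ}

/-- Paths with ends of different colours, of every length below that of a cycle with a chord. -/
theorem colour_path2 {S : Finset V} (hS : Conn G S) {p : ℕ}
    (hper : ∀ i, f (i + L) = f i) (hinj : ∀ i j, i < L → j < L → f i = f j → i = j)
    (hadj : ∀ i, G.Adj (f i) (f (i + 1))) (hmem : ∀ i, f i ∈ S) (hα : 2 * al G S < S.card)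
    (hchord : ∃ a e, 2 ≤ e ∧ e + 2 ≤ L ∧ G.Adj (f a) (f (a + e)))
    (hp : 1 ≤ p) (hpL : p < L) (col : V → Bool) (hcol : ∃ x ∈ S, ∃ y ∈ S, col x ≠ col y) :
    ∃ l u v, IsP G l u v ∧ l.length = p + 1 ∧ (∀ x ∈ l, x ∈ S) ∧ col u ≠ col v := by
  classical
  by_cases hmono : ∀ i, col (f i) = col (f 0)
  · obtain ⟨y, hy, hyc⟩ : ∃ y ∈ S, col y ≠ col (f 0) := by
      obtain ⟨a, haS, b, hbS, hab⟩ := hcol
      by_cases h : col a = col (f 0)
      · exact ⟨b, hbS, fun h' => hab (h.trans h'.symm)⟩
      · exact ⟨a, haS, h⟩
    obtain ⟨l, u, hl, hu, hlS, hlX⟩ := hS.reach (X := (Finset.range L).image f)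
      (by intro x hx; obtain ⟨i, -, rfl⟩ := Finset.mem_image.1 hx; exact hmem i)
      ⟨f 0, Finset.mem_image.2 ⟨0, by simp; omega, rfl⟩⟩ hy
    obtain ⟨i₀, hi₀, rfl⟩ := Finset.mem_image.1 hu
    obtain ⟨q, hq, hq0, hqe, hql⟩ := hl.toPF
    have hex : ∃ k, col (q k) ≠ col (f 0) := ⟨_, by rw [hqe]; exact hyc⟩
    set k := Nat.find hex
    have hk : col (q k) ≠ col (f 0) := Nat.find_spec hex
    have hkl : k ≤ l.length - 1 := Nat.find_le (by rw [hqe]; exact hyc)
    have hlt : ∀ i, i < k → col (q i) = col (f 0) := fun i hi => not_not.1 (Nat.find_min hex hi)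
    by_cases hkp : p ≤ k
    · refine ⟨sg q (k - p) k, _, _, hq.sg (Nat.sub_le k p) hkl, by rw [length_sg]; omega, ?_, ?_⟩
      · intro x hx
        obtain ⟨i, -, hi, rfl⟩ := mem_sg.1 hx
        exact hlS _ ((hql _).2 ⟨i, by omega, rfl⟩)
      · rw [hlt (k - p) (by omega)]; exact hk.symm
    · have hk0 : 0 < k := Nat.pos_of_ne_zero fun h => hk (by rw [h, hq0]; exact hmono i₀)
      have hlast : G.Adj (f (i₀ + L - 1)) (q 0) := by
        have h := hadj (i₀ + L - 1)
        rw [show i₀ + L - 1 + 1 = i₀ + L by omega, hper] at h
        rwa [hq0]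
      refine ⟨sg f (i₀ + L - (p - k)) (i₀ + L - 1) ++ sg q 0 k, _, _,
        (isP_arc hper hinj hadj (by omega) (by omega)).append (hq.sg (Nat.zero_le k) hkl) hlast ?_,
        by simp only [List.length_append, length_sg]; omega, ?_, ?_⟩
      · intro x hx hx'
        obtain ⟨i, hi1, hi2, rfl⟩ := mem_sg.1 hx
        obtain ⟨j, -, hj, he⟩ := mem_sg.1 hx'
        have hX : f i ∈ (Finset.range L).image f :=
          Finset.mem_image.2 ⟨i % L, Finset.mem_range.2 (Nat.mod_lt _ (by omega)), per_mod hper i⟩
        have h := hlX _ ((hql _).2 ⟨j, by omega, he⟩) hX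
        have h' : f i = f (i₀ + L) := by rw [hper]; exact h
        have := inj_window hper hinj h' (by omega) (by omega)
        omega
      · intro x hx
        rcases List.mem_append.1 hx with h | h
        · obtain ⟨i, -, -, rfl⟩ := mem_sg.1 h; exact hmem i
        · obtain ⟨i, -, hi, rfl⟩ := mem_sg.1 h
          exact hlS _ ((hql _).2 ⟨i, by omega, rfl⟩)
      · rw [hmono]; exact hk.symm
  · by_contra hnone
    have hwp : ∀ i, col (f (i + p)) = col (f i) := by
      intro i
      by_contra h
      exact hnone ⟨sg f i (i + p), _, _, isP_arc hper hinj hadj (by omega) (by omega),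
        by rw [length_sg]; omega, fun x hx => by obtain ⟨j, -, -, rfl⟩ := mem_sg.1 hx; exact hmem j,
        fun h' => h h'.symm⟩
    obtain ⟨g, ⟨hg0, hgw⟩, hgmin⟩ : ∃ g, (0 < g ∧ ∀ i, col (f (i + g)) = col (f i)) ∧
        ∀ d, 0 < d → (∀ i, col (f (i + d)) = col (f i)) → g ≤ d :=
      have hex : ∃ g, 0 < g ∧ ∀ i, col (f (i + g)) = col (f i) := ⟨p, hp, hwp⟩
      ⟨Nat.find hex, Nat.find_spec hex, fun d h1 h2 => Nat.find_le ⟨h1, h2⟩⟩
    have W0 : Word G S f L p g col := ⟨hper, hinj, hadj, hmem, hnone, hg0, hgw, hgmin⟩
    have hg2 : 2 ≤ g := by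
      by_contra h
      exact hmono fun i => W0.col_congr (by rw [show g = 1 by omega]; simp [Nat.mod_one])
    obtain ⟨a, e, he2, heL, hch⟩ := hchord
    have mkW : ∀ b, Word G S (fun i => f (i + b)) L p g col := by
      intro b
      refine ⟨fun i => ?_, fun i j hi hj he => ?_, fun i => ?_, fun i => hmem _, hnone, hg0,
        fun i => ?_, fun d hd hd' => hgmin d hd fun i => ?_⟩
      · show f (i + L + b) = f (i + b)
        rw [Nat.add_right_comm, hper]
      · have := inj_window hper hinj he (by omega) (by omega)
        omega
      · show G.Adj (f (i + b)) (f (i + 1 + b))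
        rw [Nat.add_right_comm]; exact hadj _
      · show col (f (i + g + b)) = col (f (i + b))
        rw [Nat.add_right_comm, hgw]
      · have hz : ∀ t, col (f (t + g * b)) = col (f t) := fun t =>
          W0.col_congr (Nat.add_mul_mod_self_left t g b)
        have hb : b ≤ i + g * b := le_add_of_nonneg_of_le (Nat.zero_le _)
          (Nat.le_mul_of_pos_left _ hg0)
        have := hd' (i + g * b - b)
        rw [show i + g * b - b + d + b = i + d + g * b by omega,
          Nat.sub_add_cancel hb, hz, hz] at this
        exact this
    have W1 := mkW a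
    have W2 := mkW (a + e)
    have hch1 : G.Adj (f (0 + a)) (f (e + a)) := by simpa [Nat.add_comm e a] using hch
    have hgp : g ∣ p := W0.dvd hwp
    have hgL : g ∣ L := W0.dvd fun i => by rw [hper]
    have hgle : g ≤ p := Nat.le_of_dvd hp hgp
    have hpgL : p + g ≤ L := by
      obtain ⟨k, rfl⟩ := hgp
      obtain ⟨k', rfl⟩ := hgL
      have : g * (k + 1) ≤ g * k' := Nat.mul_le_mul_left g (Nat.lt_of_mul_lt_mul_left hpL)
      linarith
    have short : ∀ (b d : ℕ), G.Adj (f (0 + b)) (f (d + b)) → 2 ≤ d → d + 2 ≤ L → g + d ≤ L := by
      intro b d hbd hd2 hdL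
      by_contra hlt
      have h1 := (mkW b).period_of_chord hbd hgp hp (by omega) (by omega)
      have h2 : g ∣ L - (d + 1) := Nat.dvd_sub hgL h1
      have := Nat.le_of_dvd (by omega) h2
      omega
    have hge' : g + e ≤ L := short a e hch1 he2 heL
    have hge : g + (L - e) ≤ L := short (a + e) (L - e) (by
      rw [show L - e + (a + e) = a + L by omega, hper, Nat.zero_add]
      exact hch.symm) (by omega) (by omega)
    have per2 : ∀ i, col (f (i + 2)) = col (f i) := by
      intro i
      have hb : a ≤ i + g * a := le_add_of_nonneg_of_le (Nat.zero_le _)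
        (Nat.le_mul_of_pos_left _ hg0)
      set x := i + g * a - a
      have hx1 : x + 1 ≤ e + g * (x + 1) := le_add_of_nonneg_of_le (Nat.zero_le _)
        (Nat.le_mul_of_pos_left _ hg0)
      set y := e + g * (x + 1) - (x + 1)
      have h1 := W1.refl_pos (e := e) hch1 hgp (by omega) hge' hgle hpgL (x := x) (y := y)
        (by rw [show x + y + 1 = e + g * (x + 1) by omega, Nat.add_mul_mod_self_left])
      have h2 := W1.refl_neg (e := e) hch1 hgp hgL (by omega) hge' hgle hpgL (x := x + 2) (y := y)
        (by rw [show x + 2 + y = e + 1 + g * (x + 1) by omega, Nat.add_mul_mod_self_left])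
      have h3 : col (f (x + a)) = col (f (x + 2 + a)) := h1.trans h2.symm
      rw [show x + a = i + g * a by omega, show x + 2 + a = i + 2 + g * a by omega,
        W0.col_congr (Nat.add_mul_mod_self_left i g a),
        W0.col_congr (Nat.add_mul_mod_self_left (i + 2) g a)] at h3
      exact h3.symm
    obtain rfl : g = 2 := le_antisymm (hgmin 2 (by omega) per2) hg2
    -- the colours alternate along the cycle
    have alt : ∀ i, col (f (i + 1)) ≠ col (f i) := by
      intro i h1
      refine hmono fun j => ?_
      have hall : ∀ j, col (f j) = col (f i) := fun j => by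
        rcases Nat.mod_two_eq_zero_or_one (i + j) with hj | hj
        · exact W0.col_congr (by omega)
        · exact (W0.col_congr (j := i + 1) (by omega)).trans h1
      rw [hall j, hall 0]
    have heven : ∀ i d, 2 ≤ d → d + 2 ≤ L → 2 ∣ d → ¬G.Adj (f i) (f (i + d)) := by
      intro i d hd2 hdL hd hadj'
      have h1 : G.Adj (f (0 + i)) (f (d + i)) := by simpa [Nat.add_comm d i] using hadj'
      have := (mkW i).refl_pos (e := d) h1 hgp (by omega) (by omega) hgle hpgL (x := 0) (y := 1)
        (by omega)
      exact alt i (by simpa [Nat.add_comm 1 i] using this.symm)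
    set X := (Finset.range L).image f with hX
    have hfX : ∀ i, f i ∈ X := fun i =>
      Finset.mem_image.2 ⟨i % L, Finset.mem_range.2 (Nat.mod_lt _ (by omega)), per_mod hper i⟩
    -- paths leaving the cycle alternate
    have hout : ∀ (q : ℕ → V) (n i₀ : ℕ), PF G q n → q 0 = f i₀ → (∀ i, i ≤ n → q i ∈ S) →
        (∀ i, 1 ≤ i → i ≤ n → q i ∉ X) → ∀ j, j ≤ n → col (q j) = col (f (i₀ + j)) := by
      intro q n i₀ hq hq0 hqS hqX j
      induction j using Nat.strong_induction_on with
      | _ j ih =>
        intro hj
        rcases Nat.eq_zero_or_pos j with rfl | hj1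
        · rw [hq0, Nat.add_zero]
        rcases Nat.lt_or_ge j p with hjp | hjp
        · have hlast : G.Adj (f (i₀ + L - 1)) (q 0) := by
            have h1 := hadj (i₀ + L - 1)
            rw [show i₀ + L - 1 + 1 = i₀ + L by omega, hper] at h1
            rwa [hq0]
          have h2 : col (f (i₀ + L - (p - j))) = col (q j) := by
            by_contra hne
            refine hnone ⟨_, _, _, (isP_arc hper hinj hadj (a := i₀ + L - (p - j)) (b := i₀ + L - 1)
              (by omega) (by omega)).append (hq.sg (Nat.zero_le j) hj) hlast ?_,
              by simp only [List.length_append, length_sg]; omega, ?_, hne⟩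
            · intro x hx hx'
              obtain ⟨i, hi1, hi2, rfl⟩ := mem_sg.1 hx
              obtain ⟨m, -, hm, he⟩ := mem_sg.1 hx'
              rcases Nat.eq_zero_or_pos m with rfl | hm0
              · have := inj_window hper hinj (he.symm.trans (hq0.trans (hper i₀).symm))
                  (by omega) (by omega)
                omega
              · exact hqX m hm0 (by omega) (he ▸ hfX i)
            · intro x hx
              rcases List.mem_append.1 hx with h | h
              · obtain ⟨i, -, -, rfl⟩ := mem_sg.1 h; exact hmem i
              · obtain ⟨i, -, hi, rfl⟩ := mem_sg.1 h; exact hqS i (by omega)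
          rw [← h2]
          refine W0.col_congr ?_
          obtain ⟨c, hc⟩ := hgp
          obtain ⟨c', hc'⟩ := hgL
          omega
        · have h2 : col (q (j - p)) = col (q j) := by
            by_contra hne
            exact hnone ⟨sg q (j - p) j, _, _, hq.sg (Nat.sub_le j p) hj, by rw [length_sg]; omega,
              fun x hx => by obtain ⟨i, -, hi, rfl⟩ := mem_sg.1 hx; exact hqS i (by omega), hne⟩
          rw [← h2, ih (j - p) (by omega) (by omega)]
          refine W0.col_congr ?_
          obtain ⟨c, hc⟩ := hgp
          omega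
    -- hence every edge is bicoloured
    have hedge : ∀ x ∈ S, ∀ y ∈ S, G.Adj x y → col x ≠ col y := by
      intro x hx y hy hxy hcxy
      have cross : ∀ u w i, u = f i → w ∈ S → w ∉ X → G.Adj u w → col u ≠ col w := by
        intro u w i hu hwS hwX huw he
        have h1 := hout (fun n => if n = 0 then f i else w) 1 i
          ⟨fun a b ha hb e' => by
            interval_cases a <;> interval_cases b <;> simp at e' ⊢
            · exact hwX (e' ▸ hfX i)
            · exact hwX (e'.symm ▸ hfX i),
           fun a ha => by interval_cases a; simpa [← hu] using huw⟩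
          (by simp) (fun a _ => by split_ifs <;> first | exact hmem i | exact hwS)
          (fun a ha ha' => by show (if a = 0 then f i else w) ∉ X; rw [if_neg (by omega)]; exact hwX) 1 le_rfl
        simp only [Nat.one_ne_zero, if_false] at h1
        exact alt i (by rw [← h1, ← he, hu])
      by_cases hxX : x ∈ X
      · obtain ⟨i, hi, rfl⟩ := Finset.mem_image.1 hxX
        by_cases hyX : y ∈ X
        · obtain ⟨j, hj, rfl⟩ := Finset.mem_image.1 hyX
          rw [Finset.mem_range] at hi hj
          have key : ∀ a b, a < b → b < L → G.Adj (f a) (f b) → col (f a) = col (f b) → False := by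
            intro a b hab hb hadj' hc
            have hpar : (b - a) % 2 = 0 := by
              by_contra hodd
              exact alt a ((W0.col_congr (j := b) (by omega)).trans hc.symm)
            obtain ⟨c', hc'⟩ := hgL
            exact heven a (b - a) (by omega) (by omega) (Nat.dvd_of_mod_eq_zero hpar)
              (by rwa [show a + (b - a) = b by omega])
          rcases lt_trichotomy i j with h' | h' | h'
          · exact key i j h' hj hxy hcxy
          · subst h'; exact G.irrefl hxy
          · exact key j i h' hi hxy.symm hcxy.symm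
        · exact cross _ y i rfl hy hyX hxy hcxy
      · by_cases hyX : y ∈ X
        · obtain ⟨j, -, rfl⟩ := Finset.mem_image.1 hyX
          exact cross _ x j rfl hx hxX hxy.symm hcxy.symm
        obtain ⟨l, u, hl, hu, hlS, hlX⟩ := hS.reach (X := X)
          (by intro z hz; obtain ⟨i, -, rfl⟩ := Finset.mem_image.1 hz; exact hmem i)
          ⟨f 0, hfX 0⟩ hx
        obtain ⟨i₀, -, rfl⟩ := Finset.mem_image.1 hu
        have finish : ∀ (l : List V) (w : V), IsP G l (f i₀) w → (∀ z ∈ l, z ∈ S) →
            (∀ z ∈ l, z ∈ X → z = f i₀) → col w = col (f (i₀ + (l.length - 1))) := by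
          intro l w hl hlS hlX
          obtain ⟨q, hq, hq0, hqe, hqm⟩ := hl.toPF
          rw [← hqe]
          refine hout q _ i₀ hq hq0 (fun i hi => hlS _ ((hqm _).2 ⟨i, hi, rfl⟩))
            (fun i hi1 hi hiX => ?_) _ le_rfl
          have := hq.1 i 0 hi (Nat.zero_le _) ((hlX _ ((hqm _).2 ⟨i, hi, rfl⟩) hiX).trans hq0.symm)
          omega
        have hcx := finish l x hl hlS hlX
        by_cases hyl : y ∈ l
        · obtain ⟨A, B, rfl⟩ := List.append_of_mem hyl
          have hl' := hl.left
          have hxn : x ∉ A ++ [y] := by
            intro hm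
            have hn := hl.2.1
            have hlast := hl.2.2.2
            rcases List.eq_nil_or_concat B with rfl | ⟨B', b, rfl⟩
            · simp at hlast; exact hxy.ne hlast.symm
            · have e' : A ++ y :: B'.concat b = (A ++ y :: B') ++ [b] := by simp
              rw [e', List.getLast?_concat, Option.some.injEq] at hlast
              subst hlast
              have e : A ++ y :: B'.concat b = (A ++ [y]) ++ (B' ++ [b]) := by simp
              rw [e] at hn
              exact List.disjoint_of_nodup_append hn hm (by simp)
          have hl'' := hl'.concat hxy.symm hxn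
          have hcy := finish _ y hl' (fun z hz => hlS z (by simp at hz ⊢; tauto))
            (fun z hz => hlX z (by simp at hz ⊢; tauto))
          have hcx' := finish _ x hl'' (fun z hz => by
              simp at hz
              rcases hz with hz | hz | hz
              · exact hlS z (by simp [hz])
              · exact hz ▸ hy
              · exact hz ▸ hx)
            (fun z hz hzX => by
              simp at hz
              rcases hz with hz | hz | hz
              · exact hlX z (by simp [hz]) hzX
              · exact hlX z (by simp [hz]) hzX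
              · exact absurd (hz ▸ hzX) hxX)
          simp at hcy hcx'
          exact alt (i₀ + A.length) (by
            rw [show i₀ + A.length + 1 = i₀ + (A.length + 1) by omega, ← hcx', ← hcy, hcxy])
        · have hl' := hl.concat hxy hyl
          have hcy := finish _ y hl' (fun z hz => by
              simp at hz
              rcases hz with hz | hz
              · exact hlS z hz
              · exact hz ▸ hy)
            (fun z hz hzX => by
              simp at hz
              rcases hz with hz | hz
              · exact hlX z hz hzX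
              · exact absurd (hz ▸ hzX) hyX)
          have hpos := List.length_pos_of_ne_nil hl.ne_nil
          simp at hcy
          exact alt (i₀ + (l.length - 1)) (by
            rw [show i₀ + (l.length - 1) + 1 = i₀ + l.length by omega, ← hcy, ← hcx, hcxy])
    have hind : ∀ b : Bool, Indep G (S.filter fun x => col x = b) := fun b x hx y hy hxy =>
      hedge x (Finset.mem_filter.1 hx).1 y (Finset.mem_filter.1 hy).1 hxy
        ((Finset.mem_filter.1 hx).2.trans (Finset.mem_filter.1 hy).2.symm)
    have h1 := le_al (S := S) (Finset.filter_subset _ _) (hind true)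
    have h2 := le_al (S := S) (Finset.filter_subset _ _) (hind false)
    have h3 := Finset.card_filter_add_card_filter_not (s := S) fun x => col x = true
    simp only [Bool.not_eq_true] at h3
    omega

end Vale.Agent.P048.Full
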