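import Vale.Agent.P048.Cycle.Dirac
import Vale.Agent.P048.Cycle.Core
import Vale.Agent.P048.Cycle.Colour

/-!
A dense set inside one neighbourhood gives a `(k+1)`-cycle, minimum degree `k/2 - 1` version.
-/

namespace Vale.Agent.P048.Full

open Finset Vale.Agent.P048.Cycle

variable {V : Type*} [DecidableEq V] {G : SimpleGraph V}

/-- A longest path of a connected finset with independence number at most two covers it. -/
theorem ham_of_al_two {H : Finset V} (hS : Conn G H) (hal : al G H ≤ 2) {f : ℕ → V} {l : ℕ}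
    (h : PF G f l) (hfS : ∀ i, i ≤ l → f i ∈ H)
    (hmax : ∀ (g : ℕ → V) (m : ℕ), PF G g m → (∀ i, i ≤ m → g i ∈ H) → m ≤ l) (hl : 2 ≤ l) :
    H.card ≤ l + 1 := by
  classical
  by_contra hlt
  have hne : ((range (l + 1)).image f).card < H.card :=
    lt_of_le_of_lt card_image_le (by rw [card_range]; omega)
  obtain ⟨y, hy, hyP⟩ := not_subset.1 fun hsub : H ⊆ (range (l + 1)).image f =>
    absurd (card_le_card hsub) (by omega)
  have hyne : ∀ i, i ≤ l → f i ≠ y := fun i hi e =>
    hyP (mem_image.2 ⟨i, mem_range.2 (by omega), e⟩)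
  have h0y : ¬G.Adj (f 0) y := fun ha => by
    obtain ⟨i, -, hi, e⟩ := end_nbr h hfS hmax hy ha
    exact hyne i hi e
  have hly : ¬G.Adj (f l) y := fun ha => by
    obtain ⟨i, -, -, e⟩ := end_nbr h.reverse (fun i _ => hfS _ (by omega)) hmax hy (by simpa using ha)
    exact hyne (l - i) (by omega) e
  have h0l : ¬G.Adj (f l) (f 0) := fun ha => by
    have hp := h.sg (Nat.zero_le l) le_rfl
    obtain ⟨g, hg, hgS⟩ := cyc_extend hS hp ha (fun x hx => by
      obtain ⟨i, -, hi, rfl⟩ := mem_sg.1 hx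
      exact hfS i hi) (by simp; omega)
    have := hmax g _ hg hgS
    simp at this
  have hne0 : f 0 ≠ f l := fun e => by have := h.1 0 l (by omega) le_rfl e; omega
  have h3 := le_al (G := G) (S := H) (J := {f 0, f l, y}) (by
    simp [insert_subset_iff, hfS 0 (by omega), hfS l le_rfl, hy]) (by
    intro a ha b hb
    simp only [mem_insert, mem_singleton] at ha hb
    rcases ha with rfl | rfl | rfl <;> rcases hb with rfl | rfl | rfl
    all_goals first
      | exact G.irrefl | exact h0y | exact hly | exact h0l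
      | exact fun e => h0y e.symm
      | exact fun e => hly e.symm
      | exact fun e => h0l e.symm)
  rw [card_insert_of_notMem (by simp [hne0, hyne 0 (by omega)]), card_pair (hyne l le_rfl)] at h3
  omega

/-- A dense connected set without cut vertex inside a neighbourhood gives a `(k+1)`-cycle. -/
theorem common_nbr' {k : ℕ} {H : Finset V} (hk : 6 ≤ k) (hS : Conn G H) (hn : NoCut G H)
    (hd : ∀ x ∈ H, k ≤ 2 * (degIn G H x + 1)) (hcard : k ≤ H.card)
    (hdense : (k - 1) * al G H + 1 ≤ 2 * H.card) {w : V} (hw : ∀ x ∈ H, G.Adj w x) :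
    HasCyc G (k + 1) := by
  classical
  -- it suffices to find a path on `k` vertices
  suffices hp : ∃ (f : ℕ → V) (l : ℕ), PF G f l ∧ (∀ i, i ≤ l → f i ∈ H) ∧ k - 1 ≤ l by
    obtain ⟨f, l, hf, hfH, hkl⟩ := hp
    have hp := hf.sg (Nat.zero_le (k - 1)) hkl
    have hwn : w ∉ sg f 0 (k - 1) := by
      intro hm
      obtain ⟨i, -, hi, e⟩ := mem_sg.mp hm
      exact G.irrefl (hw w (e ▸ hfH i (by omega)))
    refine ⟨_, _, _, hp.concat (hw _ (hfH _ hkl)).symm hwn, hw _ (hfH 0 (by omega)), ?_⟩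
    simp; omega
  by_contra hno
  simp only [not_exists, not_and, not_le] at hno
  have hne : H.Nonempty := card_pos.1 (by omega)
  have hdeg : ∀ x ∈ H, (k - 1) / 2 ≤ degIn G H x := fun x hx => by have := hd x hx; omega
  obtain ⟨p, pl, hp, hpS, hmax⟩ := exists_longest (G := G) hne
  obtain ⟨q, ql, hq, hqS, hql⟩ := long_path hS hne hdeg
  have hpl : k - 2 ≤ pl := by
    have := hmax q ql hq hqS
    omega
  obtain ⟨f, L, hL3, hL, hper, hinj, hadj, hmem⟩ := dirac_cycle hS hn hne (d := (k - 1) / 2)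
    (by omega) hdeg
  have harc : ∀ a, IsP G (sg f a (a + (L - 1))) (f a) (f (a + (L - 1))) := fun a =>
    isP_arc hper hinj hadj (by omega) (by omega)
  set Z := (range L).image f with hZ
  have hfZ : ∀ i, f i ∈ Z := fun i =>
    mem_image.2 ⟨i % L, mem_range.2 (Nat.mod_lt _ (by omega)), per_mod hper i⟩
  have hZc : Z.card = L := by
    rw [hZ, card_image_of_injOn, card_range]
    intro i hi j hj e
    simp at hi hj
    exact hinj i j hi hj e
  have hL1 : L + 1 < k := by
    by_contra hh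
    rcases Nat.lt_or_ge L k with hl | hl
    · obtain ⟨g, hg, hgS⟩ := cyc_extend hS (harc 0) (by
        have := hadj (0 + (L - 1))
        rwa [show 0 + (L - 1) + 1 = 0 + L by omega, hper] at this) (fun x hx => by
          obtain ⟨i, -, -, rfl⟩ := mem_sg.1 hx; exact hmem i) (by simp; omega)
      have := hno g _ hg hgS
      simp at this; omega
    · obtain ⟨g, hg, -, -, hgm⟩ := (harc 0).toPF
      have := hno g _ hg (fun i hi => by
        obtain ⟨n, -, -, e⟩ := mem_sg.1 ((hgm (g i)).2 ⟨i, hi, rfl⟩)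
        exact e ▸ hmem n)
      simp at this; omega
  set Y := H \ Z with hY
  by_cases hYind : Indep G Y
  · have hYa := le_al (G := G) (S := H) (J := Y) sdiff_subset hYind
    have hsum : Y.card + L = H.card := by
      rw [hY, ← hZc]
      exact card_sdiff_add_card_eq_card fun x hx => by
        obtain ⟨i, -, rfl⟩ := mem_image.1 hx; exact hmem i
    have hal : al G H ≤ 2 := by
      by_contra hh
      obtain ⟨c, hc⟩ := Nat.exists_eq_add_of_le (show 3 ≤ al G H by omega)
      rw [hc, Nat.mul_add] at hdense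
      have h5 := Nat.mul_le_mul_right c (show 5 ≤ k - 1 by omega)
      omega
    have := ham_of_al_two hS hal hp hpS hmax (by omega)
    have := hno p pl hp hpS
    omega
  · simp only [Indep, not_forall, not_not] at hYind
    obtain ⟨u₀, hu₀, v₀, hv₀, huv₀⟩ := hYind
    set Y1 := Y.filter fun y => ∃ z ∈ Y, G.Adj y z with hY1
    obtain ⟨a, ha, b, hb, hab⟩ := hS (H \ Y1) sdiff_subset
      ⟨f 0, mem_sdiff.2 ⟨hmem 0, fun hh => (mem_sdiff.1 (mem_filter.1 hh).1).2 (hfZ 0)⟩⟩
      (fun e => by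
        have h1 : u₀ ∈ H \ Y1 := by rw [e]; exact (mem_sdiff.1 hu₀).1
        exact (mem_sdiff.1 h1).2 (mem_filter.2 ⟨hu₀, v₀, hv₀, huv₀⟩))
    have hb1 : b ∈ Y1 := by
      by_contra hh
      exact (mem_sdiff.1 hb).2 (mem_sdiff.2 ⟨(mem_sdiff.1 hb).1, hh⟩)
    obtain ⟨hbY, z, hzY, hbz⟩ := mem_filter.1 hb1
    have haZ : a ∈ Z := by
      by_contra hh
      exact (mem_sdiff.1 ha).2 (mem_filter.2 ⟨mem_sdiff.2 ⟨(mem_sdiff.1 ha).1, hh⟩, b, hbY, hab⟩)
    obtain ⟨i₀, -, rfl⟩ := mem_image.1 haZ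
    have hnZ : ∀ y ∈ Y, y ∉ sg f i₀ (i₀ + (L - 1)) := fun y hy hm => by
      obtain ⟨n, -, -, e⟩ := mem_sg.1 hm
      exact (mem_sdiff.1 hy).2 (e ▸ hfZ n)
    have h2 := ((harc i₀).cons hab.symm (hnZ b hbY)).cons hbz.symm (by
      simp only [List.mem_cons, not_or]
      exact ⟨hbz.ne.symm, hnZ z hzY⟩)
    obtain ⟨g, hg, -, -, hgm⟩ := h2.toPF
    have := hno g _ hg (fun i hi => by
      have hm := (hgm (g i)).2 ⟨i, hi, rfl⟩
      simp only [List.mem_cons, mem_sg] at hm
      rcases hm with e | e | ⟨n, -, -, e⟩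
      · exact e ▸ (mem_sdiff.1 hzY).1
      · exact e ▸ (mem_sdiff.1 hbY).1
      · exact e ▸ hmem n)
    simp at this; omega

end Vale.Agent.P048.Full
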