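import Vale.Agent.P048.Cycle.Dirac

/-!
A long cycle with a chord in a finset without cut vertex and of minimum degree at least three.
-/

namespace Vale.Agent.P048.Full

open Finset Vale.Agent.P048.Cycle

variable {V : Type*} {G : SimpleGraph V}
variable {S X Y : Finset V} {l₁ l₂ : List V} {a₁ b₁ a₂ b₂ : V}
variable [DecidableEq V]

/-- The neighbours of the first vertex on a list containing them. -/
theorem three_le [DecidableEq V] [DecidableRel G.Adj] {f : ℕ → V} {l : ℕ} (h : PF G f l) {A : Finset ℕ}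
    (hA : ∀ i ∈ A, 1 ≤ i ∧ i ≤ l ∧ G.Adj (f 0) (f i)) (h3 : 3 ≤ A.card) {c : List V}
    (hc : ∀ i ∈ A, f i ∈ c) : 3 ≤ (c.toFinset.filter fun y => G.Adj (f 0) y).card := by
  refine h3.trans ?_
  rw [← card_image_of_injOn (f := f) fun i hi j hj e => h.1 i j (hA i hi).2.1 (hA j hj).2.1 e]
  refine card_le_card fun x hx => ?_
  obtain ⟨i, hi, rfl⟩ := mem_image.1 hx
  exact mem_filter.2 ⟨List.mem_toFinset.2 (hc i hi), (hA i hi).2.2⟩

/-- The cycle of the case without crossing. -/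
theorem cycle_of_link2 {f : ℕ → V} {l : ℕ} (h : PF G f l) (hfS : ∀ i, i ≤ l → f i ∈ S) {a b d : ℕ}
    (hab : a ≤ b) (hbl : b ≤ l) {A B : Finset ℕ}
    (hA : ∀ i ∈ A, 1 ≤ i ∧ i ≤ a ∧ G.Adj (f 0) (f i)) (hAa : a ∈ A) (hAd : d ≤ A.card)
    (hB : ∀ i ∈ B, b ≤ i ∧ i < l ∧ G.Adj (f l) (f i)) (hBb : b ∈ B) (hBd : d ≤ B.card)
    {l₁ l₂ : List V} {b₁ a₂ b₂ : V}
    (hlk : Link G S ((range (a + 1)).image f) ((Icc b l).image f) l₁ l₂ (f a) b₁ a₂ b₂)
    (hfb : f b = b₁ ∨ f b = b₂) :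
    ∃ c u v, IsP G c u v ∧ G.Adj v u ∧ (∀ x ∈ c, x ∈ S) ∧ 2 * d + 1 ≤ c.length ∧
      f 0 ∈ c ∧ ∀ i ∈ A, f i ∈ c := by
  obtain ⟨s, hs, hsa⟩ := Finset.mem_image.1 hlk.ha₂
  rw [Finset.mem_range] at hs
  have hne : f a ≠ a₂ := fun e => hlk.disj _ hlk.p₁.head_mem (e ▸ hlk.p₂.head_mem)
  have hs' : s < a := by
    rcases Nat.lt_or_ge s a with h' | h'
    · exact h'
    · exact absurd (show f a = a₂ by rw [← hsa, show s = a by omega]) hne
  obtain ⟨g, ⟨hgA, hgs⟩, hgmin⟩ : ∃ g, (g ∈ A ∧ s < g) ∧ ∀ i, i ∈ A → s < i → g ≤ i :=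
    have hex : ∃ g, g ∈ A ∧ s < g := ⟨a, hAa, hs'⟩
    ⟨Nat.find hex, Nat.find_spec hex, fun i h1 h2 => Nat.find_le ⟨h1, h2⟩⟩
  obtain ⟨hg1, hga, hg0⟩ := hA g hgA
  -- the prefix, from `f a` to `f s`
  have hpre : IsP G ((sg f g a).reverse ++ sg f 0 s) (f a) a₂ := by
    refine hsa ▸ (h.sg hga (by omega)).reverse.append (h.sg (Nat.zero_le s) (by omega)) hg0.symm ?_
    intro x hx hx'
    obtain ⟨i, hi1, hi2, rfl⟩ := mem_sg.1 (List.mem_reverse.1 hx)
    obtain ⟨j, -, hj, e⟩ := mem_sg.1 hx'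
    have := h.1 j i (by omega) (by omega) e
    omega
  have hpreX : ∀ x ∈ (sg f g a).reverse ++ sg f 0 s, x ∈ (range (a + 1)).image f := by
    intro x hx
    rcases List.mem_append.1 hx with hx | hx
    · obtain ⟨i, -, hi, rfl⟩ := mem_sg.1 (List.mem_reverse.1 hx)
      exact mem_image.2 ⟨i, mem_range.2 (by omega), rfl⟩
    · obtain ⟨i, -, hi, rfl⟩ := mem_sg.1 hx
      exact mem_image.2 ⟨i, mem_range.2 (by omega), rfl⟩
  -- the suffix, joining the two far ends
  have hbne : b₁ ≠ b₂ := fun e => hlk.disj _ hlk.p₁.last_mem (e ▸ hlk.p₂.last_mem)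
  obtain ⟨t, ht, htb, hti⟩ : ∃ t, b < t ∧ t ≤ l ∧
      ((f b = b₁ ∧ f t = b₂) ∨ (f b = b₂ ∧ f t = b₁)) := by
    rcases hfb with e | e
    · obtain ⟨t, ht, hte⟩ := mem_image.1 hlk.hb₂
      rw [mem_Icc] at ht
      refine ⟨t, lt_of_le_of_ne ht.1 fun e' => hbne ?_, ht.2, Or.inl ⟨e, hte⟩⟩
      rw [← e, ← hte, e']
    · obtain ⟨t, ht, hte⟩ := mem_image.1 hlk.hb₁
      rw [mem_Icc] at ht
      refine ⟨t, lt_of_le_of_ne ht.1 fun e' => hbne ?_, ht.2, Or.inr ⟨e, hte⟩⟩
      rw [← e, ← hte, e']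
  obtain ⟨k, ⟨hkB, hkt⟩, hkmax⟩ : ∃ k, (k ∈ B ∧ k < t) ∧ ∀ i, i ∈ B → i < t → i ≤ k :=
    have hne : (B.filter fun i => i < t).Nonempty := ⟨b, mem_filter.2 ⟨hBb, ht⟩⟩
    ⟨(B.filter fun i => i < t).max' hne, mem_filter.1 (max'_mem _ hne),
      fun i h1 h2 => le_max' _ i (mem_filter.2 ⟨h1, h2⟩)⟩
  obtain ⟨hkb, hkl, hkadj⟩ := hB k hkB
  have hsuf : IsP G (sg f b k ++ (sg f t l).reverse) (f b) (f t) := by
    refine (h.sg hkb (by omega)).append (h.sg htb le_rfl).reverse hkadj.symm ?_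
    intro x hx hx'
    obtain ⟨i, hi1, hi2, rfl⟩ := mem_sg.1 hx
    obtain ⟨j, hj, hj', e⟩ := mem_sg.1 (List.mem_reverse.1 hx')
    have := h.1 j i (by omega) (by omega) e
    omega
  have hsufY : ∀ x ∈ sg f b k ++ (sg f t l).reverse, x ∈ (Icc b l).image f := by
    intro x hx
    rcases List.mem_append.1 hx with hx | hx
    · obtain ⟨i, hi1, hi2, rfl⟩ := mem_sg.1 hx
      exact mem_image.2 ⟨i, mem_Icc.2 ⟨hi1, by omega⟩, rfl⟩
    · obtain ⟨i, hi1, hi2, rfl⟩ := mem_sg.1 (List.mem_reverse.1 hx)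
      exact mem_image.2 ⟨i, mem_Icc.2 ⟨by omega, hi2⟩, rfl⟩
  obtain ⟨Q, hQ, hQm⟩ : ∃ Q, IsP G Q b₂ b₁ ∧ ∀ x, x ∈ Q ↔ x ∈ sg f b k ++ (sg f t l).reverse := by
    rcases hti with ⟨e1, e2⟩ | ⟨e1, e2⟩
    · exact ⟨_, e1 ▸ e2 ▸ hsuf.reverse, fun x => List.mem_reverse⟩
    · exact ⟨_, e1 ▸ e2 ▸ hsuf, fun x => Iff.rfl⟩
  obtain ⟨P₁, hP₁, hP₁m⟩ := hlk.p₁.reverse.glue hpre fun x hx hx' =>
    hlk.x₁ x (List.mem_reverse.1 hx) (hpreX x hx')
  obtain ⟨P, hP, hPm⟩ := hP₁.glue hlk.p₂ fun x hx hx' => by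
    rcases (hP₁m x).1 hx with hx | hx
    · exact absurd hx' (hlk.disj x (List.mem_reverse.1 hx))
    · exact hlk.x₂ x hx' (hpreX x hx)
  obtain ⟨c, u, v, hc, hvu, hcm⟩ := hP.close hQ hbne.symm fun x hx hx' => by
    have hxY := hsufY x ((hQm x).1 hx')
    rcases (hPm x).1 hx with hx | hx
    · refine Or.inl ?_
      rcases (hP₁m x).1 hx with hx | hx
      · exact hlk.y₁ x (List.mem_reverse.1 hx) hxY
      · obtain ⟨i, hi, rfl⟩ := mem_image.1 (hpreX x hx)
        obtain ⟨j, hj, e⟩ := mem_image.1 hxY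
        rw [mem_range] at hi
        rw [mem_Icc] at hj
        have := h.1 j i hj.2 (by omega) e
        rw [show i = a by omega] at hxY ⊢
        exact hlk.y₁ _ hlk.p₁.head_mem hxY
    · exact Or.inr (hlk.y₂ x hx hxY)
  have hin : ∀ x, x ∈ c ↔ ((x ∈ l₁ ∨ x ∈ (sg f g a).reverse ++ sg f 0 s) ∨ x ∈ l₂) ∨
      x ∈ sg f b k ++ (sg f t l).reverse := fun x => by
    rw [hcm, hPm, hP₁m, hQm, List.mem_reverse]
  refine ⟨c, u, v, hc, hvu, fun x hx => ?_, ?_⟩
  · rcases (hin x).1 hx with ((hx | hx) | hx) | hx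
    · exact hlk.sub x (Or.inl hx)
    · obtain ⟨i, hi, rfl⟩ := mem_image.1 (hpreX x hx)
      exact hfS i (by rw [mem_range] at hi; omega)
    · exact hlk.sub x (Or.inr hx)
    · obtain ⟨i, hi, rfl⟩ := mem_image.1 (hsufY x hx)
      exact hfS i (mem_Icc.1 hi).2
  have hI : ∀ i ∈ insert 0 A ∪ insert l B, f i ∈ c := by
    intro i hi
    refine (hin _).2 ?_
    simp only [mem_union, mem_insert] at hi
    rcases hi with (rfl | hi) | (rfl | hi)
    · refine Or.inl (Or.inl (Or.inr (List.mem_append.2 (Or.inr ?_))))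
      exact mem_sg.2 ⟨0, le_rfl, Nat.zero_le _, rfl⟩
    · refine Or.inl (Or.inl (Or.inr (List.mem_append.2 ?_)))
      by_cases his : i ≤ s
      · exact Or.inr (mem_sg.2 ⟨i, Nat.zero_le _, his, rfl⟩)
      · exact Or.inl (List.mem_reverse.2
          (mem_sg.2 ⟨i, hgmin i hi (by omega), (hA i hi).2.1, rfl⟩))
    · exact Or.inr (List.mem_append.2 (Or.inr (List.mem_reverse.2
        (mem_sg.2 ⟨i, htb, le_rfl, rfl⟩))))
    · refine Or.inr (List.mem_append.2 ?_)
      by_cases hit : i < t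
      · exact Or.inl (mem_sg.2 ⟨i, (hB i hi).1, hkmax i hi hit, rfl⟩)
      · exact Or.inr (List.mem_reverse.2
          (mem_sg.2 ⟨i, by omega, by have := (hB i hi).2.1; omega, rfl⟩))
  refine ⟨?_, hI 0 (by simp), fun i hi => hI i (by simp [hi])⟩
  have hcard : ((insert 0 A ∪ insert l B).image f).card ≤ c.length := by
    refine le_trans (card_le_card fun x hx => ?_) (List.toFinset_card_le c)
    obtain ⟨i, hi, rfl⟩ := mem_image.1 hx
    exact List.mem_toFinset.2 (hI i hi)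
  have hle : ∀ i ∈ insert 0 A ∪ insert l B, i ≤ l := by
    intro i hi
    simp only [mem_union, mem_insert] at hi
    rcases hi with (rfl | hi) | (rfl | hi)
    · omega
    · have := hA i hi; omega
    · exact le_rfl
    · have := hB i hi; omega
  rw [card_image_of_injOn fun i hi j hj e => h.1 i j (hle i hi) (hle j hj) e] at hcard
  have hint : (insert 0 A ∩ insert l B).card ≤ 1 := by
    refine card_le_one.2 fun i hi j hj => ?_
    simp only [mem_inter, mem_insert] at hi hj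
    have key : ∀ q, (q = 0 ∨ q ∈ A) → (q = l ∨ q ∈ B) → q = a := fun q h1 h2 => by
      have hq1 : q ≤ a := h1.elim (fun e => by omega) fun e => (hA q e).2.1
      have hq2 : b ≤ q := h2.elim (fun e => by omega) fun e => (hB q e).1
      omega
    rw [key i hi.1 hi.2, key j hj.1 hj.2]
  have h0A : (0 : ℕ) ∉ A := fun h0 => by have := hA 0 h0; omega
  have hlB : l ∉ B := fun h0 => by have := hB l h0; omega
  have := card_union_add_card_inter (insert 0 A) (insert l B)
  rw [card_insert_of_notMem h0A, card_insert_of_notMem hlB] at this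
  omega

theorem dirac_chord (hS : Conn G S) (hn : NoCut G S) (hne : S.Nonempty) {d : ℕ} (hd2 : 3 ≤ d)
    (hd : ∀ x ∈ S, d ≤ degIn G S x) :
    ∃ (f : ℕ → V) (L : ℕ), 3 ≤ L ∧ min S.card (2 * d) ≤ L ∧ (∀ i, f (i + L) = f i) ∧
      (∀ i j, i < L → j < L → f i = f j → i = j) ∧ (∀ i, G.Adj (f i) (f (i + 1))) ∧
      (∀ i, f i ∈ S) ∧ ∃ a e, 2 ≤ e ∧ e + 2 ≤ L ∧ G.Adj (f a) (f (a + e)) := by
  classical
  suffices hkey : ∃ c u v, IsP G c u v ∧ G.Adj v u ∧ (∀ x ∈ c, x ∈ S) ∧ 3 ≤ c.length ∧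
      min S.card (2 * d) ≤ c.length ∧
      ∃ z ∈ c, 3 ≤ (c.toFinset.filter fun y => G.Adj z y).card by
    obtain ⟨c, u, v, hc, hvu, hcS, h3, hmin, z, hz, hz3⟩ := hkey
    obtain ⟨f, hper, hinj, hadj, hf⟩ := exists_periodic (S := c.toFinset) hc hvu
      (fun x hx => List.mem_toFinset.2 hx) rfl
    set L := c.length with hL
    have himg : (range L).image f = c.toFinset := by
      refine eq_of_subset_of_card_le (fun x hx => ?_) ?_
      · obtain ⟨i, -, rfl⟩ := mem_image.1 hx; exact hf i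
      · rw [card_image_of_injOn fun i hi j hj e => hinj i j (by simpa using hi) (by simpa using hj) e,
          card_range]
        exact List.toFinset_card_le c
    refine ⟨f, L, h3, hmin, hper, hinj, hadj, fun i => hcS _ (List.mem_toFinset.1 (hf i)), ?_⟩
    obtain ⟨a, ha, rfl⟩ := mem_image.1 (show z ∈ (range L).image f by
      rw [himg]; exact List.mem_toFinset.2 hz)
    rw [mem_range] at ha
    obtain ⟨y, hy⟩ := card_pos.1 (show 0 < (((c.toFinset.filter fun y => G.Adj (f a) y).erase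
        (f (a + 1))).erase (f (a + (L - 1)))).card by
      have := pred_card_le_card_erase (s := c.toFinset.filter fun y => G.Adj (f a) y) (a := f (a + 1))
      have := pred_card_le_card_erase (s := (c.toFinset.filter fun y => G.Adj (f a) y).erase
        (f (a + 1))) (a := f (a + (L - 1)))
      omega)
    simp only [mem_erase, mem_filter] at hy
    obtain ⟨hy1, hy2, hyc, hay⟩ := hy
    rw [← himg] at hyc
    obtain ⟨j, hj, rfl⟩ := mem_image.1 hyc
    rw [mem_range] at hj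
    have hje : ∃ e, e < L ∧ f (a + e) = f j := by
      rcases Nat.lt_or_ge j a with hl | hl
      · exact ⟨j + L - a, by omega, by rw [show a + (j + L - a) = j + L by omega, hper]⟩
      · exact ⟨j - a, by omega, by rw [show a + (j - a) = j by omega]⟩
    obtain ⟨e, heL, he⟩ := hje
    refine ⟨a, e, ?_, ?_, he ▸ hay⟩
    · by_contra hh
      interval_cases e
      · exact hay.ne he
      · exact hy2 he.symm
    · by_contra hh
      exact hy1 (by rw [← he, show e = L - 1 by omega])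
  obtain ⟨f, l, h, hfS, hmax⟩ := exists_longest (G := G) hne
  set A := (range (l + 1)).filter fun i => G.Adj (f 0) (f i)
  set B := (range (l + 1)).filter fun i => G.Adj (f l) (f i)
  have hAd : d ≤ A.card := by
    refine (hd _ (hfS 0 (by omega))).trans (degIn_le_filter (f := f) fun y hy hxy => ?_)
    obtain ⟨i, -, hi2, e⟩ := end_nbr h hfS hmax hy hxy
    exact ⟨i, by omega, by rw [e]; exact hxy, e⟩
  have hBd : d ≤ B.card := by
    refine (hd _ (hfS l le_rfl)).trans (degIn_le_filter (f := f) fun y hy hxy => ?_)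
    obtain ⟨i, -, hi2, e⟩ := end_nbr h.reverse (fun i _ => hfS _ (by omega)) hmax hy
      (by simpa using hxy)
    exact ⟨l - i, by omega, by rw [e]; exact hxy, e⟩
  have hA : ∀ i ∈ A, 1 ≤ i ∧ i ≤ l ∧ G.Adj (f 0) (f i) := fun i hi => by
    obtain ⟨hi1, hi2⟩ := mem_filter.1 hi
    rw [mem_range] at hi1
    exact ⟨Nat.one_le_iff_ne_zero.2 fun e => G.irrefl (e ▸ hi2), by omega, hi2⟩
  have hB : ∀ i ∈ B, i < l ∧ G.Adj (f l) (f i) := fun i hi => by
    obtain ⟨hi1, hi2⟩ := mem_filter.1 hi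
    rw [mem_range] at hi1
    exact ⟨lt_of_le_of_ne (by omega) fun e => G.irrefl (e ▸ hi2), hi2⟩
  by_cases hcr : ∃ i ∈ B, ∃ j ∈ A, i < j
  · -- crossing chords of least gap
    obtain ⟨i, hi, j, hj, hij, hgap⟩ : ∃ i ∈ B, ∃ j ∈ A, i < j ∧
        ∀ i' ∈ B, ∀ j' ∈ A, i' < j' → j - i ≤ j' - i' := by
      have hex : ∃ q, ∃ i ∈ B, ∃ j ∈ A, i < j ∧ j - i = q := by
        obtain ⟨i, hi, j, hj, hij⟩ := hcr
        exact ⟨_, i, hi, j, hj, hij, rfl⟩
      obtain ⟨i, hi, j, hj, hij, e⟩ := Nat.find_spec hex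
      exact ⟨i, hi, j, hj, hij, fun i' hi' j' hj' h' =>
        e ▸ Nat.find_le ⟨i', hi', j', hj', h', rfl⟩⟩
    obtain ⟨hj1, hjl, hj0⟩ := hA j hj
    obtain ⟨hil, hi0⟩ := hB i hi
    have hcyc : IsP G (sg f 0 i ++ (sg f j l).reverse) (f 0) (f j) := by
      refine (h.sg (Nat.zero_le i) (by omega)).append (h.sg hjl le_rfl).reverse hi0.symm ?_
      intro x hx hx'
      obtain ⟨q, -, hq, rfl⟩ := mem_sg.1 hx
      obtain ⟨r, hr, hrl, e⟩ := mem_sg.1 (List.mem_reverse.1 hx')
      have := h.1 r q hrl (by omega) e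
      omega
    have hlen : (sg f 0 i ++ (sg f j l).reverse).length = i + 1 + (l + 1 - j) := by simp
    have hcS : ∀ x ∈ sg f 0 i ++ (sg f j l).reverse, x ∈ S := by
      intro x hx
      rcases List.mem_append.1 hx with hx | hx
      · obtain ⟨q, -, hq, rfl⟩ := mem_sg.1 hx; exact hfS q (by omega)
      · obtain ⟨q, -, hq, rfl⟩ := mem_sg.1 (List.mem_reverse.1 hx); exact hfS q hq
    have hl2 : 2 ≤ l := by
      by_contra hl
      have : A.card ≤ 1 := card_le_one.2 fun x hx y hy => by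
        have := hA x hx; have := hA y hy; omega
      omega
    have hAin : ∀ q ∈ A, f q ∈ (sg f 0 i ++ (sg f j l).reverse) := by
      intro q hq
      obtain ⟨h1, h2, -⟩ := hA q hq
      rcases Nat.lt_or_ge i q with hh | hh
      · have := hgap i hi q hq hh
        exact List.mem_append_right _ (List.mem_reverse.2 (mem_sg.2 ⟨q, by omega, h2, rfl⟩))
      · exact List.mem_append_left _ (mem_sg.2 ⟨q, Nat.zero_le _, hh, rfl⟩)
    refine ⟨_, _, _, hcyc, hj0.symm, hcS, and_assoc.1 ⟨?_, f 0,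
      List.mem_append_left _ (mem_sg.2 ⟨0, le_rfl, Nat.zero_le _, rfl⟩),
      three_le h hA (by omega) hAin⟩⟩
    rw [hlen]
    by_cases hg1 : j = i + 1
    · by_contra hlt
      have hlt' : (sg f 0 i ++ (sg f j l).reverse).length < S.card := by rw [hlen]; omega
      obtain ⟨g, hg, hgS⟩ := cyc_extend hS hcyc hj0.symm hcS hlt'
      have := hmax g _ hg hgS
      omega
    · suffices 2 * d ≤ i + 1 + (l + 1 - j) by omega
      set B' := (B.erase i).image fun q => q + 1
      have hB'c : d - 1 ≤ B'.card := by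
        rw [card_image_of_injective _ (add_left_injective 1), card_erase_of_mem hi]
        omega
      have hdisj : Disjoint A B' := disjoint_left.2 fun q hqA hqB => by
        obtain ⟨r, hr, rfl⟩ := mem_image.1 hqB
        have := hgap r (mem_of_mem_erase hr) (r + 1) hqA (by omega)
        omega
      have hsub : A ∪ B' ⊆ (range (i + 1) ∪ Icc j l).erase 0 := by
        intro q hq
        simp only [mem_erase, mem_union, mem_range, mem_Icc]
        rcases mem_union.1 hq with hq | hq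
        · obtain ⟨h1, h2, -⟩ := hA q hq
          refine ⟨by omega, ?_⟩
          by_contra hc
          have := hgap i hi q hq (by omega)
          omega
        · obtain ⟨r, hr, rfl⟩ := mem_image.1 hq
          obtain ⟨h1, -⟩ := hB r (mem_of_mem_erase hr)
          refine ⟨by omega, ?_⟩
          have hri := ne_of_mem_erase hr
          by_contra hc
          have := hgap r (mem_of_mem_erase hr) j hj (by omega)
          omega
      have h1 := card_le_card hsub
      rw [card_union_of_disjoint hdisj, card_erase_of_mem (by simp)] at h1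
      have h2 := card_union_le (range (i + 1)) (Icc j l)
      rw [card_range, Nat.card_Icc] at h2
      omega
  · simp only [not_exists, not_and, not_lt] at hcr
    have hAne : A.Nonempty := card_pos.1 (by omega)
    have hBne : B.Nonempty := card_pos.1 (by omega)
    set a := A.max' hAne
    set b := B.min' hBne
    have hAa : a ∈ A := max'_mem _ _
    have hBb : b ∈ B := min'_mem _ _
    have hab : a ≤ b := hcr b hBb a hAa
    have hbl : b < l := (hB b hBb).1
    have hA' : ∀ i ∈ A, 1 ≤ i ∧ i ≤ a ∧ G.Adj (f 0) (f i) := fun i hi =>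
      ⟨(hA i hi).1, le_max' _ i hi, (hA i hi).2.2⟩
    have hB' : ∀ i ∈ B, b ≤ i ∧ i < l ∧ G.Adj (f l) (f i) := fun i hi =>
      ⟨min'_le _ i hi, hB i hi⟩
    set X := (range (a + 1)).image f with hXdef
    set Y := (Icc b l).image f with hYdef
    have hXS : X ⊆ S := fun x hx => by
      obtain ⟨i, hi, rfl⟩ := mem_image.1 hx; exact hfS i (by rw [mem_range] at hi; omega)
    have hYS : Y ⊆ S := fun x hx => by
      obtain ⟨i, hi, rfl⟩ := mem_image.1 hx; exact hfS i (mem_Icc.1 hi).2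
    have hfa : f a ∈ X := mem_image.2 ⟨a, by simp, rfl⟩
    have hfbY : f b ∈ Y := mem_image.2 ⟨b, mem_Icc.2 ⟨le_rfl, hbl.le⟩, rfl⟩
    obtain ⟨l₁, l₂, b₁, a₂, b₂, hlk, hfb⟩ : ∃ l₁ l₂ b₁ a₂ b₂,
        Link G S X Y l₁ l₂ (f a) b₁ a₂ b₂ ∧ (f b = b₁ ∨ f b = b₂) := by
      rcases hab.eq_or_lt with e | hlt
      · -- one path avoiding the common vertex
        have hinj : ∀ i, i ≤ l → f i = f a → i = a := fun i hi e' => h.1 i a hi (by omega) e'
        obtain ⟨R₀, u, hR₀, hu, hRS₀, hRX₀⟩ :=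
          (hn _ (hfS a (by omega))).reach (X := X.erase (f a)) (erase_subset_erase _ hXS)
            ⟨f 0, mem_erase.2 ⟨fun e' => by
              have := hinj 0 (by omega) e'; have := hA' a hAa; omega,
              mem_image.2 ⟨0, by simp, rfl⟩⟩⟩
            (y := f l) (mem_erase.2 ⟨fun e' => by have := hinj l le_rfl e'; omega, hfS l le_rfl⟩)
        obtain ⟨R, v, hR, hv, sR, hRY, -⟩ := hR₀.trim
          (show f l ∈ Y from mem_image.2 ⟨l, mem_Icc.2 ⟨hbl.le, le_rfl⟩, rfl⟩)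
        have hRS : ∀ x ∈ R, x ∈ S ∧ x ≠ f a := fun x hx =>
          ⟨mem_of_mem_erase (hRS₀ x (sR x hx)), ne_of_mem_erase (hRS₀ x (sR x hx))⟩
        refine ⟨[f a], R, f a, u, v, ⟨isP_singleton _, hR, hfa, mem_of_mem_erase hu,
          e ▸ hfbY, hv, ?_, ?_, ?_, ?_, ?_, hRY⟩, Or.inl (by rw [e])⟩
        · intro x hx
          rcases hx with hx | hx
          · rw [List.mem_singleton] at hx; exact hx ▸ hXS hfa
          · exact (hRS x hx).1
        · intro x hx hx'
          rw [List.mem_singleton] at hx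
          exact (hRS x hx').2 hx
        · intro x hx _; simpa using hx
        · intro x hx _; simpa using hx
        · intro x hx hxX
          exact hRX₀ x (sR x hx) (mem_erase.2 ⟨(hRS x hx).2, hxX⟩)
      · have hdXY : Disjoint X Y := disjoint_left.2 fun x hx hx' => by
          obtain ⟨i, hi, rfl⟩ := mem_image.1 hx
          obtain ⟨j, hj, e'⟩ := mem_image.1 hx'
          rw [mem_range] at hi; rw [mem_Icc] at hj
          have := h.1 j i hj.2 (by omega) e'
          omega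
        have hX2 : 2 ≤ X.card := by
          rw [hXdef, card_image_of_injOn fun i hi j hj e' => h.1 i j (by simp at hi; omega)
            (by simp at hj; omega) e', card_range]
          have := (hA' a hAa).1
          omega
        have hY2 : 2 ≤ Y.card := by
          rw [hYdef, card_image_of_injOn fun i hi j hj e' =>
            h.1 i j (by simp at hi; omega) (by simp at hj; omega) e', Nat.card_Icc]
          omega
        obtain ⟨p₁, p₂, c₁, d₁, c₂, d₂, hl0⟩ := linkage hS hn hXS hYS hdXY hX2 hY2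
        have hseg := h.sg hab hbl.le
        have hsegS : ∀ x ∈ sg f a b, x ∈ S := fun x hx => by
          obtain ⟨i, -, hi, rfl⟩ := mem_sg.1 hx; exact hfS i (by omega)
        have hsegX : ∀ x ∈ sg f a b, x ∈ X → x = f a := fun x hx hx' => by
          obtain ⟨i, hi1, hi2, rfl⟩ := mem_sg.1 hx
          obtain ⟨j, hj, e'⟩ := mem_image.1 hx'
          rw [mem_range] at hj
          have := h.1 j i (by omega) (by omega) e'
          rw [show i = a by omega]
        have hsegY : ∀ x ∈ sg f a b, x ∈ Y → x = f b := fun x hx hx' => by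
          obtain ⟨i, hi1, hi2, rfl⟩ := mem_sg.1 hx
          obtain ⟨j, hj, e'⟩ := mem_image.1 hx'
          rw [mem_Icc] at hj
          have := h.1 j i hj.2 (by omega) e'
          rw [show i = b by omega]
        obtain ⟨m₁, m₂, e₁, g₂, e₂, hl1, -⟩ := hl0.reroute hseg hfa hfbY hsegS hsegX hsegY
        obtain ⟨n₁, n₂, e₁', g₂', e₂', hl2, hpres⟩ := hl1.symm.reroute hseg.reverse hfbY hfa
          (fun x hx => hsegS x (List.mem_reverse.1 hx))
          (fun x hx => hsegY x (List.mem_reverse.1 hx))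
          (fun x hx => hsegX x (List.mem_reverse.1 hx))
        rcases hpres (Or.inl rfl) with e' | e'
        · subst e'
          exact ⟨_, _, _, _, _, hl2.symm, Or.inl rfl⟩
        · subst e'
          exact ⟨_, _, _, _, _, hl2.symm.swap, Or.inr rfl⟩
    obtain ⟨c, u, v, hc, hvu, hcS, hlen, h0c, hAc⟩ :=
      cycle_of_link2 h hfS hab hbl.le hA' hAa hAd hB' hBb hBd hlk hfb
    exact ⟨c, u, v, hc, hvu, hcS, by omega, by omega, f 0, h0c, three_le h hA (by omega) hAc⟩

end Vale.Agent.P048.Full
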