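import Vale.Agent.P048.Full.Ctx
import Vale.Agent.P048.Full.Colour2
import Vale.Agent.P048.Full.DiracChord
import Vale.Agent.P048.Full.CommonNbr

/-!
Layers around a vertex have few vertices in terms of their independence number.
-/

namespace Vale.Agent.P048.Full

open Finset Vale.Agent.P048.Cycle

variable {V : Type*} [Fintype V] [DecidableEq V] {G : SimpleGraph V} {k r : ℕ}

theorem FCtx.par_spec (h : FCtx G k r) {Q : Finset V} (hQ : Q.Nonempty) {v : V}
    (hv : 1 ≤ lev G Q v) :
    lev G Q (par G Q v) + 1 = lev G Q v ∧ G.Adj (par G Q v) v := by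
  obtain ⟨u, h1, h2⟩ := h.lev_pred hQ (v := v) (i := lev G Q v - 1) (by omega)
  have he : ∃ u, lev G Q u + 1 = lev G Q v ∧ G.Adj u v := ⟨u, by omega, h2⟩
  unfold par
  rw [dif_pos he]
  exact he.choose_spec

theorem FCtx.anc_lev (h : FCtx G k r) {Q : Finset V} (hQ : Q.Nonempty) {v : V} :
    ∀ d, d ≤ lev G Q v → lev G Q ((par G Q)^[d] v) = lev G Q v - d := by
  intro d
  induction d with
  | zero => simp
  | succ d ih =>
    intro hd
    have h1 := ih (by omega)
    have h2 := (h.par_spec hQ (v := (par G Q)^[d] v) (by omega)).1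
    rw [Function.iterate_succ_apply']
    omega

theorem FCtx.anc_adj (h : FCtx G k r) {Q : Finset V} (hQ : Q.Nonempty) {v : V} {d : ℕ}
    (hd : d < lev G Q v) : G.Adj ((par G Q)^[d + 1] v) ((par G Q)^[d] v) := by
  have h1 := h.anc_lev hQ (v := v) d (by omega)
  rw [Function.iterate_succ_apply']
  exact (h.par_spec hQ (by omega)).2

theorem FCtx.anc_path (h : FCtx G k r) {Q : Finset V} (hQ : Q.Nonempty) {v : V} {c : ℕ}
    (hc1 : 1 ≤ c) (hc : c ≤ lev G Q v) :
    IsP G (sg (fun d => (par G Q)^[d] v) 1 c) (par G Q v) ((par G Q)^[c] v) := by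
  refine isP_sg (f := fun d => (par G Q)^[d] v) hc1 (fun a b _ ha _ hb e => ?_) fun a _ ha => ?_
  · have h1 := h.anc_lev hQ (v := v) a (by omega)
    have h2 := h.anc_lev hQ (v := v) b (by omega)
    rw [e] at h1
    omega
  · exact (h.anc_adj hQ (by omega)).symm

theorem anc_ne' {Q : Finset V} {u v : V} {c d : ℕ} (hdc : d ≤ c)
    (hne : (par G Q)^[c] u ≠ (par G Q)^[c] v) : (par G Q)^[d] u ≠ (par G Q)^[d] v := by
  intro e
  apply hne
  rw [show c = (c - d) + d by omega, Function.iterate_add_apply, Function.iterate_add_apply, e]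

/-- Close a coloured path of a layer through two ancestor paths. -/
theorem FCtx.close_anc (h : FCtx G k r) {Q : Finset V} (hQ : Q.Nonempty) {i : ℕ} {l : List V}
    {u v : V} (hl : IsP G l u v) (hlay : ∀ x ∈ l, x ∈ layer G Q i) {a b : ℕ} (ha1 : 1 ≤ a)
    (hb1 : 1 ≤ b) (hai : a ≤ i) (hbi : b ≤ i)
    (hlink : G.Adj ((par G Q)^[a] v) ((par G Q)^[b] u))
    (hne : (par G Q)^[b] u ≠ (par G Q)^[b] v) : HasCyc G (l.length + a + b) := by
  have hlev : ∀ x ∈ l, lev G Q x = i := fun x hx => by
    have := hlay x hx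
    simpa [layer] using this
  have hu := hlev u hl.head_mem
  have hv := hlev v hl.last_mem
  have pv := h.anc_path hQ (v := v) ha1 (by omega)
  have pu := (h.anc_path hQ (v := u) hb1 (by omega)).reverse
  have hadv : G.Adj v (par G Q v) := by
    have := h.anc_adj hQ (v := v) (d := 0) (by omega)
    simpa using this.symm
  have hadu : G.Adj (par G Q u) u := by
    have := h.anc_adj hQ (v := u) (d := 0) (by omega)
    simpa using this
  have low : ∀ (z x : V), lev G Q z = i → ∀ c, c ≤ i →
      x ∈ sg (fun d => (par G Q)^[d] z) 1 c → lev G Q x < i := by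
    intro z x hz c hc hx
    obtain ⟨d, hd1, hd2, rfl⟩ := mem_sg.mp hx
    rw [h.anc_lev hQ d (by omega)]
    omega
  have p1 := hl.append pv hadv fun x hx hx' => by
    have := low v x hv a hai hx'
    have := hlev x hx
    omega
  have p2 := p1.append pu hlink fun x hx hx' => by
    rw [List.mem_reverse] at hx'
    rcases List.mem_append.mp hx with hx | hx
    · have := low u x hu b hbi hx'
      have := hlev x hx
      omega
    · obtain ⟨d, hd1, hd2, e1⟩ := mem_sg.mp hx
      obtain ⟨d', hd1', hd2', e2⟩ := mem_sg.mp hx'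
      have l1 := h.anc_lev hQ (v := v) d (by omega)
      have l2 := h.anc_lev hQ (v := u) d' (by omega)
      rw [e1] at l1
      rw [e2] at l2
      have hdd : d = d' := by omega
      subst hdd
      exact anc_ne' hd2' hne (e2.trans e1.symm)
  exact ⟨_, u, par G Q u, p2, hadu, by simp; omega⟩

/-- A layer without large cliques has at most `K/2` vertices per independent vertex. -/
theorem FCtx.layer_bound (h : FCtx G k r) {v : V} {K i : ℕ} (hK6 : 6 ≤ K) (hK : k ≤ K + 1)
    (hKk : K ≤ k)
    (hi1 : 1 ≤ i) (hi : 2 * i ≤ k) {S : Finset V} (hS : S ⊆ layer G {v} i)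
    (hclq : ∀ C, C ⊆ S → (∀ x ∈ C, ∀ y ∈ C, x ≠ y → G.Adj x y) → 2 * C.card ≤ K) :
    2 * S.card ≤ K * al G S := by
  classical
  have hk7 := h.hk3
  by_contra hcon
  rcases S.eq_empty_or_nonempty with rfl | hne
  · simp at hcon
  obtain ⟨H, hHS, hm⟩ := exists_minDense (c := 2) (K := K) (e := 1) (G := G) (S := S) ⟨hne, by omega⟩
  have hHd := hm.1.2
  have hal : 2 ≤ al G H := by
    by_contra hh
    have := al_pos (G := G) hm.1.1
    rw [show al G H = 1 by omega] at hHd
    have := hclq H hHS (clique_of_al_le_one (by omega))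
    omega
  have hcard : k ≤ H.card := by
    have := Nat.mul_le_mul_left K hal
    omega
  have hdegK : ∀ x ∈ H, K + 1 ≤ 2 * (degIn G H x + 1) := fun x hx => by
    rcases hm.deg le_rfl hx with h1 | ⟨-, h1⟩ <;> omega
  have hdeg : ∀ x ∈ H, k ≤ 2 * (degIn G H x + 1) := fun x hx => by have := hdegK x hx; omega
  have hconn := hm.conn le_rfl
  have hnc := hm.noCut (by omega)
  have hdense : (k - 1) * al G H + 1 ≤ 2 * H.card := by
    have := Nat.mul_le_mul_right (al G H) (show k - 1 ≤ K by omega)
    omega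
  set Q : Finset V := {v} with hQdef
  have hQ : Q.Nonempty := singleton_nonempty v
  have hlev : ∀ x ∈ H, lev G Q x = i := fun x hx => by simpa [layer] using hS (hHS hx)
  obtain ⟨x₀, hx₀⟩ := hm.1.1
  have hroot : ∀ x ∈ H, ∀ y ∈ H, (par G Q)^[i] x = (par G Q)^[i] y := by
    have hv : ∀ x ∈ H, (par G Q)^[i] x = v := fun x hx => by
      rw [← mem_singleton, ← hQdef, ← h.lev_zero hQ, h.anc_lev hQ i (by rw [hlev x hx]), hlev x hx,
        Nat.sub_self]
    intro x hx y hy
    rw [hv x hx, hv y hy]
  have hex : ∃ j, ∀ x ∈ H, ∀ y ∈ H, (par G Q)^[j] x = (par G Q)^[j] y := ⟨i, hroot⟩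
  have hj := Nat.find_spec hex
  have hji : Nat.find hex ≤ i := Nat.find_min' hex hroot
  have hj1 : Nat.find hex ≠ 0 := by
    intro e
    rw [e] at hj
    simp only [Function.iterate_zero, id] at hj
    obtain ⟨a, ha, b, hb, hab⟩ := one_lt_card.mp (show 1 < H.card by omega)
    exact hab (hj a ha b hb)
  by_cases hjone : Nat.find hex = 1
  · rw [hjone] at hj
    refine h.hC (common_nbr' (by omega) hconn hnc hdeg hcard hdense
      (w := par G Q x₀) fun x hx => ?_)
    have := hj x₀ hx₀ x hx
    simp only [Function.iterate_one] at this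
    rw [this]
    exact (h.par_spec hQ (by rw [hlev x hx]; omega)).2
  set j := Nat.find hex with hjdef
  have hnot : ¬∀ x ∈ H, ∀ y ∈ H, (par G Q)^[j - 1] x = (par G Q)^[j - 1] y :=
    Nat.find_min hex (by omega)
  let col : V → Bool := fun x => decide ((par G Q)^[j - 1] x = (par G Q)^[j - 1] x₀)
  have hcol : ∃ x ∈ H, ∃ y ∈ H, col x ≠ col y := by
    by_contra hc
    simp only [not_exists, not_and, not_not] at hc
    refine hnot fun x hx y hy => ?_
    have h1 := hc x hx x₀ hx₀
    have h2 := hc y hy x₀ hx₀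
    simp [col] at h1 h2
    rw [h1, h2]
  obtain ⟨f, L, hL3, hL, hper, hinj, hadj, hmem, hch⟩ := dirac_chord hconn hnc hm.1.1
    (d := K / 2) (by omega) fun x hx => by have := hdegK x hx; omega
  have hα : 2 * al G H < H.card := by
    have := Nat.mul_le_mul_right (al G H) (show 4 ≤ k - 1 by omega)
    omega
  obtain ⟨l, a, b, hl, hlen, hlH, hab⟩ := colour_path2 hconn (p := k + 1 - 2 * j) hper hinj hadj hmem
    hα hch (by omega) (by omega) col hcol
  have hne' : (par G Q)^[j - 1] a ≠ (par G Q)^[j - 1] b := fun e => hab (by simp [col, e])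
  have hlink : G.Adj ((par G Q)^[j] b) ((par G Q)^[j - 1] a) := by
    rw [hj b (hlH b hl.last_mem) a (hlH a hl.head_mem)]
    have := h.anc_adj hQ (v := a) (d := j - 1) (by rw [hlev a (hlH a hl.head_mem)]; omega)
    rwa [Nat.sub_add_cancel (by omega)] at this
  have := h.close_anc hQ hl (fun x hx => hS (hHS (hlH x hx))) (a := j) (b := j - 1) (by omega)
    (by omega) hji (by omega) hlink hne'
  rw [hlen] at this
  exact h.hC (by convert this using 1; omega)

/-- Without a clique on more than `k/2` vertices the first layer is strictly below `k/2`. -/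
theorem FCtx.layer_one_strict (h : FCtx G k r) {v : V}
    (hno : ∀ C : Finset V, (∀ x ∈ C, ∀ y ∈ C, x ≠ y → G.Adj x y) → 2 * C.card ≤ k) :
    2 * (layer G {v} 1).card + 1 ≤ k * al G (layer G {v} 1) := by
  classical
  have hk7 := h.hk3
  have hQ : ({v} : Finset V).Nonempty := singleton_nonempty v
  have hv0 : lev G {v} v = 0 := (h.lev_zero hQ v).2 (mem_singleton_self v)
  have hadjv : ∀ x ∈ layer G {v} 1, G.Adj v x := by
    intro x hx
    obtain ⟨u, hu, hux⟩ := h.lev_pred hQ (i := 0) (show lev G {v} x = 0 + 1 by simpa [layer] using hx)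
    rw [h.lev_zero hQ, mem_singleton] at hu
    exact hu ▸ hux
  have hne : (layer G {v} 1).Nonempty := by
    obtain ⟨y, hy⟩ := card_pos.1 (show 0 < degIn G univ v from
      lt_of_lt_of_le (by omega) (h.degree v))
    simp only [mem_filter] at hy
    have h1 := h.lev_adj hQ hy.2
    have h2 : lev G {v} y ≠ 0 := fun e => by
      rw [h.lev_zero hQ, mem_singleton] at e
      exact hy.2.ne e.symm
    exact ⟨y, by simp [layer]; omega⟩
  by_contra hcon
  obtain ⟨H, hHS, hm⟩ := exists_minDense (c := 2) (K := k) (e := 0) (G := G) (S := layer G {v} 1)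
    ⟨hne, by omega⟩
  have hHd := hm.1.2
  by_cases hal : 2 ≤ al G H
  · have := Nat.mul_le_mul_left k hal
    refine h.hC (common_nbr (by omega) (hm.conn (by omega)) (fun x hx => ?_) (by omega) (w := v)
      fun x hx => hadjv x (hHS hx))
    rcases hm.deg (by omega) hx with h1 | ⟨h1, -⟩ <;> omega
  · have := al_pos (G := G) hm.1.1
    rw [show al G H = 1 by omega] at hHd
    have hvH : v ∉ H := fun hh => by
      have := hHS hh
      simp [layer, hv0] at this
    have := hno (insert v H) (by
      intro x hx y hy hxy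
      rw [mem_insert] at hx hy
      rcases hx with rfl | hx <;> rcases hy with rfl | hy
      · exact absurd rfl hxy
      · exact hadjv y (hHS hy)
      · exact (hadjv x (hHS hx)).symm
      · exact clique_of_al_le_one (show al G H ≤ 1 by omega) x hx y hy hxy)
    rw [card_insert_of_notMem hvH] at this
    omega

end Vale.Agent.P048.Full
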