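import Vale.Agent.P048.Full.Growth
import Vale.Agent.P048.Full.Induct
import Vale.Agent.P048.Full.Layer

/-!
The Ramsey identity for `7 < m`, given that no clique has more than half of `k` vertices.
-/

namespace Vale.Agent.P048.Full

open Finset Vale.Agent.P048.Cycle

variable {V : Type*} [Fintype V] [DecidableEq V] {G : SimpleGraph V} {k r : ℕ}

/-- No big clique: balls around any vertex end above `r`. -/
theorem FCtx.no_big_false7 (h : FCtx G k r) (hk4 : 4 ≤ k) (v : V)
    (hlay : ∀ K i, k ≤ K + 1 → K ≤ k → (k % 2 = 1 ∨ K = k) → 1 ≤ i → 2 * i ≤ k →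
      2 * (layer G {v} i).card ≤ K * al G (layer G {v} i))
    (hstrict : k % 2 = 0 → 2 * (layer G {v} 1).card + 1 ≤ k * al G (layer G {v} 1)) : False := by
  have hk := h.hk
  have hk7 := h.hk3
  have hQ : ({v} : Finset V).Nonempty := singleton_nonempty v
  have hb0 : 1 ≤ al G (ball G {v} 0) := al_pos hQ
  have hbr : ∀ n, al G (ball G {v} n) ≤ r := fun n => (al_mono (subset_univ _)).trans h.hal
  rcases Nat.mod_two_eq_zero_or_one k with he | ho
  · have key : ∀ j, 2 * j ≤ k → 2 * j + 1 ≤ al G (ball G {v} j) := by
      intro j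
      induction j with
      | zero => simpa using hb0
      | succ j ih =>
        intro hj
        have := ih (by omega)
        have := h.step_even v (D := j + 2) (by omega)
          (fun i hi hiD => hlay k i (by omega) le_rfl (Or.inr rfl) hi (by omega)) (hstrict he)
        simp only [show j + 2 - 2 = j by omega, show j + 2 - 1 = j + 1 by omega] at this
        omega
    have := key (k / 2) (by omega)
    have := hbr (k / 2)
    omega
  · have step : ∀ j, 2 * (j + 1) ≤ k →
        al G (ball G {v} j) + 2 ≤ al G (ball G {v} (j + 1)) ∧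
          (k ≤ 2 * al G (ball G {v} j) → al G (ball G {v} j) + 3 ≤ al G (ball G {v} (j + 1))) := by
      intro j hj
      have hsum := sum_layer_bound (G := G) v (K := k - 1) (X := 0) (D := j + 2) (by omega)
        (by simpa using hlay (k - 1) 1 (by omega) (by omega) (Or.inl ho) le_rfl (by omega))
        (fun i hi hiD => hlay (k - 1) i (by omega) (by omega) (Or.inl ho) (by omega) (by omega))
      have hc := h.cut v (by omega) hsum
      simp only [show j + 2 - 2 = j by omega, show j + 2 - 1 = j + 1 by omega] at hc
      obtain ⟨K, rfl⟩ : ∃ K, k = K + 1 := ⟨k - 1, by omega⟩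
      simp only [Nat.add_sub_cancel, Nat.add_mul, Nat.one_mul, Nat.mul_add] at hc
      constructor
      · by_contra hlt
        have := Nat.mul_le_mul_left K
          (show al G (ball G {v} (j + 1)) ≤ al G (ball G {v} j) + 1 by omega)
        have : 1 ≤ al G (ball G {v} j) :=
          al_pos (hQ.mono (ball_mono (G := G) {v} (Nat.zero_le j)))
        rw [Nat.mul_add] at *
        omega
      · intro h2
        by_contra hlt
        have := Nat.mul_le_mul_left K
          (show al G (ball G {v} (j + 1)) ≤ al G (ball G {v} j) + 2 by omega)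
        rw [Nat.mul_add] at *
        omega
    have key : ∀ j, 2 * j ≤ k → 2 * j + 1 ≤ al G (ball G {v} j) := by
      intro j
      induction j with
      | zero => simpa using hb0
      | succ j ih =>
        intro hj
        have := ih (by omega)
        have := (step j hj).1
        omega
    have h1 := key (k / 2 - 1) (by omega)
    have h2 := (step (k / 2 - 1) (by omega)).2 (by omega)
    have := hbr (k / 2 - 1 + 1)
    omega

/-- Without cliques on more than `k/2` vertices a minimal counterexample is impossible. -/
theorem FCtx.false_of_small_cliques (h : FCtx G k r)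
    (hk : 6 ≤ k)
    (hno : ∀ C : Finset V, (∀ x ∈ C, ∀ y ∈ C, x ≠ y → G.Adj x y) → 2 * C.card ≤ k) : False := by
  obtain ⟨v, -⟩ := h.nonempty
  refine h.no_big_false7 (by omega) v (fun K i hK1 hK2 hK3 hi1 hi2 => ?_) fun _ => h.layer_one_strict hno
  refine h.layer_bound (by omega) hK1 hK2 hi1 hi2 subset_rfl fun C _ hC => ?_
  have := hno C hC
  omega

/-- The identity for `3 ≤ n ≤ m`, `8 ≤ m` from the absence of big cliques. -/
theorem ramsey_of_noBig {m n : ℕ} (hn : 3 ≤ n) (hnm : n ≤ m) (hm : 8 ≤ m)
    (hnb : ∀ (V : Type) [Fintype V] [DecidableEq V] (G : SimpleGraph V) (k r : ℕ),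
      FCtx G k r → k ≤ 2 * r →
      ∀ C : Finset V, (∀ x ∈ C, ∀ y ∈ C, x ≠ y → G.Adj x y) → 2 * C.card ≤ k) :
    IsLeast {N : ℕ | ∀ G : SimpleGraph (Fin N),
      (SimpleGraph.cycleGraph m).IsContained G ∨ ¬G.IndepSetFree n} ((m - 1) * (n - 1) + 1) := by
  refine ramsey_of_card_le hn (by omega) fun G hal hC => ?_
  exact card_le_of (k := m - 1) (by omega)
    (fun r V _ _ G hr h => h.false_of_small_cliques (by omega) (hnb V G _ _ h hr)) (n - 1) G (by omega) hal hC

end Vale.Agent.P048.Full
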