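import Vale.Agent.P048.Full.Runs

/-!
Outside paths of three or four vertices between predecessors on a maximum cycle through a half clique.

`ZMax` is a longest cycle with at most `k` vertices through `Q`, with the fewest runs outside `Q`.
Such a path can only join two predecessors in `Q`; then the cycle is very rigid: no outside path with
one or two vertices joins two predecessors, and none with two more vertices joins two in `Q`.
-/

namespace Vale.Agent.P048.Full

open Finset Vale.Agent.P048.Cycle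

variable {V : Type*} [DecidableEq V] {G : SimpleGraph V} {f : ℕ → V} {L k : ℕ} {Q : Finset V}

/-- A longest cycle through `Q` with at most `k` vertices and the fewest runs outside `Q`. -/
structure ZMax (G : SimpleGraph V) (k : ℕ) (Q : Finset V) (f : ℕ → V) (L : ℕ) : Prop where
  cyc : PCyc G f L
  sub : Q ⊆ img f L
  le : L ≤ k
  max : ∀ g L', PCyc G g L' → Q ⊆ img g L' → L' ≤ k →
    L' ≤ L ∧ (L' = L → nr f L Q ≤ nr g L Q)

/-- A path with `g` vertices outside `S` whose ends are adjacent to `a` and `b`. -/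
def Ear (G : SimpleGraph V) (S : Finset V) (a b : V) (g : ℕ) : Prop :=
  1 ≤ g ∧ ∃ o : ℕ → V, PF G o (g - 1) ∧ (∀ n, n < g → o n ∉ S) ∧ G.Adj a (o 0) ∧
    G.Adj (o (g - 1)) b

/-- The predecessor of a vertex of `Q` on the cycle. -/
def Pred (f : ℕ → V) (Q : Finset V) (a : V) : Prop := ∃ n, f n = a ∧ f (n + 1) ∈ Q

theorem Ear.of_isP {S : Finset V} {a b u v : V} {l : List V} (hl : IsP G l u v)
    (hS : ∀ x ∈ l, x ∉ S) (ha : G.Adj a u) (hb : G.Adj v b) : Ear G S a b l.length := by
  obtain ⟨q, hq, hq0, hqe, hql⟩ := hl.toPF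
  have hne := List.length_pos_iff.2 hl.ne_nil
  refine ⟨hne, q, hq, fun n hn => hS _ ((hql _).2 ⟨n, by omega, rfl⟩), by rw [hq0]; exact ha, ?_⟩
  rw [hqe]; exact hb

theorem exists_zmax (h0 : ∃ g L', PCyc G g L' ∧ Q ⊆ img g L' ∧ L' ≤ k) :
    ∃ f L, ZMax G k Q f L := by
  classical
  obtain ⟨g, L', hg, hQ, hL⟩ := h0
  let P : ℕ → Prop := fun n => ∃ g, PCyc G g n ∧ Q ⊆ img g n
  have hP : P (Nat.findGreatest P k) := Nat.findGreatest_spec (P := P) hL ⟨g, hg, hQ⟩
  set L := Nat.findGreatest P k with hLdef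
  have hex : ∃ x, ∃ f, PCyc G f L ∧ Q ⊆ img f L ∧ nr f L Q = x :=
    hP.elim fun f hf => ⟨_, f, hf.1, hf.2, rfl⟩
  obtain ⟨f, hf, hfQ, hfn⟩ := Nat.find_spec hex
  refine ⟨f, L, hf, hfQ, Nat.findGreatest_le k, fun g' M hg' hQ' hM => ?_⟩
  refine ⟨Nat.le_findGreatest hM ⟨g', hg', hQ'⟩, ?_⟩
  rintro rfl
  rw [hfn]
  exact Nat.find_min' hex ⟨g', hg', hQ', rfl⟩

theorem nr_shift (h : PCyc G f L) (s : ℕ) : nr (fun n => f (s + n)) L Q = nr f L Q := by
  rw [nr_eq_sum, nr_eq_sum,
    ← sum_shift (F := si f Q) (fun i => by simp [si, h.per, Nat.add_right_comm i L 1]) s]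
  refine sum_congr rfl fun i _ => ?_
  simp only [si, show s + i = i + s by omega, show s + (i + 1) = i + s + 1 by omega]

/-- One when the vertex is in `Q`. -/
def inQ (Q : Finset V) (a : V) : ℕ := if a ∈ Q then 1 else 0

theorem inQ_le (a : V) : inQ Q a ≤ 1 := by unfold inQ; split_ifs <;> omega

theorem inQ_two {a b : V} (h : 2 ≤ inQ Q a + inQ Q b) : a ∈ Q ∧ b ∈ Q := by
  unfold inQ at h
  by_cases ha : a ∈ Q <;> by_cases hb : b ∈ Q <;> simp [ha, hb] at h ⊢

/-- Close an ear, then drop free vertices of the clique. -/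
theorem ZMax.close (Z : ZMax G k Q f L) (hQc : ∀ x ∈ Q, ∀ y ∈ Q, x ≠ y → G.Adj x y)
    (hC : ¬HasCyc G (k + 1)) {f' : ℕ → V} {L' g : ℕ} (h' : PCyc G f' L') (hQ' : Q ⊆ img f' L')
    {S : Finset V} (hS : img f' L' ⊆ S) {a b : V} (ha : Pred f' Q a) (hb : Pred f' Q b)
    (hab : a ≠ b) (he : Ear G S a b g) :
    g + L' ≠ k + 1 ∧
    (g + L' ≤ k → g + L' ≤ L ∧
      (g + L' = L → nr f L Q + 1 ≤ nr f' L' Q + inQ Q a + inQ Q b)) ∧
    (k + 1 < g + L' → Q.card + 2 + (k + 1) < 2 * (nr f' L' Q + inQ Q a + inQ Q b) + (g + L')) := by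
  obtain ⟨n, rfl, hn⟩ := ha
  obtain ⟨n', rfl, hn'⟩ := hb
  obtain ⟨hg1, o, ho, hoff, h1, h2⟩ := he
  have hL := h'.pos
  obtain ⟨m, hm, e0, e1⟩ := exists_off h' (n + 1) n'
  have hmL : m + 1 < L' := by
    by_contra hh
    rw [show n + 1 + m = n + L' by omega, h'.per] at e0
    exact hab e0.symm
  have hlast : f' (n + 1 + (L' - 1)) = f' n := by rw [show n + 1 + (L' - 1) = n + L' by omega, h'.per]
  have hs := h'.shift (n + 1)
  obtain ⟨F, hF, hFQ, hFn⟩ := hs.reroute_runs (Q := Q) (o := o) (l := g - 1) (m := m + 1) hQc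
    (by rw [img_shift h']; exact hQ') ho
    (fun x hx hmem => hoff x (by omega) (hS (by rwa [img_shift h'] at hmem)))
    (by omega) hmL (by simpa using hn) (by rw [← Nat.add_assoc, ← e1]; exact hn')
    (by rw [hlast]; exact h1) (by rw [Nat.add_sub_cancel, ← e0]; exact h2)
  rw [nr_shift h', show g - 1 + 1 + L' = g + L' by omega] at hFn
  rw [show g - 1 + 1 + L' = g + L' by omega] at hF hFQ
  simp only [qi, hlast, Nat.add_sub_cancel, ← e0] at hFn
  have hFn' : nr F (g + L') Q + 1 ≤ nr f' L' Q + inQ Q (f' n) + inQ Q (f' n') := hFn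
  refine ⟨fun e => hC (e ▸ hF.hasCyc), fun hle => ?_, fun hgt => ?_⟩
  · obtain ⟨m1, m2⟩ := Z.max F _ hF hFQ hle
    refine ⟨m1, fun e => ?_⟩
    have := m2 e
    rw [e] at hFn'
    omega
  · by_contra hh
    have hcard := card_le_frees hF hFQ
    refine hC ?_
    have := hF.drop_free hQc (g + L' - (k + 1)) (by omega) (by have := Z.cyc.pos; have := Z.le; omega)
    rwa [show g + L' - (g + L' - (k + 1)) = k + 1 by omega] at this

/-- A run of `s` vertices after position `p` avoiding the ends `a` and `b`. -/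
def SmallRun (f : ℕ → V) (Q : Finset V) (a b : V) (p s : ℕ) : Prop :=
  1 ≤ s ∧ f p ∈ Q ∧ (∀ e, 1 ≤ e → e ≤ s → f (p + e) ∉ Q) ∧ f (p + s + 1) ∈ Q ∧
    f (p + s) ≠ a ∧ f (p + s) ≠ b

/-- Long runs use many vertices outside `Q`. -/
theorem runs_count (h : PCyc G f L) (hQ : Q ⊆ img f L) {a b : V} (ha : Pred f Q a)
    (hb : Pred f Q b) (hab : a ≠ b) {σ : ℕ} (hσ : 1 ≤ σ) (hσL : σ < L)
    (hno : ∀ p s, s < σ → ¬SmallRun f Q a b p s) :
    σ * nr f L Q + (2 - inQ Q a - inQ Q b) + Q.card ≤ L + σ * (2 - inQ Q a - inQ Q b) := by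
  classical
  set S := (range L).filter fun i => f i ∈ Q ∧ f (i + 1) ∉ Q with hSdef
  set U := S.filter fun p => ∀ e, 1 ≤ e → e ≤ σ → f (p + e) ∉ Q ∪ {a, b} with hUdef
  set T := ({a, b} : Finset V).filter (fun x => x ∉ Q) with hTdef
  have hTc : T.card = 2 - inQ Q a - inQ Q b := by
    unfold inQ
    by_cases ha' : a ∈ Q <;> by_cases hb' : b ∈ Q <;>
      simp [hTdef, filter_insert, filter_singleton, ha', hb', hab]
  have uniq : ∀ p ∈ S, ∀ p' ∈ S, ∀ e e', 1 ≤ e → e < L → 1 ≤ e' → e' < L →
      (∀ x, 1 ≤ x → x ≤ e → f (p + x) ∉ Q) → (∀ x, 1 ≤ x → x ≤ e' → f (p' + x) ∉ Q) →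
      f (p + e) = f (p' + e') → p = p' ∧ e = e' := by
    intro p hp p' hp' e e' he1 he he1' he' hx hx' heq
    simp only [hSdef, mem_filter, mem_range] at hp hp'
    rcases le_total (p + e) (p' + e') with hh | hh
    · rcases Nat.lt_or_ge (p' + e') (p + e + L) with hl | hl
      · have heq' : p + e = p' + e' := by
          have := inj_window h.per h.inj heq (by omega) (by omega)
          omega
        rcases lt_trichotomy p p' with hpp | hpp | hpp
        · exact absurd hp'.2.1 (by
            have := hx (p' - p) (by omega) (by omega)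
            rwa [show p + (p' - p) = p' by omega] at this)
        · exact ⟨hpp, by omega⟩
        · exact absurd hp.2.1 (by
            have := hx' (p - p') (by omega) (by omega)
            rwa [show p' + (p - p') = p by omega] at this)
      · have heq' : p + e + L = p' + e' := by
          have := inj_window h.per h.inj (show f (p + e + L) = f (p' + e') by rw [h.per]; exact heq)
            (by omega) (by omega)
          omega
        exact absurd hp.2.1 (by
          have := hx' (p + L - p') (by omega) (by omega)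
          rwa [show p' + (p + L - p') = p + L by omega, h.per] at this)
    · rcases Nat.lt_or_ge (p + e) (p' + e' + L) with hl | hl
      · have heq' : p + e = p' + e' := by
          have := inj_window h.per h.inj heq.symm (by omega) (by omega)
          omega
        rcases lt_trichotomy p p' with hpp | hpp | hpp
        · exact absurd hp'.2.1 (by
            have := hx (p' - p) (by omega) (by omega)
            rwa [show p + (p' - p) = p' by omega] at this)
        · exact ⟨hpp, by omega⟩
        · exact absurd hp.2.1 (by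
            have := hx' (p - p') (by omega) (by omega)
            rwa [show p' + (p - p') = p by omega] at this)
      · have heq' : p' + e' + L = p + e := by
          have := inj_window h.per h.inj (show f (p' + e' + L) = f (p + e) by rw [h.per]; exact heq.symm)
            (by omega) (by omega)
          omega
        exact absurd hp'.2.1 (by
          have := hx (p' + L - p) (by omega) (by omega)
          rwa [show p + (p' + L - p) = p' + L by omega, h.per] at this)
  have hrest : (S \ U).card ≤ T.card := by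
    have hex : ∀ p ∈ S \ U, ∃ e, 1 ≤ e ∧ e ≤ σ ∧ f (p + e) ∈ T ∧
        ∀ x, 1 ≤ x → x ≤ e → f (p + x) ∉ Q := by
      intro p hp
      simp only [hUdef, mem_sdiff, mem_filter, not_and, not_forall, not_not, exists_prop] at hp
      obtain ⟨hpS, hp⟩ := hp
      have hw := hp hpS
      have hmin := fun x (hx : x < Nat.find hw) => Nat.find_min hw hx
      obtain ⟨e1, e2, e3⟩ := Nat.find_spec hw
      have hnot : ∀ x, 1 ≤ x → x < Nat.find hw → f (p + x) ∉ Q ∪ {a, b} := fun x x1 x2 x3 =>
        hmin x x2 ⟨x1, by omega, x3⟩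
      by_cases hq : f (p + Nat.find hw) ∈ Q
      · exfalso
        simp only [hSdef, mem_filter, mem_range] at hpS
        have h2 : 2 ≤ Nat.find hw := by
          by_contra hh
          rw [show Nat.find hw = 1 by omega] at hq
          exact hpS.2.2 hq
        have hend := hnot (Nat.find hw - 1) (by omega) (by omega)
        exact hno p (Nat.find hw - 1) (by omega) ⟨by omega, hpS.2.1,
          fun x x1 x2 hx => hnot x x1 (by omega) (mem_union_left _ hx),
          by rwa [show p + (Nat.find hw - 1) + 1 = p + Nat.find hw by omega], fun e => hend (mem_union_right _ (mem_insert.2 (Or.inl e))),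
            fun e => hend (mem_union_right _ (mem_insert.2 (Or.inr (mem_singleton.2 e))))⟩
      · refine ⟨Nat.find hw, e1, e2, ?_, fun x x1 x2 => ?_⟩
        · rw [hTdef, mem_filter]
          exact ⟨(mem_union.1 e3).resolve_left hq, hq⟩
        · rcases Nat.lt_or_ge x (Nat.find hw) with hl | hl
          · exact fun hx => hnot x x1 hl (mem_union_left _ hx)
          · rwa [show x = Nat.find hw by omega]
    choose! ef e1 e2 e3 e4 using hex
    refine card_le_card_of_injOn (fun p => f (p + ef p)) (fun p hp => e3 p hp) fun p hp p' hp' heq => ?_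
    exact (uniq p (mem_sdiff.1 hp).1 p' (mem_sdiff.1 hp').1 _ _ (e1 p hp) (by have := e2 p hp; omega)
      (e1 p' hp') (by have := e2 p' hp'; omega) (e4 p hp) (e4 p' hp') heq).1
  have himg : σ * U.card + T.card + Q.card ≤ L := by
    set W := (U ×ˢ Icc 1 σ).image fun pe => f (pe.1 + pe.2) with hWdef
    have hW : W.card = σ * U.card := by
      rw [hWdef, card_image_of_injOn, card_product, Nat.card_Icc, Nat.mul_comm]
      · simp
      · rintro ⟨p, e⟩ hpe ⟨p', e'⟩ hpe' heq
        simp only [coe_product, Set.mem_prod, mem_coe, mem_Icc, hUdef, mem_filter] at hpe hpe'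
        obtain ⟨⟨hp, hpx⟩, he1, he2⟩ := hpe
        obtain ⟨⟨hp', hpx'⟩, he1', he2'⟩ := hpe'
        obtain ⟨rfl, rfl⟩ := uniq p hp p' hp' e e' he1 (by omega) he1' (by omega)
          (fun x x1 x2 hx => hpx x x1 (by omega) (mem_union_left _ hx))
          (fun x x1 x2 hx => hpx' x x1 (by omega) (mem_union_left _ hx)) heq
        rfl
    have hd1 : Disjoint W T := by
      rw [disjoint_left]
      rintro x hx hxT
      obtain ⟨⟨p, e⟩, hpe, rfl⟩ := mem_image.1 hx
      simp only [mem_product, mem_Icc, hUdef, mem_filter] at hpe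
      exact hpe.1.2 e hpe.2.1 hpe.2.2 (mem_union_right _ (mem_filter.1 hxT).1)
    have hd2 : Disjoint (W ∪ T) Q := by
      rw [disjoint_left]
      intro x hx hxQ
      rcases mem_union.1 hx with hx | hx
      · obtain ⟨⟨p, e⟩, hpe, rfl⟩ := mem_image.1 hx
        simp only [mem_product, mem_Icc, hUdef, mem_filter] at hpe
        exact hpe.1.2 e hpe.2.1 hpe.2.2 (mem_union_left _ hxQ)
      · exact (mem_filter.1 hx).2 hxQ
    have hsub : W ∪ T ∪ Q ⊆ img f L := by
      refine union_subset (union_subset (fun x hx => ?_) (fun x hx => ?_)) hQ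
      · obtain ⟨pe, -, rfl⟩ := mem_image.1 hx
        exact mem_img h _
      · obtain ⟨hx, -⟩ := mem_filter.1 hx
        obtain ⟨n, rfl, -⟩ := ha
        obtain ⟨n', rfl, -⟩ := hb
        simp only [mem_insert, mem_singleton] at hx
        rcases hx with rfl | rfl <;> exact mem_img h _
    have := card_le_card hsub
    rw [card_union_of_disjoint hd2, card_union_of_disjoint hd1, hW, card_img h] at this
    exact this
  have hU : nr f L Q ≤ U.card + T.card := by
    have : (S \ U).card + U.card = S.card := card_sdiff_add_card_eq_card (filter_subset _ S)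
    show S.card ≤ _
    omega
  have := Nat.mul_le_mul_left σ hU
  rw [Nat.mul_add] at this
  rw [← hTc]
  omega

/-- A run leaves room for the clique. -/
theorem run_room (h : PCyc G f L) (hQ : Q ⊆ img f L) {p s : ℕ} (hs : s < L)
    (hin : ∀ e, 1 ≤ e → e ≤ s → f (p + e) ∉ Q) : s + Q.card ≤ L := by
  have hd : Disjoint ((Icc 1 s).image fun e => f (p + e)) Q := by
    rw [disjoint_left]
    intro x hx
    obtain ⟨e, he, rfl⟩ := mem_image.1 hx
    rw [mem_Icc] at he
    exact hin e he.1 he.2
  have hc : ((Icc 1 s).image fun e => f (p + e)).card = s := by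
    rw [card_image_of_injOn, Nat.card_Icc]
    · omega
    · intro x hx y hy e
      simp only [coe_Icc, Set.mem_Icc] at hx hy
      have := inj_window h.per h.inj (show f (p + x) = f (p + y) from e) (by omega) (by omega)
      omega
  have hsub : ((Icc 1 s).image fun e => f (p + e)) ∪ Q ⊆ img f L := by
    refine union_subset (fun x hx => ?_) hQ
    obtain ⟨e, -, rfl⟩ := mem_image.1 hx
    exact mem_img h _
  have := card_le_card hsub
  rw [card_union_of_disjoint hd, hc, card_img h] at this
  exact this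

section Main

variable (Z : ZMax G k Q f L) (hQc : ∀ x ∈ Q, ∀ y ∈ Q, x ≠ y → G.Adj x y)
  (hC : ¬HasCyc G (k + 1)) (hk : k + 1 ≤ 2 * Q.card) (ht : 8 ≤ k)

include Z hQc hC hk ht

/-- Cut the short runs, then reroute: only paths between two vertices of `Q` survive, uncut. -/
theorem ZMax.analysis {a b : V} {g : ℕ} (hab : a ≠ b) (hg : g = 3 ∨ g = 4)
    (he : Ear G (img f L) a b g) :
    ∀ n {f' : ℕ → V} {L' c : ℕ}, PCyc G f' L' → Q ⊆ img f' L' → img f' L' ⊆ img f L →
      Pred f' Q a → Pred f' Q b → L' + c = L → nr f' L' Q + min c 1 ≤ nr f L Q →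
      k + 1 + c < g + L → g + L ≤ k + 1 + c + n →
      c = 0 ∧ a ∈ Q ∧ b ∈ Q ∧ L = k ∧ 1 ≤ nr f' L' Q ∧ 2 * nr f' L' Q + 3 ≤ Q.card ∧
        ∀ p s, s < g → ¬SmallRun f' Q a b p s := by
  have hle := Z.le
  intro n
  induction n with
  | zero => intro f' L' c _ _ _ _ _ _ _ _ h2; omega
  | succ n ih =>
    intro f' L' c h' hQ' hsub ha hb hc hnr h1 h2
    have ia := inQ_le (Q := Q) a
    have ib := inQ_le (Q := Q) b
    have hQL : Q.card ≤ L' := (card_le_card hQ').trans (card_img h').le
    have step : ∀ p s, SmallRun f' Q a b p s → s ≤ g → g + 1 ≤ c + s + g →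
        (c + s = g ∧ c = 0 ∧ a ∈ Q ∧ b ∈ Q) ∨ g < c + s := by
      intro p s hs hsg hsg'
      obtain ⟨hs1, hs0, hsin, hse, hsa, hsb⟩ := hs
      have hs3 : 3 + s ≤ L' := by
        have := run_room h' hQ' (show s < L' by omega) hsin
        omega
      obtain ⟨F, hF, hFQ, hFsub, hFn, hFp⟩ := h'.cut_run hQc hQ' hs3 hs1 hs0 hsin hse
      have hpa : Pred F Q a := by
        obtain ⟨m, rfl, hm⟩ := ha
        obtain ⟨m', e0, e1⟩ := hFp m hm (Or.inr (Ne.symm hsa))
        exact ⟨m', e0, e1 ▸ hm⟩
      have hpb : Pred F Q b := by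
        obtain ⟨m, rfl, hm⟩ := hb
        obtain ⟨m', e0, e1⟩ := hFp m hm (Or.inr (Ne.symm hsb))
        exact ⟨m', e0, e1 ▸ hm⟩
      obtain ⟨c1, c2, c3⟩ := Z.close hQc hC hF hFQ (hFsub.trans hsub) hpa hpb hab he
      by_cases hd : g + L ≤ k + 1 + (c + s)
      · by_cases hlt : c + s < g
        · have := (c2 (by omega)).1
          omega
        by_cases heq : c + s = g
        · have h3 := (c2 (by omega)).2 (by omega)
          obtain ⟨qa, qb⟩ := inQ_two (show 2 ≤ inQ Q a + inQ Q b by omega)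
          exact Or.inl ⟨heq, by omega, qa, qb⟩
        · exact Or.inr (by omega)
      · have := ih hF hFQ (hFsub.trans hsub) hpa hpb (c := c + s) (by omega) (by omega) (by omega)
          (by omega)
        omega
    obtain ⟨-, -, c3⟩ := Z.close hQc hC h' hQ' hsub ha hb hab he
    have hfree := c3 (by omega)
    by_cases hqq : c = 0 ∧ a ∈ Q ∧ b ∈ Q
    · obtain ⟨rfl, qa, qb⟩ := hqq
      have hno : ∀ p s, s < g → ¬SmallRun f' Q a b p s := by
        intro p s hs hrun
        rcases step p s hrun (by omega) (by have := hrun.1; omega) with ⟨e, -⟩ | e <;> omega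
      have hcnt := runs_count h' hQ' ha hb hab (σ := g) (by omega) (by omega) hno
      simp only [inQ, qa, qb, if_true] at hfree hcnt
      refine ⟨rfl, qa, qb, ?_, ?_, ?_, hno⟩ <;> rcases hg with rfl | rfl <;> omega
    · exfalso
      have hcle : c ≤ 2 := by omega
      have hno : ∀ p s, s < g + 1 - c → ¬SmallRun f' Q a b p s := by
        intro p s hs hrun
        rcases step p s hrun (by omega) (by have := hrun.1; omega) with ⟨-, e⟩ | e
        · exact hqq e
        · omega
      have hcnt := runs_count h' hQ' ha hb hab (σ := g + 1 - c) (by omega) (by omega) hno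
      have hσ : c = 0 → inQ Q a + inQ Q b ≤ 1 := fun e => by
        unfold inQ
        by_cases qa : a ∈ Q <;> by_cases qb : b ∈ Q <;> simp [qa, qb]
        exact hqq ⟨e, qa, qb⟩
      rcases hg with rfl | rfl <;> interval_cases c <;> omega

/-- A path of three or four outside vertices joins two predecessors in `Q`, on a rigid cycle. -/
theorem ZMax.conflict {a b : V} {g : ℕ} (hg : g = 3 ∨ g = 4) (ha : Pred f Q a) (hb : Pred f Q b)
    (hab : a ≠ b) (he : Ear G (img f L) a b g) :
    a ∈ Q ∧ b ∈ Q ∧ L = k ∧ 1 ≤ nr f L Q ∧ 2 * nr f L Q + 3 ≤ Q.card ∧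
      ∀ p s, s < g → ¬SmallRun f Q a b p s := by
  have hgt : k + 1 < g + L := by
    by_contra hh
    obtain ⟨h1, h2, -⟩ := Z.close hQc hC Z.cyc Z.sub subset_rfl ha hb hab he
    have := (h2 (by omega)).1
    omega
  have hle := Z.le
  exact (Z.analysis hQc hC hk ht hab hg he (g + L) Z.cyc Z.sub subset_rfl ha hb (c := 0) (by omega)
    (by omega) (by omega) (by omega)).2

/-- Next to such a path no one or two outside vertices join two predecessors. -/
theorem ZMax.no_short {a b : V} {g : ℕ} (hg : g = 3 ∨ g = 4) (ha : Pred f Q a) (hb : Pred f Q b)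
    (hab : a ≠ b) (he : Ear G (img f L) a b g) {a' b' : V} {g' : ℕ} (hg' : g' ≤ 2)
    (ha' : Pred f Q a') (hb' : Pred f Q b') (hab' : a' ≠ b')
    (he' : Ear G (img f L) a' b' g') : False := by
  obtain ⟨-, -, hLk, -, hfree, -⟩ := Z.conflict hQc hC hk ht hg ha hb hab he
  obtain ⟨h1, -, h3⟩ := Z.close hQc hC Z.cyc Z.sub subset_rfl ha' hb' hab' he'
  have := he'.1
  have := inQ_le (Q := Q) a'
  have := inQ_le (Q := Q) b'
  have := h3 (by omega)
  omega

/-- Next to such a path no path with two more vertices joins two predecessors in `Q`. -/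
theorem ZMax.no_ext {a b : V} {g : ℕ} (hg : g = 3 ∨ g = 4) (ha : Pred f Q a) (hb : Pred f Q b)
    (hab : a ≠ b) (he : Ear G (img f L) a b g) {a' b' : V}
    (ha' : Pred f Q a') (hb' : Pred f Q b') (hab' : a' ≠ b') (hqa : a' ∈ Q) (hqb : b' ∈ Q)
    (he' : Ear G (img f L) a' b' (g + 2)) : False := by
  obtain ⟨qa, qb, hLk, hn1, hfree, hno⟩ := Z.conflict hQc hC hk ht hg ha hb hab he
  have hqn : ∀ {v x : V}, x ∈ Q → v ∉ Q → v ≠ x := fun hx hv e => hv (e ▸ hx)
  obtain ⟨p, s, hs, hrun⟩ : ∃ p s, s < g + 2 ∧ SmallRun f Q a b p s := by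
    by_contra hh
    simp only [not_exists, not_and] at hh
    have hcnt := runs_count Z.cyc Z.sub ha hb hab (σ := g + 2) (by omega) (by omega) hh
    obtain ⟨-, -, h3⟩ := Z.close hQc hC Z.cyc Z.sub subset_rfl ha hb hab he
    have h3' := h3 (by omega)
    simp only [inQ, qa, qb, if_true] at hcnt h3'
    rcases hg with rfl | rfl <;> omega
  have hsg : g ≤ s := by
    by_contra hlt
    exact hno p s (by omega) hrun
  obtain ⟨hs1, hs0, hsin, hse, -, -⟩ := hrun
  obtain ⟨F, hF, hFQ, hFsub, hFn, hFp⟩ := Z.cyc.cut_run hQc Z.sub (by omega) hs1 hs0 hsin hse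
  have hpa : Pred F Q a' := by
    obtain ⟨m, rfl, hm⟩ := ha'
    obtain ⟨m', e0, e1⟩ := hFp m hm (Or.inl hqa)
    exact ⟨m', e0, e1 ▸ hm⟩
  have hpb : Pred F Q b' := by
    obtain ⟨m, rfl, hm⟩ := hb'
    obtain ⟨m', e0, e1⟩ := hFp m hm (Or.inl hqb)
    exact ⟨m', e0, e1 ▸ hm⟩
  obtain ⟨c1, -, c3⟩ := Z.close hQc hC hF hFQ hFsub hpa hpb hab' he'
  have := inQ_le (Q := Q) a'
  have := inQ_le (Q := Q) b'
  by_cases e : g + 2 + (L - s) = k + 1
  · exact c1 e
  · have := c3 (by omega)
    omega

end Main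

end Vale.Agent.P048.Full
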