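import Vale.Agent.P048.Full.Reroute

/-!
A maximum clique `Q` on a maximum cycle of length at most `k`: neighbourhood facts of outside
vertices.
-/

namespace Vale.Agent.P048.Full

open Finset Vale.Agent.P048.Cycle

variable {V : Type*} [DecidableEq V]

/-- No path on three or four outside vertices joins two predecessors of clique vertices. -/
def NoLong (G : SimpleGraph V) (Q : Finset V) (f : ℕ → V) (L : ℕ) : Prop :=
  ∀ (R : List V) (o o' : V) (i j : ℕ), IsP G R o o' → (∀ x ∈ R, x ∉ img f L) →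
    (R.length = 3 ∨ R.length = 4) → i < j → j < L → f (i + 1) ∈ Q → f (j + 1) ∈ Q →
    G.Adj (f i) o → G.Adj o' (f j) → False

/-- A maximum clique on a maximum cycle of length at most `k`. -/
structure Setup (G : SimpleGraph V) (k : ℕ) (Q : Finset V) (f : ℕ → V) (L : ℕ) : Prop where
  hk : 5 ≤ Q.card
  hC : ¬HasCyc G (k + 1)
  hQc : ∀ x ∈ Q, ∀ y ∈ Q, x ≠ y → G.Adj x y
  hQk : k + 1 ≤ 2 * Q.card
  hclique : ∀ S : Finset V, (∀ x ∈ S, ∀ y ∈ S, x ≠ y → G.Adj x y) → S.card ≤ Q.card
  hf : PCyc G f L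
  hQ : Q ⊆ img f L
  hLk : L ≤ k
  hmax : ∀ (g : ℕ → V) (M : ℕ), PCyc G g M → Q ⊆ img g M → M ≤ k → M ≤ L

variable {G : SimpleGraph V} {k L : ℕ} {Q : Finset V} {f : ℕ → V}

theorem PCyc.mod_succ (h : PCyc G f L) (i c : ℕ) : f (i % L + c) = f (i + c) := by
  rw [← per_mod h.per (i % L + c), ← per_mod h.per (i + c), Nat.mod_add_mod]

theorem PCyc.periodic_mul (h : PCyc G f L) (i n : ℕ) : f (i + n * L) = f i := by
  induction n with
  | zero => simp
  | succ n ih => rw [Nat.succ_mul, ← Nat.add_assoc, h.per, ih]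

theorem PCyc.eq_mod (h : PCyc G f L) {i j : ℕ} (e : f i = f j) : i % L = j % L :=
  h.inj _ _ (Nat.mod_lt _ (by have := h.pos; omega)) (Nat.mod_lt _ (by have := h.pos; omega))
    (by rw [per_mod h.per, per_mod h.per, e])

/-- The positions whose shift by `c` lies in `T` are exactly as many as `T`. -/
theorem PCyc.card_shift_eq (h : PCyc G f L) {T : Finset V} (hT : T ⊆ img f L) (c : ℕ) :
    ((range L).filter fun i => f (i + c) ∈ T).card = T.card := by
  have hL := h.pos
  refine le_antisymm (card_le_card_of_injOn (fun i => f (i + c)) (fun i hi => ?_)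
    fun i hi j hj e => ?_) ?_
  · exact (mem_filter.1 hi).2
  · simp only [coe_filter, mem_range, Set.mem_setOf_eq] at hi hj
    have := inj_window h.per h.inj (show f (i + c) = f (j + c) from e) (by omega) (by omega)
    omega
  · refine (card_le_card (t := ((range L).filter fun n => f (n + c) ∈ T).image fun n => f (n + c))
      fun q hq => ?_).trans card_image_le
    obtain ⟨n, -, rfl⟩ := mem_image.1 (hT hq)
    have e : f ((n + (L - c % L)) % L + c) = f n := by
      have := Nat.mod_lt c (show L > 0 by omega)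
      rw [h.mod_succ, show n + (L - c % L) + c = n + L + (c - c % L) by
        have := Nat.mod_le c L; omega]
      have e2 : c - c % L = c / L * L := by
        have h1 := Nat.div_add_mod c L
        rw [Nat.mul_comm] at h1
        omega
      rw [e2, h.periodic_mul, h.per]
    exact mem_image.2 ⟨_, mem_filter.2 ⟨mem_range.2 (Nat.mod_lt _ (by omega)), e ▸ hq⟩, e⟩

/-- The cycle read backwards. -/
def revF (f : ℕ → V) (L : ℕ) : ℕ → V := fun n => f (L - n % L)

theorem PCyc.rev (h : PCyc G f L) : PCyc G (revF f L) L := by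
  have hL := h.pos
  refine ⟨hL, fun i => ?_, fun i j hi hj e => ?_, fun i => ?_⟩
  · simp [revF]
  · simp only [revF, Nat.mod_eq_of_lt hi, Nat.mod_eq_of_lt hj] at e
    have := inj_window h.per h.inj e (by omega) (by omega)
    omega
  · simp only [revF]
    have hm := Nat.mod_lt i (show L > 0 by omega)
    rw [← Nat.mod_add_mod i L 1]
    rcases Nat.lt_or_ge (i % L + 1) L with hh | hh
    · rw [Nat.mod_eq_of_lt hh]
      have := h.adj (L - (i % L + 1))
      rw [show L - (i % L + 1) + 1 = L - i % L by omega] at this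
      exact this.symm
    · rw [show i % L + 1 = L by omega, Nat.mod_self, show L - i % L = 1 by omega, Nat.sub_zero]
      have h0 := h.adj 0
      have e := h.per 0
      rw [Nat.zero_add] at e h0
      rw [← e] at h0
      exact h0.symm

theorem revF_eq (h : PCyc G f L) {n m : ℕ} (hnm : (n + m) % L = 0) : revF f L n = f m := by
  have hL := h.pos
  show f (L - n % L) = f m
  rw [← per_mod h.per (L - n % L), ← per_mod h.per m]
  congr 1
  have h1 := Nat.mod_lt n (show L > 0 by omega)
  have h2 := Nat.mod_lt m (show L > 0 by omega)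
  rw [Nat.add_mod] at hnm
  rcases Nat.eq_zero_or_pos (n % L) with h0 | h0
  · rw [h0, Nat.zero_add, Nat.mod_mod] at hnm
    rw [h0, Nat.sub_zero, Nat.mod_self, hnm]
  · rw [Nat.mod_eq_of_lt (show L - n % L < L by omega)]
    rcases Nat.lt_or_ge (n % L + m % L) L with hh | hh
    · rw [Nat.mod_eq_of_lt hh] at hnm; omega
    · rw [Nat.mod_eq_sub_mod hh, Nat.mod_eq_of_lt (by omega)] at hnm; omega

theorem img_rev (h : PCyc G f L) : img (revF f L) L = img f L := by
  refine eq_of_subset_of_card_le (fun x hx => ?_) (by rw [card_img h, card_img h.rev])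
  obtain ⟨n, -, rfl⟩ := mem_image.1 hx
  exact mem_img h _

theorem Setup.rev (S : Setup G k Q f L) : Setup G k Q (revF f L) L :=
  ⟨S.hk, S.hC, S.hQc, S.hQk, S.hclique, S.hf.rev, (img_rev S.hf).symm ▸ S.hQ, S.hLk, S.hmax⟩

theorem Setup.chord (S : Setup G k Q f L) {i j : ℕ} (hij : i < j) (hj : j < L)
    (hi1 : f (i + 1) ∈ Q) (hj1 : f (j + 1) ∈ Q) : G.Adj (f (i + 1)) (f (j + 1)) :=
  S.hQc _ hi1 _ hj1 (S.hf.ne (by omega) (by omega))

/-- A cycle through `Q` longer than the chosen one. -/
theorem Setup.too_long (S : Setup G k Q f L) {g : ℕ → V} {M : ℕ} (hg : PCyc G g M)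
    (hQ : Q ⊆ img g M) (h1 : L < M) (h2 : M ≤ k + 1) : False := by
  rcases Nat.lt_or_ge M (k + 1) with hh | hh
  · have := S.hmax g M hg hQ (by omega); omega
  · exact S.hC (by rw [show k + 1 = M by omega]; exact hg.hasCyc)

theorem Setup.no_path (S : Setup G k Q f L) {R : List V} {o o' : V} (hR : IsP G R o o')
    (hRf : ∀ x ∈ R, x ∉ img f L) (hlen : R.length = 1) {i j : ℕ}
    (hij : i < j) (hj : j < L) (hi1 : f (i + 1) ∈ Q) (hj1 : f (j + 1) ∈ Q)
    (h1 : G.Adj (f i) o) (h2 : G.Adj o' (f j)) : False := by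
  obtain ⟨g, hg, himg⟩ := S.hf.reroute hR hRf hij hj h1 h2 (S.chord hij hj hi1 hj1)
  have hQg : Q ⊆ img g (R.length + L) := himg ▸ S.hQ.trans subset_union_right
  have := S.hLk
  exact S.too_long hg hQg (by omega) (by omega)

/-- Two different cycle neighbours of an outside vertex are never both followed by `Q`. -/
theorem Setup.one_pred (S : Setup G k Q f L) {o : V} (ho : o ∉ img f L) {i j : ℕ} (hi : i < L)
    (hj : j < L) (hi1 : f (i + 1) ∈ Q) (hj1 : f (j + 1) ∈ Q) (h1 : G.Adj o (f i))
    (h2 : G.Adj o (f j)) : i = j := by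
  by_contra hne
  rcases Nat.lt_or_gt_of_ne hne with hl | hl
  · exact S.no_path (isP_singleton o) (by simpa using ho) rfl hl hj hi1 hj1 h1.symm h2
  · exact S.no_path (isP_singleton o) (by simpa using ho) rfl hl hi hj1 hi1 h2.symm h1

/-- Two different cycle neighbours of an outside vertex are never both preceded by `Q`. -/
theorem Setup.one_succ (S : Setup G k Q f L) {o : V} (ho : o ∉ img f L) {i j : ℕ} (hi : i < L)
    (hj : j < L) (hi1 : f (i + (L - 1)) ∈ Q) (hj1 : f (j + (L - 1)) ∈ Q) (h1 : G.Adj o (f i))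
    (h2 : G.Adj o (f j)) : i = j := by
  have hL := S.hf.pos
  have conv : ∀ p, p < L → revF f L ((L - p) % L) = f p ∧
      revF f L ((L - p) % L + 1) = f (p + (L - 1)) := by
    intro p hp
    refine ⟨revF_eq S.hf ?_, revF_eq S.hf ?_⟩
    · rw [Nat.mod_add_mod, Nat.sub_add_cancel (by omega), Nat.mod_self]
    · rw [Nat.add_assoc, Nat.mod_add_mod, show L - p + (1 + (p + (L - 1))) = L + L by omega]
      simp
  obtain ⟨a1, a2⟩ := conv i hi
  obtain ⟨b1, b2⟩ := conv j hj
  have := S.rev.one_pred (o := o) (by rw [img_rev S.hf]; exact ho) (Nat.mod_lt _ (by omega))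
    (Nat.mod_lt _ (by omega)) (a2.symm ▸ hi1) (b2.symm ▸ hj1) (a1.symm ▸ h1) (b1.symm ▸ h2)
  rw [this, b1] at a1
  exact (S.hf.inj _ _ hj hi a1).symm

/-- An outside vertex cannot be inserted between two consecutive cycle vertices. -/
theorem Setup.no_consec (S : Setup G k Q f L) {o : V} (ho : o ∉ img f L) {i : ℕ}
    (h1 : G.Adj o (f i)) (h2 : G.Adj o (f (i + 1))) : False := by
  have hL := S.hf.pos
  have p := (isP_arc S.hf.per S.hf.inj S.hf.adj (a := i + 1) (b := i + L) (by omega) (by omega))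
  have p' := p.cons h2 fun hm => by
    obtain ⟨n, -, -, e⟩ := mem_sg.1 hm
    exact ho (e ▸ mem_img S.hf n)
  have hlen : (o :: sg f (i + 1) (i + L)).length = L + 1 := by simp <;> omega
  obtain ⟨g, hg, himg⟩ := exists_pcyc p' (by rw [S.hf.per]; exact h1.symm) (by omega)
  rw [hlen] at hg himg
  have := S.hLk
  refine S.too_long hg (fun x hx => ?_) (by omega) (by omega)
  rw [himg, List.mem_toFinset]
  obtain ⟨n, hn, rfl⟩ := mem_image.1 (S.hQ hx)
  rw [mem_range] at hn
  refine List.mem_cons_of_mem _ (mem_sg.2 ?_)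
  -- shift into the window
  set e := (n + L - ((i + 1) % L)) % L with he
  refine ⟨i + 1 + e, by omega, by have := Nat.mod_lt (n + L - ((i + 1) % L)) (show L > 0 by omega); omega, ?_⟩
  rw [← per_mod S.hf.per (i + 1 + e), ← per_mod S.hf.per n]
  congr 1
  have := Nat.mod_lt (i + 1) (show L > 0 by omega)
  rw [he, Nat.add_mod, Nat.mod_mod, Nat.add_mod_mod,
    show (i + 1) % L + (n + L - (i + 1) % L) = n + L by omega, Nat.add_mod_right]

end Vale.Agent.P048.Full
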