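import Vale.Agent.P048.Full.Conflict
import Vale.Agent.P048.Full.NoBigSetup
import Vale.Agent.P048.Cycle.TwoClique

/-!
A conflict on a maximum cycle through a maximum half clique forces more than `k` independent vertices.

Every predecessor of `Q` supplies two independent vertices outside the cycle: inside its own outside
neighbourhood when it is in `Q` and that is not a clique, otherwise next to an outside neighbour.
-/

namespace Vale.Agent.P048.Full

open Finset Vale.Agent.P048.Cycle

variable {V : Type*} [DecidableEq V] {G : SimpleGraph V} {f : ℕ → V} {L k : ℕ} {Q : Finset V}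

theorem PCyc.add_eq (h : PCyc G f L) {i j : ℕ} (e : f i = f j) (c : ℕ) : f (i + c) = f (j + c) := by
  rw [← h.mod_succ i c, ← h.mod_succ j c, h.eq_mod e]

theorem Ear.symm {S : Finset V} {a b : V} {g : ℕ} (h : Ear G S a b g) : Ear G S b a g := by
  obtain ⟨hg, o, ho, hoff, h1, h2⟩ := h
  refine ⟨hg, fun n => o (g - 1 - n), ⟨fun i j hi hj e => ?_, fun i hi => ?_⟩,
    fun n hn => hoff _ (by omega), by simpa using h2.symm, by simpa using h1.symm⟩
  · have := ho.1 _ _ (by omega) (by omega) e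
    omega
  · have := ho.2 (g - 1 - (i + 1)) (by omega)
    rw [show g - 1 - (i + 1) + 1 = g - 1 - i by omega] at this
    exact this.symm

/-- A path between clique vertices is completed to a cycle by the rest of the clique. -/
theorem piece_cycle (hQc : ∀ x ∈ Q, ∀ y ∈ Q, x ≠ y → G.Adj x y) {l : List V} {u v : V}
    (hl : IsP G l u v) (hu : u ∈ Q) (hv : v ∈ Q) (huv : u ≠ v) {M : ℕ} {X : Finset V}
    (hX : ∀ x ∈ l, x ∈ Q → x ∈ X) (h1 : l.length ≤ M) (h2 : M + X.card ≤ l.length + Q.card) :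
    HasCyc G M := by
  have hc : M - l.length ≤ (Q \ l.toFinset).card := by
    have hsub : Q ⊆ (Q \ l.toFinset) ∪ X := fun x hx => by
      by_cases hxl : x ∈ l
      · exact mem_union_right _ (hX x hxl hx)
      · exact mem_union_left _ (mem_sdiff.2 ⟨hx, by simpa using hxl⟩)
    have := (card_le_card hsub).trans (card_union_le _ _)
    omega
  obtain ⟨E', hE', hEc⟩ := exists_subset_card_eq hc
  have hmem : ∀ x ∈ E'.toList, x ∈ Q ∧ x ∉ l := fun x hx => by
    have := hE' (mem_toList.1 hx)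
    simpa using this
  obtain ⟨w, hw, hwA, hw'⟩ := clique_path hQc E'.toList l u v hl hv E'.nodup_toList
    (fun x hx => (hmem x hx).1) (fun x hx => (hmem x hx).2)
  refine ⟨l ++ E'.toList, u, w, hw, hQc w hwA u hu ?_, by simp [hEc]; omega⟩
  rcases hw' with h' | rfl
  · exact fun e => (hmem w h').2 (e ▸ hl.head_mem)
  · exact huv.symm

/-- A run: `s` positions outside `Q` between two in `Q`. -/
def IsRun (f : ℕ → V) (Q : Finset V) (p s : ℕ) : Prop :=
  1 ≤ s ∧ f p ∈ Q ∧ (∀ e, 1 ≤ e → e ≤ s → f (p + e) ∉ Q) ∧ f (p + s + 1) ∈ Q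

theorem exists_run (h : PCyc G f L) (hQ : Q ⊆ img f L) {q : V} (hq : q ∈ Q) {p : ℕ}
    (h0 : f p ∈ Q) (h1 : f (p + 1) ∉ Q) : ∃ s, IsRun f Q p s ∧ s < L := by
  classical
  obtain ⟨n, hn, rfl⟩ := mem_image.1 (hQ hq)
  have hex : ∃ c, f (p + c + 1) ∈ Q :=
    ⟨L - 1, by rw [Nat.add_assoc, Nat.sub_add_cancel (by have := h.pos; omega), h.per]; exact h0⟩
  have hs := Nat.find_spec hex
  have hle : Nat.find hex ≤ L - 1 :=
    Nat.find_min' hex (by rw [Nat.add_assoc, Nat.sub_add_cancel (by have := h.pos; omega), h.per]; exact h0)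
  have hs1 : 1 ≤ Nat.find hex := Nat.pos_of_ne_zero fun e => h1 (by simpa [e] using hs)
  refine ⟨_, ⟨hs1, h0, fun e e1 e2 he => ?_, hs⟩, by have := h.pos; omega⟩
  exact Nat.find_min hex (show e - 1 < _ by omega) (by rwa [Nat.add_assoc, Nat.sub_add_cancel e1])

theorem in_run (h : PCyc G f L) (hQ : Q ⊆ img f L) {q : V} (hq : q ∈ Q) {x : V}
    (hx : x ∈ img f L) (hxQ : x ∉ Q) :
    ∃ p s e, IsRun f Q p s ∧ s < L ∧ 1 ≤ e ∧ e ≤ s ∧ f (p + e) = x := by
  classical
  obtain ⟨n, hn, rfl⟩ := mem_image.1 hx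
  rw [mem_range] at hn
  obtain ⟨c, hc, hcq⟩ := mem_image.1 (hQ hq)
  rw [mem_range] at hc
  have hex : ∃ d, 1 ≤ d ∧ d ≤ L ∧ f (n + L - d) ∈ Q := by
    rcases Nat.lt_or_ge c n with hl | hl
    · exact ⟨n - c, by omega, by omega, by
        rw [show n + L - (n - c) = c + L by omega, h.per, hcq]; exact hq⟩
    · rcases hl.eq_or_lt with rfl | hl
      · exact absurd (hcq ▸ hq) hxQ
      · exact ⟨n + L - c, by omega, by omega, by
          rw [show n + L - (n + L - c) = c by omega, hcq]; exact hq⟩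
  obtain ⟨d1, d2, d3⟩ := Nat.find_spec hex
  set d := Nat.find hex
  have hmin : ∀ d', 1 ≤ d' → d' < d → f (n + L - d') ∉ Q := fun d' a b hh =>
    Nat.find_min hex b ⟨a, by omega, hh⟩
  have hnQ : f (n + L) ∉ Q := by rwa [h.per]
  have h1 : f (n + L - d + 1) ∉ Q := by
    rcases Nat.lt_or_ge 1 d with hl | hl
    · rw [show n + L - d + 1 = n + L - (d - 1) by omega]; exact hmin _ (by omega) (by omega)
    · rw [show n + L - d + 1 = n + L by omega]; exact hnQ
  obtain ⟨s, hr, hsL⟩ := exists_run h hQ hq d3 h1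
  refine ⟨n + L - d, s, d, hr, hsL, d1, ?_, by rw [Nat.sub_add_cancel (by omega), h.per]⟩
  by_contra hlt
  have := hr.2.2.2
  rcases Nat.lt_or_ge (s + 1) d with hl | hl
  · rw [show n + L - d + s + 1 = n + L - (d - (s + 1)) by omega] at this
    exact hmin _ (by omega) (by omega) this
  · rw [show n + L - d + s + 1 = n + L by omega] at this
    exact hnQ this

/-- Two different runs share no interior vertex and no right end. -/
theorem runs_sep (h : PCyc G f L) {p s p' s' : ℕ} (hr : IsRun f Q p s) (hr' : IsRun f Q p' s')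
    (hs : s < L) (hne : f p ≠ f p') :
    (∀ x y, 1 ≤ x → x ≤ s → 1 ≤ y → y ≤ s' → f (p + x) ≠ f (p' + y)) ∧
      f (p + s + 1) ≠ f (p' + s' + 1) := by
  obtain ⟨m, hm, e0, -⟩ := exists_off h p p'
  have hm1 : 1 ≤ m := Nat.pos_of_ne_zero fun e => hne (by rw [e0, e]; simp)
  have hms : s < m := by
    by_contra hh
    exact hr.2.2.1 m hm1 (by omega) (e0 ▸ hr'.2.1)
  have hml : m + s' < L := by
    by_contra hh
    refine hr'.2.2.1 (L - m) (by omega) (by omega) ?_
    rw [h.add_eq e0, Nat.add_assoc, show m + (L - m) = L by omega, h.per]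
    exact hr.2.1
  refine ⟨fun x y x1 x2 y1 y2 e => ?_, fun e => ?_⟩
  · rw [h.add_eq e0] at e
    exact h.ne (show p + x < p + m + y by omega) (by omega) e
  · rw [Nat.add_assoc p', h.add_eq e0] at e
    exact h.ne (show p + s + 1 < p + m + (s' + 1) by omega) (by omega) e

/-- The predecessor never starts a run. -/
theorem Pred.ne_start (h : PCyc G f L) {a : V} (ha : Pred f Q a) {p s : ℕ} (hr : IsRun f Q p s) :
    a ≠ f p := by
  obtain ⟨n, rfl, hn⟩ := ha
  intro e
  exact hr.2.2.1 1 le_rfl hr.1 (h.add_eq e 1 ▸ hn)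

section Main

variable (Z : ZMax G k Q f L) (hQc : ∀ x ∈ Q, ∀ y ∈ Q, x ≠ y → G.Adj x y)
  (hC : ¬HasCyc G (k + 1)) (hk : k + 1 ≤ 2 * Q.card) (h8 : 8 ≤ k)

include Z hQc hC hk h8

/-- The numbers in the presence of a conflict. -/
theorem ZMax.numbers {a b : V} {g : ℕ} (hg : g = 3 ∨ g = 4) (ha : Pred f Q a) (hb : Pred f Q b)
    (hab : a ≠ b) (he : Ear G (img f L) a b g) :
    a ∈ Q ∧ b ∈ Q ∧ L = k ∧ g * nr f L Q + Q.card ≤ k ∧ 1 ≤ nr f L Q ∧
      2 * nr f L Q + 3 ≤ Q.card ∧ Q.card ≤ 2 * nr f L Q + g ∧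
      ∀ p s, IsRun f Q p s → g ≤ s := by
  obtain ⟨qa, qb, hLk, h1, h2, hno⟩ := Z.conflict hQc hC hk h8 hg ha hb hab he
  have hQL : Q.card ≤ L := (card_le_card Z.sub).trans (card_img Z.cyc).le
  have hcnt := runs_count Z.cyc Z.sub ha hb hab (σ := g) (by omega) (by omega) hno
  obtain ⟨-, -, h3⟩ := Z.close hQc hC Z.cyc Z.sub subset_rfl ha hb hab he
  have h3' := h3 (by omega)
  simp only [inQ, qa, qb, if_true] at hcnt h3'
  refine ⟨qa, qb, hLk, by omega, h1, h2, by omega, fun p s hr => ?_⟩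
  by_contra hlt
  exact hno p s (by omega) ⟨hr.1, hr.2.1, hr.2.2.1, hr.2.2.2,
    fun e => hr.2.2.1 s hr.1 le_rfl (e ▸ qa), fun e => hr.2.2.1 s hr.1 le_rfl (e ▸ qb)⟩

/-- A path from a run start through a chord to `a`, then over the ear to `b`. -/
theorem ZMax.piece {a b : V} {g : ℕ} (qa : a ∈ Q) (qb : b ∈ Q) (ha : Pred f Q a) (hb : Pred f Q b)
    (hab : a ≠ b) (he : Ear G (img f L) a b g) {p s e : ℕ} (hr : IsRun f Q p s) (hs : s < L)
    (e1 : 1 ≤ e) (e2 : e ≤ s) (hadj : G.Adj a (f (p + e))) :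
    ∃ l, IsP G l (f p) b ∧ l.length = e + g + 3 ∧
      (∀ x ∈ l, x = a ∨ x = b ∨ (∃ c, c ≤ e ∧ x = f (p + c)) ∨ x ∉ img f L) := by
  obtain ⟨hg, o, ho, hoff, h1, h2⟩ := he
  have ua := ha.ne_start Z.cyc hr
  have ub := hb.ne_start Z.cyc hr
  have haQ : ∀ c, c ≤ e → f (p + c) ≠ a ∧ f (p + c) ≠ b := by
    intro c hc
    rcases Nat.eq_zero_or_pos c with rfl | hc1
    · exact ⟨by simpa using ua.symm, by simpa using ub.symm⟩
    · exact ⟨fun h => hr.2.2.1 c hc1 (by omega) (h ▸ qa), fun h => hr.2.2.1 c hc1 (by omega) (h ▸ qb)⟩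
  have p1 := (isP_arc Z.cyc.per Z.cyc.inj Z.cyc.adj (a := p) (b := p + e) (by omega) (by omega)).concat
    hadj.symm fun hm => by
      obtain ⟨n, hn1, hn2, hn⟩ := mem_sg.1 hm
      exact (haQ (n - p) (by omega)).1 (by rw [Nat.add_sub_cancel' hn1]; exact hn)
  have haS : a ∈ img f L := Z.sub qa
  have hbS : b ∈ img f L := Z.sub qb
  have p2 := (p1.append (ho.sg (Nat.zero_le _) le_rfl) h1 fun x hx hx' => by
    obtain ⟨n, -, hn, rfl⟩ := mem_sg.1 hx'
    rcases List.mem_append.1 hx with hx | hx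
    · obtain ⟨m, -, -, hm⟩ := mem_sg.1 hx
      exact hoff n (by omega) (hm ▸ mem_img Z.cyc m)
    · simp only [List.mem_singleton] at hx
      exact hoff n (by omega) (hx ▸ haS)).concat h2 fun hm => by
    rcases List.mem_append.1 hm with hm | hm
    · rcases List.mem_append.1 hm with hm | hm
      · obtain ⟨n, hn1, hn2, hn⟩ := mem_sg.1 hm
        exact (haQ (n - p) (by omega)).2 (by rw [Nat.add_sub_cancel' hn1]; exact hn)
      · simp only [List.mem_singleton] at hm
        exact hab hm.symm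
    · obtain ⟨n, -, hn, hn'⟩ := mem_sg.1 hm
      exact hoff n (by omega) (hn'.symm ▸ hbS)
  refine ⟨_, p2, by simp; omega, fun x hx => ?_⟩
  simp only [List.mem_append, List.mem_singleton, mem_sg] at hx
  rcases hx with ((⟨n, hn1, hn2, rfl⟩ | rfl) | ⟨n, -, hn, rfl⟩) | rfl
  · exact Or.inr (Or.inr (Or.inl ⟨n - p, by omega, by rw [Nat.add_sub_cancel' hn1]⟩))
  · exact Or.inl rfl
  · exact Or.inr (Or.inr (Or.inr (hoff n (by omega))))
  · exact Or.inr (Or.inl rfl)

/-- One run alone: the chord must be short. -/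
theorem ZMax.one_piece {a b : V} {g : ℕ} (qa : a ∈ Q) (qb : b ∈ Q) (ha : Pred f Q a) (hb : Pred f Q b)
    (hab : a ≠ b) (he : Ear G (img f L) a b g) {p s e : ℕ} (hr : IsRun f Q p s) (hs : s < L)
    (e1 : 1 ≤ e) (e2 : e ≤ s) (hadj : G.Adj a (f (p + e))) :
    k + 1 < e + g + 3 ∨ Q.card + e + g < k + 1 := by
  by_contra hh
  simp only [not_or, Nat.not_lt] at hh
  obtain ⟨l, hl, hlen, hmem⟩ := Z.piece hQc hC hk h8 qa qb ha hb hab he hr hs e1 e2 hadj
  refine hC (piece_cycle hQc hl hr.2.1 qb (hb.ne_start Z.cyc hr).symm (X := {f p, a, b})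
    (fun x hx hxQ => ?_) (by omega) (by have := card_le_three (a := f p) (b := a) (c := b); omega))
  simp only [mem_insert, mem_singleton]
  rcases hmem x hx with rfl | rfl | ⟨c, hc, rfl⟩ | hx'
  · exact Or.inr (Or.inl rfl)
  · exact Or.inr (Or.inr rfl)
  · rcases Nat.eq_zero_or_pos c with rfl | hc1
    · exact Or.inl (by simp)
    · exact absurd hxQ (hr.2.2.1 c hc1 (by omega))
  · exact absurd (Z.sub hxQ) hx'

/-- Two runs of three: no chord from an end of the ear. -/
theorem ZMax.two_piece {a b : V} (qa : a ∈ Q) (qb : b ∈ Q) (ha : Pred f Q a) (hb : Pred f Q b)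
    (hab : a ≠ b) (he : Ear G (img f L) a b 3) {p e p' : ℕ} (hr : IsRun f Q p 3)
    (hr' : IsRun f Q p' 3) (hne : f p ≠ f p') (hw : f (p' + 4) ≠ a) (e1 : 1 ≤ e) (e2 : e ≤ 3)
    (hk13 : k = 13) (h7 : Q.card = 7) (hL : L = k) (hadj : G.Adj a (f (p + e))) : False := by
  have hL' : 3 < L := by omega
  obtain ⟨l, hl, hlen, hmem⟩ := Z.piece hQc hC hk h8 qa qb ha hb hab he hr hL' e1 e2 hadj
  obtain ⟨sep, -⟩ := runs_sep Z.cyc hr hr' hL' hne
  have ua := ha.ne_start Z.cyc hr'
  have ub := hb.ne_start Z.cyc hr'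
  -- what of the second run can lie on the first path
  have clash : ∀ y, y ≤ 4 → f (p' + y) ∈ l → (y = 4 ∧ (f (p' + y) = f p ∨ f (p' + y) = b)) := by
    intro y hy hm
    have hcases : y = 0 ∨ (1 ≤ y ∧ y ≤ 3) ∨ y = 4 := by omega
    rcases hmem _ hm with h | h | ⟨c, hc, h⟩ | h
    · rcases hcases with rfl | ⟨y1, y2⟩ | rfl
      · exact absurd (by simpa using h.symm) ua
      · exact absurd (h ▸ qa) (hr'.2.2.1 y y1 y2)
      · exact absurd h hw
    · rcases hcases with rfl | ⟨y1, y2⟩ | rfl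
      · exact absurd (by simpa using h.symm) ub
      · exact absurd (h ▸ qb) (hr'.2.2.1 y y1 y2)
      · exact ⟨rfl, Or.inr h⟩
    · rcases Nat.eq_zero_or_pos c with rfl | hc1
      · rcases hcases with rfl | ⟨y1, y2⟩ | rfl
        · exact absurd (by simpa using h.symm) hne
        · exact absurd (h ▸ (by simpa using hr.2.1)) (hr'.2.2.1 y y1 y2)
        · exact ⟨rfl, Or.inl (by simpa using h)⟩
      · have hcQ := hr.2.2.1 c hc1 (by omega)
        rcases hcases with rfl | ⟨y1, y2⟩ | rfl
        · exact absurd (h ▸ (by simpa using hr'.2.1)) hcQ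
        · exact absurd h.symm (sep c y hc1 (by omega) y1 y2)
        · exact absurd (h ▸ hr'.2.2.2) hcQ
    · exact absurd (mem_img Z.cyc _) h
  have hXsub : ∀ x, x ∈ l ∨ (∃ y, y ≤ 4 ∧ x = f (p' + y)) → x ∈ Q →
      x ∈ ({f p, a, b, f p', f (p' + 4)} : Finset V) := by
    intro x hx hxQ
    simp only [mem_insert, mem_singleton]
    rcases hx with hx | ⟨y, hy, rfl⟩
    · rcases hmem x hx with rfl | rfl | ⟨c, hc, rfl⟩ | hx'
      · tauto
      · tauto
      · rcases Nat.eq_zero_or_pos c with rfl | hc1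
        · simp
        · exact absurd hxQ (hr.2.2.1 c hc1 (by omega))
      · exact absurd (Z.sub hxQ) hx'
    · rcases (show y = 0 ∨ (1 ≤ y ∧ y ≤ 3) ∨ y = 4 by omega) with rfl | ⟨y1, y2⟩ | rfl
      · simp
      · exact absurd hxQ (hr'.2.2.1 y y1 y2)
      · tauto
  by_cases hu : f (p' + 4) = f p
  · -- the second run leads into the first
    have q := (isP_arc Z.cyc.per Z.cyc.inj Z.cyc.adj (a := p') (b := p' + 3) (by omega) (by omega)).append
      hl (by rw [← hu]; exact Z.cyc.adj _) fun x hx hx' => by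
        obtain ⟨n, n1, n2, rfl⟩ := mem_sg.1 hx
        have := (clash (n - p') (by omega) (by rw [Nat.add_sub_cancel' n1]; exact hx')).1
        omega
    have hX : ({f p, a, b, f p', f (p' + 4)} : Finset V) = {f p', f p, a, b} := by
      rw [hu]; ext x; simp; tauto
    refine hC (piece_cycle hQc q hr'.2.1 qb ub.symm (X := {f p', f p, a, b})
      (fun x hx hxQ => hX ▸ hXsub x ?_ hxQ) (by simp; omega)
      (by have := card_le_four (a := f p') (b := f p) (c := a) (d := b); simp; omega))
    rcases List.mem_append.1 hx with hx | hx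
    · obtain ⟨n, n1, n2, rfl⟩ := mem_sg.1 hx
      exact Or.inr ⟨n - p', by omega, by rw [Nat.add_sub_cancel' n1]⟩
    · exact Or.inl hx
  by_cases hv : f (p' + 4) = b
  · -- the second run continues from `b`
    have q := hl.append (isP_arc Z.cyc.per Z.cyc.inj Z.cyc.adj (a := p') (b := p' + 3) (by omega)
      (by omega)).reverse (by rw [← hv]; exact (Z.cyc.adj (p' + 3)).symm) fun x hx hx' => by
        obtain ⟨n, n1, n2, rfl⟩ := mem_sg.1 (List.mem_reverse.1 hx')
        have := (clash (n - p') (by omega) (by rw [Nat.add_sub_cancel' n1]; exact hx)).1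
        omega
    have hX : ({f p, a, b, f p', f (p' + 4)} : Finset V) = {f p', f p, a, b} := by
      rw [hv]; ext x; simp; tauto
    refine hC (piece_cycle hQc q hr.2.1 hr'.2.1 hne (X := {f p', f p, a, b})
      (fun x hx hxQ => hX ▸ hXsub x ?_ hxQ) (by simp; omega)
      (by have := card_le_four (a := f p') (b := f p) (c := a) (d := b); simp; omega))
    rcases List.mem_append.1 hx with hx | hx
    · exact Or.inl hx
    · obtain ⟨n, n1, n2, rfl⟩ := mem_sg.1 (List.mem_reverse.1 hx)
      exact Or.inr ⟨n - p', by omega, by rw [Nat.add_sub_cancel' n1]⟩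
  · have q := hl.append (isP_arc Z.cyc.per Z.cyc.inj Z.cyc.adj (a := p') (b := p' + 4) (by omega)
      (by omega)).reverse (hQc _ qb _ hr'.2.2.2 (Ne.symm hv)) fun x hx hx' => by
        obtain ⟨n, n1, n2, rfl⟩ := mem_sg.1 (List.mem_reverse.1 hx')
        obtain ⟨e4, h | h⟩ := clash (n - p') (by omega) (by rw [Nat.add_sub_cancel' n1]; exact hx)
        · exact hu (by rw [← e4]; exact h)
        · exact hv (by rw [← e4]; exact h)
    refine hC (piece_cycle hQc q hr.2.1 hr'.2.1 hne (X := {f p, a, b, f p', f (p' + 4)})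
      (fun x hx hxQ => hXsub x ?_ hxQ) (by simp; omega)
      (by have := card_le_five (a := f p) (b := a) (c := b) (d := f p') (e := f (p' + 4)); simp; omega))
    rcases List.mem_append.1 hx with hx | hx
    · exact Or.inl hx
    · obtain ⟨n, n1, n2, rfl⟩ := mem_sg.1 (List.mem_reverse.1 hx)
      exact Or.inr ⟨n - p', by omega, by rw [Nat.add_sub_cancel' n1]⟩

variable [Fintype V] (hdeg : ∀ x, k ≤ degIn G univ x)
include hdeg

/-- An end of an ear has at least three neighbours off the cycle. -/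
theorem ZMax.three_out {a b : V} {g : ℕ} (hg : g = 3 ∨ g = 4) (ha : Pred f Q a) (hb : Pred f Q b)
    (hab : a ≠ b) (he : Ear G (img f L) a b g) {A : Finset V}
    (hA : ∀ y, G.Adj a y → y ∉ img f L → y ∈ A) : 3 ≤ A.card := by
  classical
  obtain ⟨qa, qb, hLk, hgn, hn1, hn3, htn, hruns⟩ := Z.numbers hQc hC hk h8 hg ha hb hab he
  set T := (img f L \ Q).filter fun x => G.Adj a x with hT
  have hsplit : k + 1 ≤ Q.card + T.card + A.card := by
    have h1 := (hdeg a).trans (card_le_card (t := (Q.erase a ∪ T) ∪ A) fun y hy => by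
      simp only [mem_filter, mem_univ, true_and] at hy
      by_cases hyi : y ∈ img f L
      · by_cases hyQ : y ∈ Q
        · exact mem_union_left _ (mem_union_left _ (mem_erase.2 ⟨hy.ne.symm, hyQ⟩))
        · exact mem_union_left _ (mem_union_right _ (mem_filter.2 ⟨mem_sdiff.2 ⟨hyi, hyQ⟩, hy⟩))
      · exact mem_union_right _ (hA y hy hyi))
    have h2 := card_union_le (Q.erase a ∪ T) A
    have h3 := card_union_le (Q.erase a) T
    have h4 := card_erase_of_mem qa
    have := card_pos.2 ⟨a, qa⟩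
    omega
  have hdiff : (img f L \ Q).card + Q.card = L := by
    rw [card_sdiff_add_card_eq_card Z.sub, card_img Z.cyc]
  have hbound : T.card + Q.card + 2 ≤ k := by
    rcases (show nr f L Q = 1 ∨ 2 ≤ nr f L Q by omega) with h1 | h2
    · -- one run
      obtain ⟨p₀, hS⟩ := card_eq_one.1 h1
      have hp₀ : p₀ ∈ (range L).filter fun i => f i ∈ Q ∧ f (i + 1) ∉ Q := hS ▸ mem_singleton_self _
      simp only [mem_filter, mem_range] at hp₀
      obtain ⟨s, hr, hsL⟩ := exists_run Z.cyc Z.sub qa hp₀.2.1 hp₀.2.2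
      have hall : ∀ x ∈ img f L \ Q, ∃ e, 1 ≤ e ∧ e ≤ s ∧ f (p₀ + e) = x := by
        intro x hx
        obtain ⟨hx1, hx2⟩ := mem_sdiff.1 hx
        obtain ⟨p', s', e', hr', hs', e1, e2, rfl⟩ := in_run Z.cyc Z.sub qa hx1 hx2
        have hp' : p' % L ∈ (range L).filter fun i => f i ∈ Q ∧ f (i + 1) ∉ Q := by
          refine mem_filter.2 ⟨mem_range.2 (Nat.mod_lt _ (by omega)), ?_, ?_⟩
          · rw [per_mod Z.cyc.per]; exact hr'.2.1
          · rw [Z.cyc.mod_succ]; exact hr'.2.2.1 1 le_rfl hr'.1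
        rw [hS, mem_singleton] at hp'
        have heq : f p' = f p₀ := by rw [← hp', per_mod Z.cyc.per]
        refine ⟨e', e1, ?_, Z.cyc.add_eq heq.symm e'⟩
        by_contra hlt
        exact hr'.2.2.1 (s + 1) (by omega) (by omega) (by
          rw [Z.cyc.add_eq heq, ← Nat.add_assoc]; exact hr.2.2.2)
      have hsize : (img f L \ Q).card ≤ s := by
        have := card_le_card (show img f L \ Q ⊆ (Icc 1 s).image fun e => f (p₀ + e) from fun x hx => by
          obtain ⟨e, a1, a2, a3⟩ := hall x hx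
          exact mem_image.2 ⟨e, mem_Icc.2 ⟨a1, a2⟩, a3⟩)
        have := this.trans card_image_le
        simpa using this
      have hroom := run_room Z.cyc Z.sub hsL hr.2.2.1
      have : T.card ≤ 1 := card_le_one.2 fun x hx y hy => by
        simp only [hT, mem_filter] at hx hy
        obtain ⟨e, e1, e2, rfl⟩ := hall x hx.1
        obtain ⟨e', e1', e2', rfl⟩ := hall y hy.1
        have c1 := Z.one_piece hQc hC hk h8 qa qb ha hb hab he hr hsL e1 e2 hx.2
        have c2 := Z.one_piece hQc hC hk h8 qa qb ha hb hab he hr hsL e1' e2' hy.2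
        have : e = e' := by rcases hg with rfl | rfl <;> omega
        rw [this]
      have := hruns p₀ s hr
      omega
    · -- two runs of three
      obtain rfl : g = 3 := by rcases hg with rfl | rfl <;> omega
      have h2' : nr f L Q = 2 := by omega
      have h7 : Q.card = 7 := by omega
      have h13 : k = 13 := by omega
      have three : ∀ p s, IsRun f Q p s → s < L → s = 3 := by
        intro p s hr hs
        have hex : ∃ p' s', IsRun f Q p' s' ∧ s' < L ∧ f p' ≠ f p := by
          obtain ⟨x, y, hxy, hS⟩ := card_eq_two.1 h2'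
          have hx : x ∈ (range L).filter fun i => f i ∈ Q ∧ f (i + 1) ∉ Q := hS ▸ mem_insert_self _ _
          have hy : y ∈ (range L).filter fun i => f i ∈ Q ∧ f (i + 1) ∉ Q :=
            hS ▸ mem_insert_of_mem (mem_singleton_self _)
          simp only [mem_filter, mem_range] at hx hy
          by_cases hp : f x = f p
          · obtain ⟨s', hr', hs'⟩ := exists_run Z.cyc Z.sub qa hy.2.1 hy.2.2
            exact ⟨y, s', hr', hs', fun e => hxy (Z.cyc.inj x y hx.1 hy.1 (hp.trans e.symm))⟩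
          · obtain ⟨s', hr', hs'⟩ := exists_run Z.cyc Z.sub qa hx.2.1 hx.2.2
            exact ⟨x, s', hr', hs', hp⟩
        obtain ⟨p', s', hr', hs', hne⟩ := hex
        obtain ⟨sep, -⟩ := runs_sep Z.cyc hr hr' hs (Ne.symm hne)
        set A1 := (Icc 1 s).image fun e => f (p + e)
        set A2 := (Icc 1 s').image fun e => f (p' + e)
        have hd : Disjoint A1 A2 := disjoint_left.2 fun x hx hx' => by
          obtain ⟨e, he, rfl⟩ := mem_image.1 hx
          obtain ⟨e', he', hee⟩ := mem_image.1 hx'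
          rw [mem_Icc] at he he'
          exact sep e e' he.1 he.2 he'.1 he'.2 hee.symm
        have hsub : A1 ∪ A2 ⊆ img f L \ Q := by
          refine union_subset (fun x hx => ?_) (fun x hx => ?_) <;>
            (obtain ⟨e, he, rfl⟩ := mem_image.1 hx; rw [mem_Icc] at he; refine mem_sdiff.2 ⟨mem_img Z.cyc _, ?_⟩)
          · exact hr.2.2.1 e he.1 he.2
          · exact hr'.2.2.1 e he.1 he.2
        have hc := card_le_card hsub
        have c1 : A1.card = s := by
          rw [card_image_of_injOn, Nat.card_Icc]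
          · omega
          · intro x hx y hy e
            simp only [coe_Icc, Set.mem_Icc] at hx hy
            have := inj_window Z.cyc.per Z.cyc.inj (show f (p + x) = f (p + y) from e) (by omega) (by omega)
            omega
        have c2 : A2.card = s' := by
          rw [card_image_of_injOn, Nat.card_Icc]
          · omega
          · intro x hx y hy e
            simp only [coe_Icc, Set.mem_Icc] at hx hy
            have := inj_window Z.cyc.per Z.cyc.inj (show f (p' + x) = f (p' + y) from e) (by omega) (by omega)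
            omega
        rw [card_union_of_disjoint hd, c1, c2] at hc
        have := hruns p s hr
        have := hruns p' s' hr'
        omega
      have other : ∀ p, IsRun f Q p 3 → ∃ p', IsRun f Q p' 3 ∧ f p ≠ f p' := by
        intro p hr
        obtain ⟨x, y, hxy, hS⟩ := card_eq_two.1 h2'
        have hx : x ∈ (range L).filter fun i => f i ∈ Q ∧ f (i + 1) ∉ Q := hS ▸ mem_insert_self _ _
        have hy : y ∈ (range L).filter fun i => f i ∈ Q ∧ f (i + 1) ∉ Q :=
          hS ▸ mem_insert_of_mem (mem_singleton_self _)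
        simp only [mem_filter, mem_range] at hx hy
        by_cases hp : f x = f p
        · obtain ⟨s', hr', hs'⟩ := exists_run Z.cyc Z.sub qa hy.2.1 hy.2.2
          exact ⟨y, three y s' hr' hs' ▸ hr', fun e => hxy (Z.cyc.inj x y hx.1 hy.1 (hp.trans e))⟩
        · obtain ⟨s', hr', hs'⟩ := exists_run Z.cyc Z.sub qa hx.2.1 hx.2.2
          exact ⟨x, three x s' hr' hs' ▸ hr', Ne.symm hp⟩
      -- no run ends at `a`
      have noEnd : ∀ p, IsRun f Q p 3 → f (p + 4) ≠ a := by
        intro p hr e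
        obtain ⟨p', hr', hne⟩ := other p hr
        refine Z.two_piece hQc hC hk h8 qa qb ha hb hab he hr hr' hne (fun e' => ?_) (e := 3)
          (by omega) le_rfl h13 h7 hLk (by rw [← e]; exact (Z.cyc.adj (p + 3)).symm)
        exact (runs_sep Z.cyc hr hr' (by omega) hne).2 (e.trans e'.symm)
      have : T.card = 0 := card_eq_zero.2 (eq_empty_of_forall_notMem fun x hx => by
        simp only [hT, mem_filter, mem_sdiff] at hx
        obtain ⟨p, s, e, hr, hs, e1, e2, rfl⟩ := in_run Z.cyc Z.sub qa hx.1.1 hx.1.2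
        obtain rfl := three p s hr hs
        obtain ⟨p', hr', hne⟩ := other p hr
        exact Z.two_piece hQc hC hk h8 qa qb ha hb hab he hr hr' hne (noEnd p' hr') e1 e2 h13 h7 hLk
          hx.2)
      omega
  omega

/-- No ear ends at a predecessor whose outside neighbourhood is a clique. -/
theorem ZMax.no_clique_end {a b : V} {g : ℕ} (hg : g = 3 ∨ g = 4) (ha : Pred f Q a) (hb : Pred f Q b)
    (hab : a ≠ b) (he : Ear G (img f L) a b g)
    (hcl : ∀ x y, G.Adj b x → x ∉ img f L → G.Adj b y → y ∉ img f L → x ≠ y → G.Adj x y) : False := by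
  classical
  obtain ⟨hg1, o, ho, hoff, h1, h2⟩ := id he
  have hex : ∃ m, m < g ∧ G.Adj (o m) b := ⟨g - 1, by omega, h2⟩
  obtain ⟨hmg, hmb⟩ := Nat.find_spec hex
  set m := Nat.find hex
  have hmin : ∀ n, n < m → ¬G.Adj (o n) b := fun n hn hh => Nat.find_min hex hn ⟨by omega, hh⟩
  have hP := ho.sg (Nat.zero_le m) (show m ≤ g - 1 by omega)
  have hPoff : ∀ x ∈ sg o 0 m, x ∉ img f L := fun x hx => by
    obtain ⟨n, -, hn, rfl⟩ := mem_sg.1 hx
    exact hoff n (by omega)
  have heP := Ear.of_isP (a := a) (b := b) hP hPoff h1 hmb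
  rw [length_sg, Nat.sub_zero] at heP
  by_cases hm : m + 1 ≤ 2
  · exact Z.no_short hQc hC hk h8 hg ha hb hab he hm ha hb hab heP
  have hg' : m + 1 = 3 ∨ m + 1 = 4 := by omega
  set A := univ.filter fun y => G.Adj b y ∧ y ∉ img f L with hA
  have h3 : 3 ≤ A.card := Z.three_out hQc hC hk h8 hdeg hg' hb ha hab.symm heP.symm
    fun y hy hy' => by simp [hA, hy, hy']
  obtain ⟨qa, qb, -⟩ := Z.conflict hQc hC hk h8 hg' ha hb hab heP
  obtain ⟨z1, hz1, z2, hz2, hz⟩ := one_lt_card.1 (show 1 < (A.erase (o m)).card by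
    have := card_le_card (show A ⊆ insert (o m) (A.erase (o m)) from fun x hx => by
      by_cases e : x = o m <;> simp [e, hx])
    have := card_insert_le (o m) (A.erase (o m))
    omega)
  simp only [hA, mem_erase, mem_filter, mem_univ, true_and] at hz1 hz2
  have hnot : ∀ z, z ≠ o m → G.Adj b z → z ∉ sg o 0 m := fun z zne zb zm => by
    obtain ⟨n, -, hn, rfl⟩ := mem_sg.1 zm
    exact hmin n (lt_of_le_of_ne hn fun e => zne (e ▸ rfl)) zb.symm
  have p5 := (hP.concat (hcl _ _ hmb.symm (hoff m hmg) hz1.2.1 hz1.2.2 hz1.1.symm)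
    (hnot _ hz1.1 hz1.2.1)).concat (hcl _ _ hz1.2.1 hz1.2.2 hz2.2.1 hz2.2.2 hz) fun hm' => by
      rcases List.mem_append.1 hm' with hm' | hm'
      · exact hnot _ hz2.1 hz2.2.1 hm'
      · exact hz (List.mem_singleton.1 hm').symm
  have he5 := Ear.of_isP (a := a) (b := b) p5 (fun x hx => by
    simp only [List.mem_append, List.mem_singleton] at hx
    rcases hx with (hx | rfl) | rfl
    · exact hPoff x hx
    · exact hz1.2.2
    · exact hz2.2.2) h1 hz2.2.1.symm
  simp only [List.length_append, List.length_singleton, length_sg, Nat.sub_zero] at he5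
  exact Z.no_ext hQc hC hk h8 hg' ha hb hab heP ha hb hab qa qb he5

variable (hclique : ∀ S : Finset V, (∀ x ∈ S, ∀ y ∈ S, x ≠ y → G.Adj x y) → S.card ≤ Q.card)
include hclique

/-- A vertex off the cycle has two nonadjacent neighbours off the cycle. -/
theorem ZMax.out_pair {a b : V} {g : ℕ} (hg : g = 3 ∨ g = 4) (ha : Pred f Q a) (hb : Pred f Q b)
    (hab : a ≠ b) (he : Ear G (img f L) a b g) {o : V} (ho : o ∉ img f L) :
    ∃ x y, x ≠ y ∧ ¬G.Adj x y ∧ G.Adj o x ∧ G.Adj o y ∧ x ∉ img f L ∧ y ∉ img f L := by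
  classical
  obtain ⟨qa, qb, hLk, hgn, hn1, hn3, htn, hruns⟩ := Z.numbers hQc hC hk h8 hg ha hb hab he
  have hL := Z.cyc.pos
  set N := (range L).filter fun i => G.Adj o (f i) with hN
  set A := (range L).filter fun i => f (i + 1) ∈ Q with hA
  set B := (range L).filter fun i => f (i + (L - 1)) ∈ Q with hB
  have ear1 : ∀ {u v : V}, G.Adj o u → G.Adj o v → Ear G (img f L) u v 1 := fun hu hv =>
    Ear.of_isP (isP_singleton o) (by simpa using ho) hu.symm hv
  have hNA : (N ∩ A).card ≤ 1 := card_le_one.2 fun i hi j hj => by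
    simp only [hN, hA, mem_inter, mem_filter, mem_range] at hi hj
    by_contra hne
    exact Z.no_short hQc hC hk h8 hg ha hb hab he (g' := 1) (by omega) ⟨i, rfl, hi.2.2⟩ ⟨j, rfl, hj.2.2⟩
      (fun e => hne (Z.cyc.inj i j hi.1.1 hj.1.1 e)) (ear1 hi.1.2 hj.1.2)
  have predRev : ∀ i, i < L → f (i + (L - 1)) ∈ Q → Pred (revF f L) Q (f i) := fun i hi hiQ =>
    ⟨L - i, revF_eq Z.cyc (by rw [Nat.sub_add_cancel (by omega), Nat.mod_self]), by
      rw [revF_eq Z.cyc (show (L - i + 1 + (i + (L - 1))) % L = 0 by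
        rw [show L - i + 1 + (i + (L - 1)) = L + L by omega]; simp)]
      exact hiQ⟩
  have hNB : (N ∩ B).card ≤ 1 := card_le_one.2 fun i hi j hj => by
    simp only [hN, hB, mem_inter, mem_filter, mem_range] at hi hj
    by_contra hne
    have := (Z.close hQc hC Z.cyc.rev ((img_rev Z.cyc).symm ▸ Z.sub) (S := img f L)
      (img_rev Z.cyc).subset (predRev i hi.1.1 hi.2.2) (predRev j hj.1.1 hj.2.2)
      (fun e => hne (Z.cyc.inj i j hi.1.1 hj.1.1 e)) (ear1 hi.1.2 hj.1.2)).1
    omega
  have hAB : (A ∩ B).card + 2 ≤ Q.card := by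
    obtain ⟨p, hp⟩ := card_pos.1 (show 0 < nr f L Q by omega)
    simp only [mem_filter, mem_range] at hp
    obtain ⟨s, hr, hs⟩ := exists_run Z.cyc Z.sub qa hp.2.1 hp.2.2
    have hroom := run_room Z.cyc Z.sub hs hr.2.2.1
    set E := (range L).filter fun i => f (i + 0) ∈ Q
    have hEc : E.card = Q.card := Z.cyc.card_shift_eq Z.sub 0
    have hmem : ∀ n, f n ∈ Q → n % L ∈ E := fun n hn => mem_filter.2
      ⟨mem_range.2 (Nat.mod_lt _ (by omega)), by rwa [Z.cyc.mod_succ]⟩
    have hsub : A ∩ B ⊆ (E.erase (p % L)).erase ((p + s + 1) % L) := by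
      intro i hi
      simp only [hA, hB, mem_inter, mem_filter, mem_range] at hi
      have hiQ : f (i + 0) ∈ Q := by
        by_contra hh
        have e1 : f (i + (L - 1) + 1) = f i := by rw [Nat.add_assoc, Nat.sub_add_cancel (by omega), Z.cyc.per]
        have := hruns (i + (L - 1)) 1 ⟨le_rfl, hi.2.2, fun e h1 h2 => by
          obtain rfl : e = 1 := by omega
          rw [e1]; simpa using hh, by
          rw [Z.cyc.add_eq e1]; exact hi.1.2⟩
        omega
      refine mem_erase.2 ⟨fun e => ?_, mem_erase.2 ⟨fun e => ?_, mem_filter.2 ⟨mem_range.2 hi.1.1, hiQ⟩⟩⟩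
      · have hi2 := hi.2.2
        rw [e, Z.cyc.mod_succ, show p + s + 1 + (L - 1) = p + s + L by omega, Z.cyc.per] at hi2
        exact hr.2.2.1 s hr.1 le_rfl hi2
      · have hi1 := hi.1.2
        rw [e, Z.cyc.mod_succ] at hi1
        exact hr.2.2.1 1 le_rfl hr.1 hi1
    have := card_le_card hsub
    rw [card_erase_of_mem (mem_erase.2 ⟨fun e => ?_, hmem _ hr.2.2.2⟩),
      card_erase_of_mem (hmem _ hr.2.1)] at this
    · omega
    · have := inj_window Z.cyc.per Z.cyc.inj (show f (p + s + 1) = f p by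
        rw [← per_mod Z.cyc.per (p + s + 1), e, per_mod Z.cyc.per]) (by omega) (by omega)
      omega
  have hNc : N.card + Q.card ≤ k := by
    have hAc : A.card = Q.card := Z.cyc.card_shift_eq Z.sub 1
    have hBc : B.card = Q.card := Z.cyc.card_shift_eq Z.sub (L - 1)
    have h1 := card_le_card (show N ⊆ (N ∩ A ∪ N ∩ B) ∪ (range L \ (A ∪ B)) from fun i hi => by
      have hr : i ∈ range L := (mem_filter.1 hi).1
      simp only [mem_union, mem_inter, mem_sdiff]
      tauto)
    have h2 := card_union_le (N ∩ A ∪ N ∩ B) (range L \ (A ∪ B))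
    have h3 := card_union_le (N ∩ A) (N ∩ B)
    have h4 := card_sdiff_add_card_eq_card (s := A ∪ B) (t := range L)
      (union_subset (filter_subset _ _) (filter_subset _ _))
    rw [card_range] at h4
    have h5 := card_union_add_card_inter A B
    omega
  set O := univ.filter fun y => G.Adj o y ∧ y ∉ img f L with hO
  have hOc : Q.card ≤ O.card := by
    have h1 := (hdeg o).trans (card_le_card (t := N.image f ∪ O) fun y hy => by
      simp only [mem_filter, mem_univ, true_and] at hy
      by_cases hy' : y ∈ img f L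
      · obtain ⟨n, hn, rfl⟩ := mem_image.1 hy'
        exact mem_union_left _ (mem_image.2 ⟨n, mem_filter.2 ⟨hn, hy⟩, rfl⟩)
      · exact mem_union_right _ (by simp [hO, hy, hy']))
    have h2 := card_union_le (N.image f) O
    have := card_image_le (s := N) (f := f)
    omega
  by_contra hh
  have := hclique (insert o O) fun x hx y hy hne => by
    simp only [hO, mem_insert, mem_filter, mem_univ, true_and] at hx hy
    rcases hx with rfl | hx <;> rcases hy with rfl | hy
    · exact absurd rfl hne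
    · exact hy.1
    · exact hx.1.symm
    · by_contra hxy
      exact hh ⟨x, y, hne, hxy, hx.1, hy.1, hx.2, hy.2⟩
  rw [card_insert_of_notMem (by simp [hO])] at this
  omega

/-- A path of three or four outside vertices never joins two predecessors of the clique. -/
theorem ZMax.false_of_conflict (hal : al G univ ≤ k) {a b : V} {g : ℕ} (hg : g = 3 ∨ g = 4)
    (ha : Pred f Q a) (hb : Pred f Q b) (hab : a ≠ b) (he : Ear G (img f L) a b g) : False := by
  classical
  obtain ⟨qa, qb, hLk, hgn, hn1, hn3, htn, hruns⟩ := Z.numbers hQc hC hk h8 hg ha hb hab he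
  set A := (range L).filter fun i => f (i + 1) ∈ Q with hA
  let Cl : V → Prop := fun v =>
    ∀ x y, G.Adj v x → x ∉ img f L → G.Adj v y → y ∉ img f L → x ≠ y → G.Adj x y
  -- `x` stands next to a non-clique end in `Q`, or two steps away from the other ends
  let Near : ℕ → V → Prop := fun i x => x ∉ img f L ∧
    (G.Adj (f i) x ∧ f i ∈ Q ∧ ¬Cl (f i) ∨
      ∃ o, o ∉ img f L ∧ G.Adj (f i) o ∧ G.Adj o x ∧ (f i ∈ Q → Cl (f i)))
  have hpair : ∀ i ∈ A, ∃ J : Finset V, J.card = 2 ∧ Indep G J ∧ ∀ x ∈ J, Near i x := by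
    intro i hi
    have mk : ∀ x y, x ≠ y → ¬G.Adj x y → Near i x → Near i y →
        ∃ J : Finset V, J.card = 2 ∧ Indep G J ∧ ∀ x ∈ J, Near i x := by
      intro x y hne hxy hx hy
      refine ⟨{x, y}, card_pair hne, fun u hu v hv => ?_, fun u hu => ?_⟩
      · simp only [mem_insert, mem_singleton] at hu hv
        rcases hu with rfl | rfl <;> rcases hv with rfl | rfl
        exacts [G.irrefl, hxy, fun e => hxy e.symm, G.irrefl]
      · simp only [mem_insert, mem_singleton] at hu
        rcases hu with rfl | rfl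
        exacts [hx, hy]
    by_cases h1 : f i ∈ Q ∧ ¬Cl (f i)
    · obtain ⟨hq, hn⟩ := h1
      have hn' := hn
      simp only [Cl, not_forall] at hn
      obtain ⟨x, y, x1, x2, y1, y2, hne, hxy⟩ := hn
      exact mk x y hne hxy ⟨x2, Or.inl ⟨x1, hq, hn'⟩⟩ ⟨y2, Or.inl ⟨y1, hq, hn'⟩⟩
    · obtain ⟨o, ho1, ho2⟩ : ∃ o, G.Adj (f i) o ∧ o ∉ img f L := by
        by_contra hh
        have hh' : ∀ y, G.Adj (f i) y → y ∈ (img f L).erase (f i) := fun y hy =>
          mem_erase.2 ⟨hy.ne.symm, not_not.1 fun e => hh ⟨y, hy, e⟩⟩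
        have := (hdeg (f i)).trans (card_le_card fun y hy => hh' y (by simpa using hy))
        rw [card_erase_of_mem (mem_img Z.cyc i), card_img Z.cyc] at this
        omega
      obtain ⟨x, y, hne, hxy, x1, y1, x2, y2⟩ :=
        Z.out_pair hQc hC hk h8 hdeg hclique hg ha hb hab he ho2
      have hcl : f i ∈ Q → Cl (f i) := fun hq => not_not.1 fun e => h1 ⟨hq, e⟩
      exact mk x y hne hxy ⟨x2, Or.inr ⟨o, ho2, ho1, x1, hcl⟩⟩ ⟨y2, Or.inr ⟨o, ho2, ho1, y1, hcl⟩⟩
  have hsep : ∀ i ∈ A, ∀ j ∈ A, i ≠ j → ∀ x y, Near i x → Near j y → x ≠ y ∧ ¬G.Adj x y := by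
    intro i hi j hj hne x y hx hy
    simp only [hA, mem_filter, mem_range] at hi hj
    have hpi : Pred f Q (f i) := ⟨i, rfl, hi.2⟩
    have hpj : Pred f Q (f j) := ⟨j, rfl, hj.2⟩
    have hfne : f i ≠ f j := fun e => hne (Z.cyc.inj i j hi.1 hj.1 e)
    have short : ∀ {l : List V} {u v : V}, IsP G l u v → (∀ z ∈ l, z ∉ img f L) → G.Adj (f i) u →
        G.Adj v (f j) → l.length ≤ 2 → False := fun hl hoff h1 h2 hlen =>
      Z.no_short hQc hC hk h8 hg ha hb hab he hlen hpi hpj hfne (Ear.of_isP hl hoff h1 h2)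
    -- a longer path ends at a clique end on one side
    have longL : ∀ {l : List V} {u v : V}, IsP G l u v → (∀ z ∈ l, z ∉ img f L) → G.Adj (f i) u →
        G.Adj v (f j) → l.length = 3 ∨ l.length = 4 → (f i ∈ Q → Cl (f i)) → False :=
      fun hl hoff h1 h2 hlen hcl => by
        have e := Ear.of_isP hl hoff h1 h2
        exact Z.no_clique_end hQc hC hk h8 hdeg hlen hpj hpi hfne.symm e.symm
          (hcl (Z.conflict hQc hC hk h8 hlen hpi hpj hfne e).1)
    have longR : ∀ {l : List V} {u v : V}, IsP G l u v → (∀ z ∈ l, z ∉ img f L) → G.Adj (f i) u →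
        G.Adj v (f j) → l.length = 3 ∨ l.length = 4 → (f j ∈ Q → Cl (f j)) → False :=
      fun hl hoff h1 h2 hlen hcl => by
        have e := Ear.of_isP hl hoff h1 h2
        exact Z.no_clique_end hQc hC hk h8 hdeg hlen hpi hpj hfne e
          (hcl (Z.conflict hQc hC hk h8 hlen hpi hpj hfne e).2.1)
    obtain ⟨hxo, hx⟩ := hx
    obtain ⟨hyo, hy⟩ := hy
    have P1 : ∀ u : V, IsP G [u] u u := isP_singleton
    have P2 : ∀ {u v : V}, G.Adj u v → IsP G [u, v] u v := fun {u v} h =>
      (P1 v).cons h (by simpa using h.ne)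
    rcases hx with ⟨x1, xq, xn⟩ | ⟨o, ho, o1, ox, ocl⟩ <;>
      rcases hy with ⟨y1, yq, yn⟩ | ⟨o', ho', o'1, o'y, o'cl⟩
    · refine ⟨fun e => ?_, fun e => ?_⟩
      · subst e; exact short (P1 x) (by simpa using hxo) x1 y1.symm (by simp)
      · exact short (P2 e) (by simp [hxo, hyo]) x1 y1.symm (by simp)
    · refine ⟨fun e => ?_, fun e => ?_⟩
      · subst e
        exact short (P2 o'y.symm) (by simp [hxo, ho']) x1 o'1.symm (by simp)
      · by_cases h : x = o'
        · subst h; exact short (P1 x) (by simpa using hxo) x1 o'1.symm (by simp)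
        · exact longR ((P2 o'y.symm).cons e (by simp [e.ne, h])) (by simp [hxo, hyo, ho']) x1 o'1.symm
            (Or.inl rfl) o'cl
    · refine ⟨fun e => ?_, fun e => ?_⟩
      · subst e
        exact short (P2 ox) (by simp [hxo, ho]) o1 y1.symm (by simp)
      · by_cases h : o = y
        · subst h; exact short (P1 o) (by simpa using ho) o1 y1.symm (by simp)
        · exact longL ((P2 e).cons ox (by simp [ox.ne, h])) (by simp [hxo, hyo, ho]) o1 y1.symm
            (Or.inl rfl) ocl
    · have hoo : o ≠ o' := fun e => by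
        subst e; exact short (P1 o) (by simpa using ho) o1 o'1.symm (by simp)
      have hoo' : ¬G.Adj o o' := fun e =>
        short (P2 e) (by simp [ho, ho']) o1 o'1.symm (by simp)
      refine ⟨fun e => ?_, fun e => ?_⟩
      · subst e
        exact longL ((P2 o'y.symm).cons ox (by simp [ox.ne, hoo]))
          (by simp [hxo, ho, ho']) o1 o'1.symm (Or.inl rfl) ocl
      · by_cases h : o = y
        · subst h; exact hoo' o'y.symm
        by_cases h' : x = o'
        · subst h'; exact hoo' ox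
        exact longL (((P2 o'y.symm).cons e (by simp [e.ne, h'])).cons ox (by simp [ox.ne, h, hoo]))
          (by simp [hxo, hyo, ho, ho']) o1 o'1.symm (Or.inr rfl) ocl
  choose! J hJc hJi hJn using hpair
  have hind : Indep G (A.biUnion J) := fun x hx y hy => by
    obtain ⟨i, hi, hx⟩ := mem_biUnion.1 hx
    obtain ⟨j, hj, hy⟩ := mem_biUnion.1 hy
    by_cases e : i = j
    · subst e; exact hJi i hi x hx y hy
    · exact (hsep i hi j hj e x y (hJn i hi x hx) (hJn j hj y hy)).2
  have hcard : (A.biUnion J).card = 2 * Q.card := by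
    rw [card_biUnion fun i hi j hj hne => disjoint_left.2 fun x hx hx' =>
      (hsep i hi j hj hne x x (hJn i hi x hx) (hJn j hj x hx')).1 rfl, sum_congr rfl hJc,
      sum_const, smul_eq_mul, show A.card = Q.card from Z.cyc.card_shift_eq Z.sub 1, Nat.mul_comm]
  have := (le_al (subset_univ _) hind).trans hal
  omega

end Main

end Vale.Agent.P048.Full
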