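import Vale.Agent.P048.Cycle.Ctx

/-!
A minimal counterexample for the range `r ≤ k`: degree, connectivity, levels.
-/

namespace Vale.Agent.P048.Full

open Finset Vale.Agent.P048.Cycle

/-- A counterexample with `r ≤ k` on which all smaller independence numbers obey the bound. -/
structure FCtx {V : Type*} [Fintype V] (G : SimpleGraph V) (k r : ℕ) : Prop where
  hk : r ≤ k
  hk3 : 3 ≤ k
  hr : 2 ≤ r
  hal : al G univ ≤ r
  hbig : k * r < Fintype.card V
  hC : ¬HasCyc G (k + 1)
  hind : ∀ U : Finset V, al G U < r → U.card ≤ k * al G U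

variable {V : Type*} [Fintype V] [DecidableEq V] {G : SimpleGraph V} {k r : ℕ}

theorem FCtx.nbhd (h : FCtx G k r) {J : Finset V} (hJ : Indep G J) (hne : J.Nonempty) :
    k * J.card + 1 ≤ (cl G J).card := by
  set W := univ \ cl G J with hW
  obtain ⟨K, k1, k2, k3⟩ := exists_al G W
  have hout : ∀ x ∈ K, x ∉ J ∧ ∀ s ∈ J, ¬G.Adj s x := by
    intro x hx
    have h1 := k1 hx
    rw [hW, mem_sdiff, mem_cl, not_or, not_exists] at h1
    exact ⟨h1.2.1, fun s hs hsx => h1.2.2 s ⟨hs, hsx⟩⟩
  have hd : Disjoint J K := disjoint_left.mpr fun x hx hx' => (hout x hx').1 hx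
  have hJK := le_al (G := G) (subset_univ (J ∪ K)) (by
    intro a ha b hb
    rw [mem_union] at ha hb
    rcases ha with ha | ha <;> rcases hb with hb | hb
    · exact hJ a ha b hb
    · exact (hout b hb).2 a ha
    · exact fun h' => (hout a ha).2 b hb h'.symm
    · exact k2 a ha b hb)
  rw [card_union_of_disjoint hd, k3] at hJK
  have hJpos := card_pos.mpr hne
  have := h.hal
  have h1 := h.hind W (by omega)
  have h2 : W.card = Fintype.card V - (cl G J).card := by
    rw [hW, card_sdiff_of_subset (subset_univ _), card_univ]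
  have h3 := Nat.mul_le_mul_left k (show J.card + al G W ≤ r by omega)
  have := h.hbig
  rw [Nat.mul_add] at h3
  omega

theorem FCtx.degree (h : FCtx G k r) (x : V) : k ≤ degIn G univ x := by
  classical
  have := h.nbhd (J := {x}) (by intro a ha b hb; simp at ha hb; subst ha; subst hb; exact G.irrefl)
    (singleton_nonempty x)
  have e : cl G {x} = insert x (univ.filter fun y => G.Adj x y) := by
    ext y; simp [mem_cl]
  rw [e, card_insert_of_notMem (by simp)] at this
  unfold degIn
  simp at this
  convert this using 1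

theorem FCtx.nonempty (h : FCtx G k r) : (univ : Finset V).Nonempty := by
  rw [← card_pos, card_univ]
  have := h.hbig
  omega

theorem FCtx.connected (h : FCtx G k r) : Conn G univ := by
  by_contra hc
  obtain ⟨A, B, hA, hB, hd, hAB, hn⟩ := not_conn hc
  have h1 := al_add_le hd hn
  rw [hAB] at h1
  have h2 := al_pos (G := G) hA
  have h3 := al_pos (G := G) hB
  have := h.hal
  have h4 := h.hind A (by omega)
  have h5 := h.hind B (by omega)
  have h6 := Nat.mul_le_mul_left k (show al G A + al G B ≤ r by omega)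
  have h7 : A.card + B.card = Fintype.card V := by
    rw [← card_union_of_disjoint hd, hAB, card_univ]
  have := h.hbig
  rw [Nat.mul_add] at h6
  omega

theorem FCtx.noCut (h : FCtx G k r) : NoCut G univ := by
  intro x _
  by_contra hc
  obtain ⟨A, B, hA, hB, hd, hAB, hn⟩ := not_conn hc
  have hx : ∀ y ∈ A ∪ B, y ≠ x := fun y hy => by rw [hAB] at hy; exact ne_of_mem_erase hy
  have hxA : x ∉ A := fun hh => hx x (mem_union_left _ hh) rfl
  have hxB : x ∉ B := fun hh => hx x (mem_union_right _ hh) rfl
  have h1 := al_add_le hd hn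
  have h1' : al G (A ∪ B) ≤ al G univ := al_mono (subset_univ _)
  have h2 := al_pos (G := G) hA
  have h3 := al_pos (G := G) hB
  have := h.hal
  have h4 := h.hind A (by omega)
  have h5 := h.hind B (by omega)
  have h7 : A.card + B.card + 1 = Fintype.card V := by
    rw [← card_union_of_disjoint hd, hAB, card_erase_of_mem (mem_univ x), card_univ]
    have := card_pos.mpr h.nonempty
    rw [card_univ] at this
    omega
  have := h.hbig
  have := h.hk
  have := h.hk3
  by_cases hlt : al G A + al G B < r
  · have h6 := Nat.mul_le_mul_left k (show al G A + al G B + 1 ≤ r by omega)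
    rw [Nat.mul_add, Nat.mul_add] at h6
    omega
  have h6 := Nat.mul_le_mul_left k (show al G A + al G B ≤ r by omega)
  rw [Nat.mul_add] at h6
  have hall : al G (insert x (A ∪ B)) ≤ al G A + al G B :=
    ((al_mono (subset_univ _)).trans h.hal).trans (by omega)
  rcases absorb hd hn hxA hxB hall with ha | hb
  · have e := h.hind (insert x A) (by omega)
    rw [card_insert_of_notMem hxA] at e
    have := Nat.mul_le_mul_left k ha
    omega
  · have e := h.hind (insert x B) (by omega)
    rw [card_insert_of_notMem hxB] at e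
    have := Nat.mul_le_mul_left k hb
    omega

theorem FCtx.ball_growth (h : FCtx G k r) {Q : Finset V} (hQ : Q.Nonempty) (n : ℕ) :
    min r (n + 1) ≤ al G (ball G Q n) := by
  induction n with
  | zero => exact le_trans (min_le_right _ _) (al_pos hQ)
  | succ n ih =>
    by_cases hlt : al G (ball G Q n) < r
    · obtain ⟨J, j1, j2, j3⟩ := exists_al G (ball G Q n)
      have hne : J.Nonempty := by
        rw [← card_pos]
        have := h.hr
        omega
      have h1 := h.nbhd j2 hne
      have h2 : cl G J ⊆ ball G Q (n + 1) := by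
        intro x hx
        show x ∈ cl G (ball G Q n)
        rw [mem_cl] at hx ⊢
        rcases hx with hx | ⟨s, hs, hsx⟩
        · exact Or.inl (j1 hx)
        · exact Or.inr ⟨s, j1 hs, hsx⟩
      have h3 := card_le_card h2
      by_cases hge : r ≤ al G (ball G Q (n + 1))
      · omega
      have h4 := h.hind (ball G Q (n + 1)) (by omega)
      by_contra hc
      have := Nat.mul_le_mul_left k
        (show al G (ball G Q (n + 1)) ≤ al G (ball G Q n) by omega)
      rw [j3] at h1
      omega
    · have := al_mono (G := G) (ball_mono (G := G) Q (show n ≤ n + 1 by omega))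
      omega

theorem FCtx.ball_univ (h : FCtx G k r) {Q : Finset V} (hQ : Q.Nonempty) (v : V) :
    v ∈ ball G Q r := by
  classical
  by_contra hv
  have := h.hr
  obtain ⟨J, j1, j2, j3⟩ := exists_al G (ball G Q (r - 1))
  have hg := h.ball_growth hQ (r - 1)
  have hv' : v ∉ cl G (ball G Q (r - 1)) := by
    have e : r = (r - 1) + 1 := by omega
    rw [e] at hv
    exact hv
  simp only [mem_cl, not_or, not_exists, not_and] at hv'
  have hvJ : v ∉ J := fun hh => hv'.1 (j1 hh)
  have := le_al (G := G) (subset_univ (insert v J)) (by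
    intro a ha b hb
    rw [mem_insert] at ha hb
    rcases ha with rfl | ha <;> rcases hb with rfl | hb
    · exact G.irrefl
    · exact fun h' => hv'.2 b (j1 hb) h'.symm
    · exact fun h' => hv'.2 a (j1 ha) h'
    · exact j2 a ha b hb)
  rw [card_insert_of_notMem hvJ] at this
  have := h.hal
  omega

theorem FCtx.lev_le (h : FCtx G k r) {Q : Finset V} (hQ : Q.Nonempty) (v : V) : lev G Q v ≤ r := by
  classical
  unfold lev
  rw [dif_pos ⟨r, h.ball_univ hQ v⟩]
  exact Nat.find_min' (⟨r, h.ball_univ hQ v⟩ : ∃ n, v ∈ ball G Q n) (h.ball_univ hQ v)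

theorem FCtx.mem_ball_lev (h : FCtx G k r) {Q : Finset V} (hQ : Q.Nonempty) (v : V) :
    v ∈ ball G Q (lev G Q v) := by
  classical
  unfold lev
  rw [dif_pos ⟨r, h.ball_univ hQ v⟩]
  exact Nat.find_spec (⟨r, h.ball_univ hQ v⟩ : ∃ n, v ∈ ball G Q n)

theorem FCtx.lev_zero (h : FCtx G k r) {Q : Finset V} (hQ : Q.Nonempty) (v : V) :
    lev G Q v = 0 ↔ v ∈ Q := by
  constructor
  · intro e; have := h.mem_ball_lev hQ v; rw [e] at this; exact this
  · intro hv; exact Nat.le_zero.mp (lev_le_of_mem (n := 0) hv)

theorem FCtx.lev_adj (h : FCtx G k r) {Q : Finset V} (hQ : Q.Nonempty) {u v : V} (huv : G.Adj u v) :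
    lev G Q v ≤ lev G Q u + 1 := by
  refine lev_le_of_mem ?_
  show v ∈ cl G (ball G Q (lev G Q u))
  exact mem_cl.mpr (Or.inr ⟨u, h.mem_ball_lev hQ u, huv⟩)

theorem FCtx.lev_pred (h : FCtx G k r) {Q : Finset V} (hQ : Q.Nonempty) {v : V} {i : ℕ}
    (hv : lev G Q v = i + 1) : ∃ u, lev G Q u = i ∧ G.Adj u v := by
  have h1 := h.mem_ball_lev hQ v
  rw [hv] at h1
  rcases mem_cl.mp h1 with h2 | ⟨u, hu, huv⟩
  · have := lev_le_of_mem h2; omega
  · refine ⟨u, ?_, huv⟩
    have := lev_le_of_mem hu
    have := h.lev_adj hQ huv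
    omega

theorem FCtx.noE_layer (h : FCtx G k r) {Q : Finset V} (hQ : Q.Nonempty) {i j : ℕ}
    (hij : i + 2 ≤ j ∨ j + 2 ≤ i) : NoE G (layer G Q i) (layer G Q j) := by
  intro a ha b hb hab
  simp only [layer, mem_filter, mem_univ, true_and] at ha hb
  have := h.lev_adj hQ hab
  have := h.lev_adj hQ hab.symm
  omega

theorem FCtx.sum_layers_le (h : FCtx G k r) {Q : Finset V} (hQ : Q.Nonempty) (I : Finset ℕ)
    (hI : ∀ i ∈ I, ∀ j ∈ I, i ≠ j → i + 2 ≤ j ∨ j + 2 ≤ i) :
    ∑ i ∈ I, al G (layer G Q i) ≤ al G (I.biUnion (layer G Q)) := by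
  induction I using Finset.induction with
  | empty => simp
  | insert a I ha ih =>
    rw [sum_insert ha, biUnion_insert]
    have h1 := ih fun i hi j hj => hI i (mem_insert_of_mem hi) j (mem_insert_of_mem hj)
    refine le_trans (Nat.add_le_add_left h1 _) (al_add_le ?_ ?_)
    · rw [disjoint_left]
      intro x hx hx'
      obtain ⟨i, hi, hxi⟩ := mem_biUnion.mp hx'
      simp only [layer, mem_filter, mem_univ, true_and] at hx hxi
      exact ha (hx.symm.trans hxi ▸ hi)
    · intro x hx y hy
      obtain ⟨i, hi, hyi⟩ := mem_biUnion.mp hy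
      exact h.noE_layer hQ (hI a (mem_insert_self _ _) i (mem_insert_of_mem hi)
        (fun e => ha (e ▸ hi))) x hx y hyi

end Vale.Agent.P048.Full
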