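import Vale.Agent.P048.Full.Reroute

/-!
Shortening a cycle through chords between vertices of a clique on it.
-/

namespace Vale.Agent.P048.Full

open Finset Vale.Agent.P048.Cycle

variable {V : Type*} [DecidableEq V] {G : SimpleGraph V} {f : ℕ → V} {L : ℕ}

/-- The cycle obtained by replacing the part strictly between `i` and `i+d+1` by a chord. -/
def cutf (f : ℕ → V) (L i d : ℕ) : ℕ → V := fun n => f (i + d + 1 + n % (L - d))

theorem cutf_lt {i d n : ℕ} (hn : n < L - d) : cutf f L i d n = f (i + d + 1 + n) := by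
  simp [cutf, Nat.mod_eq_of_lt hn]

theorem PCyc.cut (h : PCyc G f L) {i d : ℕ} (hd : 3 + d ≤ L) (ha : G.Adj (f i) (f (i + d + 1))) :
    PCyc G (cutf f L i d) (L - d) := by
  refine ⟨by omega, fun n => by simp [cutf], fun a b hab hb e => ?_, fun n => ?_⟩
  · rw [cutf_lt hab, cutf_lt hb] at e
    have := inj_window h.per h.inj e (by omega) (by omega)
    omega
  · have hlt := Nat.mod_lt n (show L - d > 0 by omega)
    show G.Adj (f (i + d + 1 + n % (L - d))) (f (i + d + 1 + (n + 1) % (L - d)))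
    rw [Nat.add_mod, Nat.mod_eq_of_lt (show 1 < L - d by omega)]
    rcases Nat.lt_or_ge (n % (L - d) + 1) (L - d) with hh | hh
    · rw [Nat.mod_eq_of_lt hh]; exact h.adj _
    · rw [show n % (L - d) + 1 = L - d by omega, Nat.mod_self,
        show i + d + 1 + n % (L - d) = i + L by omega, h.per]
      exact ha

/-- Sums of a periodic function over a period do not depend on the start. -/
theorem sum_shift {F : ℕ → ℕ} (hF : ∀ i, F (i + L) = F i) (c : ℕ) :
    ∑ i ∈ range L, F (i + c) = ∑ i ∈ range L, F i := by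
  induction c with
  | zero => rfl
  | succ c ih =>
    rw [← ih]
    rcases L with _ | M
    · simp
    rw [sum_range_succ, sum_range_succ' (fun i => F (i + c))]
    congr 1
    · exact sum_congr rfl fun i _ => congrArg F (by omega)
    · rw [show M + (c + 1) = 0 + c + (M + 1) by omega, hF]

/-- One when the position holds a vertex of `Q`. -/
def qi (f : ℕ → V) (Q : Finset V) (i : ℕ) : ℕ := if f i ∈ Q then 1 else 0

/-- One when the positions `i` and `i + 2` both hold vertices of `Q`. -/
def pi2 (f : ℕ → V) (Q : Finset V) (i : ℕ) : ℕ := if f i ∈ Q ∧ f (i + 2) ∈ Q then 1 else 0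

variable {Q : Finset V}

theorem qi_le (i : ℕ) : qi f Q i ≤ 1 := by unfold qi; split_ifs <;> omega

theorem pi2_ge (i : ℕ) : qi f Q i + qi f Q (i + 2) ≤ 1 + pi2 f Q i := by
  unfold qi pi2
  by_cases a : f i ∈ Q <;> by_cases b : f (i + 2) ∈ Q <;> simp [a, b]

theorem qi_excl {i e : ℕ} (hno : ¬(f i ∈ Q ∧ f (i + e) ∈ Q)) : qi f Q i + qi f Q (i + e) ≤ 1 := by
  unfold qi
  by_cases a : f i ∈ Q <;> by_cases b : f (i + e) ∈ Q <;> simp [a, b] at *

theorem sum_qi (h : PCyc G f L) (hQ : Q ⊆ img f L) (c : ℕ) :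
    Q.card ≤ ∑ i ∈ range L, qi f Q (i + c) := by
  rw [sum_shift (fun i => by simp [qi, h.per]) c]
  simp only [qi, ← card_filter]
  refine (card_le_card (t := ((range L).filter fun n => f n ∈ Q).image f) fun x hx => ?_).trans
    card_image_le
  obtain ⟨n, hn, rfl⟩ := mem_image.1 (hQ hx)
  exact mem_image.2 ⟨n, mem_filter.2 ⟨hn, hx⟩, rfl⟩

theorem pi2_per (h : PCyc G f L) (i : ℕ) : pi2 f Q (i + L) = pi2 f Q i := by
  simp only [pi2, h.per, show i + L + 2 = i + 2 + L by omega]

/-- Without chords over two vertices, a window of five positions holds at most two clique vertices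
or a chord over one vertex. -/
theorem five_le (h : PCyc G f L) (hQ : Q ⊆ img f L)
    (hno3 : ∀ i, ¬(f i ∈ Q ∧ f (i + 3) ∈ Q)) :
    5 * Q.card ≤ 2 * L + 3 * ∑ i ∈ range L, pi2 f Q i := by
  have hpt : ∀ i, qi f Q (i + 0) + qi f Q (i + 1) + qi f Q (i + 2) + qi f Q (i + 3) + qi f Q (i + 4)
      ≤ 2 + (pi2 f Q (i + 0) + pi2 f Q (i + 1) + pi2 f Q (i + 2)) := by
    intro i
    have a := pi2_ge (f := f) (Q := Q) i
    have b := pi2_ge (f := f) (Q := Q) (i + 1)
    have c := pi2_ge (f := f) (Q := Q) (i + 2)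
    have d := qi_excl (hno3 i)
    have e := qi_excl (hno3 (i + 1))
    have u0 := qi_le (f := f) (Q := Q) i
    have u1 := qi_le (f := f) (Q := Q) (i + 1)
    have u2 := qi_le (f := f) (Q := Q) (i + 2)
    have u3 := qi_le (f := f) (Q := Q) (i + 3)
    have u4 := qi_le (f := f) (Q := Q) (i + 4)
    simp only [Nat.add_zero, Nat.add_assoc, Nat.reduceAdd] at *
    omega
  have hs := sum_le_sum fun i (_ : i ∈ range L) => hpt i
  simp only [sum_add_distrib, sum_const, card_range, smul_eq_mul] at hs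
  rw [sum_shift (pi2_per h) 0, sum_shift (pi2_per h) 1, sum_shift (pi2_per h) 2] at hs
  have := sum_qi h hQ 0
  have := sum_qi h hQ 1
  have := sum_qi h hQ 2
  have := sum_qi h hQ 3
  have := sum_qi h hQ 4
  omega

section Clique

variable (hQc : ∀ x ∈ Q, ∀ y ∈ Q, x ≠ y → G.Adj x y)
include hQc

theorem qchord (h : PCyc G f L) {i e : ℕ} (he1 : 1 ≤ e) (he : e < L) (ha : f i ∈ Q)
    (hb : f (i + e) ∈ Q) : G.Adj (f i) (f (i + e)) :=
  hQc _ ha _ hb (h.ne (by omega) (by omega))

theorem cut_one {k : ℕ} (h : PCyc G f L) {i d : ℕ} (hd : 3 + d ≤ L) (hk : L - d = k + 1)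
    (ha : f i ∈ Q) (hb : f (i + (d + 1)) ∈ Q) : HasCyc G (k + 1) :=
  hk ▸ (h.cut hd (by
    have := qchord hQc h (by omega) (by omega) ha hb
    rwa [← Nat.add_assoc] at this)).hasCyc

/-- Two disjoint chords. -/
theorem cut_two {k : ℕ} (h : PCyc G f L) {i d j d' : ℕ} (hij : i + d + 1 ≤ j)
    (hji : j + d' + 1 ≤ i + L) (hd : 3 + d + d' ≤ L) (hk : L - d - d' = k + 1)
    (ha : f i ∈ Q) (hb : f (i + d + 1) ∈ Q) (hc : f j ∈ Q) (he : f (j + d' + 1) ∈ Q) :
    HasCyc G (k + 1) := by
  have hg := h.cut (d := d) (i := i) (by omega) (qchord hQc h (e := d + 1) (by omega) (by omega) ha hb)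
  refine cut_one hQc hg (i := j - (i + d + 1)) (d := d') (by omega) hk ?_ ?_
  · rw [cutf_lt (by omega), show i + d + 1 + (j - (i + d + 1)) = j by omega]; exact hc
  · rcases Nat.lt_or_ge (j - (i + d + 1) + (d' + 1)) (L - d) with hl | hl
    · rw [cutf_lt hl, show i + d + 1 + (j - (i + d + 1) + (d' + 1)) = j + d' + 1 by omega]; exact he
    · rw [show j - (i + d + 1) + (d' + 1) = 0 + (L - d) by omega, hg.per, cutf_lt (by omega),
        Nat.add_zero]
      exact hb

/-- A cycle through `Q` which is one to three vertices too long can be shortened to length `k+1`. -/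
theorem PCyc.drop_runs {k d : ℕ} (h : PCyc G f L) (hQ : Q ⊆ img f L) (hk2 : 2 ≤ k)
    (hk : k + 1 ≤ 2 * Q.card)
    (hd1 : 1 ≤ d) (hd3 : d ≤ 3) (hL : L = k + 1 + d)
    (h1 : d = 1 → ∃ i, f i ∈ Q ∧ f (i + 2) ∈ Q) (h8 : 2 ≤ d → 8 ≤ Q.card) : HasCyc G (k + 1) := by
  classical
  by_contra hC
  have hQL : Q.card ≤ L := (card_le_card hQ).trans (card_img h).le
  set P := (range L).filter fun i => f i ∈ Q ∧ f (i + 2) ∈ Q with hPdef
  have hP : ∑ i ∈ range L, pi2 f Q i = P.card := by simp only [pi2, hPdef, ← card_filter]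
  have memP : ∀ i ∈ P, i < L ∧ f i ∈ Q ∧ f (i + 2) ∈ Q := fun i hi => by
    simpa [hPdef, and_assoc] using hi
  rcases (show d = 1 ∨ d = 2 ∨ d = 3 by omega) with rfl | rfl | rfl
  · obtain ⟨i, hi, hi'⟩ := h1 rfl
    exact hC (cut_one hQc h (by omega) (by omega) hi hi')
  · have h8' := h8 le_rfl
    have hno3 : ∀ i, ¬(f i ∈ Q ∧ f (i + 3) ∈ Q) := fun i ⟨a, b⟩ =>
      hC (cut_one hQc h (d := 2) (by omega) (by omega) a b)
    have key : ∀ i j, i ∈ P → j ∈ P → ¬i < j := by
      intro i j hi hj hij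
      obtain ⟨hiL, hi1, hi2⟩ := memP i hi
      obtain ⟨hjL, hj1, hj2⟩ := memP j hj
      rcases Nat.lt_or_ge j (i + 2) with hl | hl
      · obtain rfl : j = i + 1 := by omega
        exact hno3 i ⟨hi1, by rwa [show i + 3 = i + 1 + 2 by omega]⟩
      rcases Nat.lt_or_ge (i + L) (j + 2) with hl' | hl'
      · exact hno3 j ⟨hj1, by rwa [show j + 3 = i + 2 + L by omega, h.per]⟩
      · exact hC (cut_two hQc h (i := i) (d := 1) (j := j) (d' := 1) (by omega) (by omega) (by omega)
          (by omega) hi1 hi2 hj1 hj2)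
    have hPc : P.card ≤ 1 := card_le_one.2 fun i hi j hj => by
      have := key i j hi hj; have := key j i hj hi; omega
    have := five_le h hQ hno3
    omega
  · have h8' := h8 (by omega)
    have hno4 : ∀ i, ¬(f i ∈ Q ∧ f (i + 4) ∈ Q) := fun i ⟨a, b⟩ =>
      hC (cut_one hQc h (d := 3) (by omega) (by omega) a b)
    -- adjacent pairs with a third pair outside their span
    have adj2 : ∀ i j, f i ∈ Q → f (i + 3) ∈ Q → i + 3 ≤ j → j + 2 ≤ i + L → f j ∈ Q →
        f (j + 2) ∈ Q → False := fun i j a b h1 h2 c e =>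
      hC (cut_two hQc h (i := i) (d := 2) (j := j) (d' := 1) (by omega) (by omega) (by omega)
        (by omega) a b c e)
    have key : ∀ a b c, a ∈ P → b ∈ P → c ∈ P → a < b → ¬b < c := by
      intro a b c ha hb hc hab hbc
      obtain ⟨haL, a1, a2⟩ := memP a ha
      obtain ⟨hbL, b1, b2⟩ := memP b hb
      obtain ⟨hcL, c1, c2⟩ := memP c hc
      by_cases e1 : b = a + 1
      · subst e1
        by_cases e2 : c = a + 2
        · exact hno4 a ⟨a1, by rwa [show a + 4 = c + 2 by omega]⟩
        by_cases e3 : c + 1 = a + L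
        · exact hno4 c ⟨c1, by rwa [show c + 4 = a + 1 + 2 + L by omega, h.per]⟩
        exact adj2 a c a1 (by rwa [show a + 3 = a + 1 + 2 by omega]) (by omega) (by omega) c1 c2
      by_cases e2 : c = b + 1
      · subst e2
        by_cases e3 : b + 2 = a + L
        · exact hno4 b ⟨b1, by rwa [show b + 4 = a + 2 + L by omega, h.per]⟩
        exact adj2 b (a + L) b1 (by rwa [show b + 3 = b + 1 + 2 by omega]) (by omega) (by omega)
          (by rwa [h.per]) (by rwa [show a + L + 2 = a + 2 + L by omega, h.per])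
      by_cases e3 : c + 1 = a + L
      · exact adj2 c (b + L) c1 (by rwa [show c + 3 = a + 2 + L by omega, h.per]) (by omega) (by omega)
          (by rwa [h.per]) (by rwa [show b + L + 2 = b + 2 + L by omega, h.per])
      -- three disjoint chords
      have hg := h.cut (d := 1) (i := a) (by omega) (qchord hQc h (e := 2) (by omega) (by omega) a1 a2)
      have gv : ∀ n, a + 2 ≤ n → n ≤ a + L → cutf f L a 1 (n - (a + 2)) = f n := fun n h1 h2 => by
        rw [cutf_lt (by omega), show a + 1 + 1 + (n - (a + 2)) = n by omega]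
      refine hC (cut_two hQc hg (i := b - (a + 2)) (d := 1) (j := c - (a + 2)) (d' := 1) (by omega)
        (by omega) (by omega) (by omega) ?_ ?_ ?_ ?_)
      · rw [gv b (by omega) (by omega)]; exact b1
      · rw [show b - (a + 2) + 1 + 1 = b + 2 - (a + 2) by omega, gv _ (by omega) (by omega)]; exact b2
      · rw [gv c (by omega) (by omega)]; exact c1
      · rw [show c - (a + 2) + 1 + 1 = c + 2 - (a + 2) by omega, gv _ (by omega) (by omega)]; exact c2
    have hPc : P.card ≤ 2 := by
      by_contra hh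
      obtain ⟨T, hT, hTc⟩ := exists_subset_card_eq (show 3 ≤ P.card by omega)
      obtain ⟨x, y, z, hxy, hxz, hyz, rfl⟩ := card_eq_three.1 hTc
      simp only [insert_subset_iff, singleton_subset_iff] at hT
      obtain ⟨hx, hy, hz⟩ := hT
      have := key x y z hx hy hz
      have := key x z y hx hz hy
      have := key y x z hy hx hz
      have := key y z x hy hz hx
      have := key z x y hz hx hy
      have := key z y x hz hy hx
      omega
    have hpt : ∀ i, qi f Q (i + 0) + qi f Q (i + 2) + qi f Q (i + 4) ≤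
        1 + (pi2 f Q (i + 0) + pi2 f Q (i + 2)) := fun i => by
      have a := pi2_ge (f := f) (Q := Q) i
      have b := pi2_ge (f := f) (Q := Q) (i + 2)
      have c := qi_excl (hno4 i)
      have u2 := qi_le (f := f) (Q := Q) (i + 2)
      simp only [Nat.add_zero, Nat.add_assoc, Nat.reduceAdd] at *
      omega
    have hs := sum_le_sum fun i (_ : i ∈ range L) => hpt i
    simp only [sum_add_distrib, sum_const, card_range, smul_eq_mul] at hs
    rw [sum_shift (pi2_per h) 0, sum_shift (pi2_per h) 2] at hs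
    have := sum_qi h hQ 0
    have := sum_qi h hQ 2
    have := sum_qi h hQ 4
    omega

/-- Two vertices outside `Q` can be dropped when no single one can. -/
theorem PCyc.drop_two (h : PCyc G f L) (hQ : Q ⊆ img f L) (hno : ∀ i, ¬(f i ∈ Q ∧ f (i + 2) ∈ Q))
    (h5 : 2 * L < 5 * Q.card) (hL : 5 ≤ L) :
    ∃ g, PCyc G g (L - 2) ∧ Q ⊆ img g (L - 2) := by
  obtain ⟨i, hi, hi'⟩ : ∃ i, f i ∈ Q ∧ f (i + 3) ∈ Q := by
    by_contra hh
    simp only [not_exists] at hh
    have hz : ∑ i ∈ range L, pi2 f Q i = 0 := sum_eq_zero fun i _ => if_neg (hno i)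
    have := five_le h hQ hh
    omega
  have hg := h.cut (d := 2) (i := i) (by omega) (qchord hQc h (e := 3) (by omega) (by omega) hi hi')
  refine ⟨_, hg, fun x hx => ?_⟩
  obtain ⟨n, hn, hnx⟩ := mem_image.1 (show x ∈ img (fun n => f (i + 3 + n)) L by
    rw [img_shift h]; exact hQ hx)
  rw [mem_range] at hn
  refine mem_image.2 ⟨n, mem_range.2 ?_, ?_⟩
  · by_contra hh
    rcases (show n = L - 2 ∨ n = L - 1 by omega) with rfl | rfl
    · refine hno (i + 1) ⟨?_, by rwa [show i + 1 + 2 = i + 3 by omega]⟩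
      rwa [← hnx, show i + 3 + (L - 2) = i + 1 + L by omega, h.per] at hx
    · refine hno i ⟨hi, ?_⟩
      rwa [← hnx, show i + 3 + (L - 1) = i + 2 + L by omega, h.per] at hx
  · rw [cutf_lt]
    · exact hnx
    · by_contra hh
      rcases (show n = L - 2 ∨ n = L - 1 by omega) with rfl | rfl
      · refine hno (i + 1) ⟨?_, by rwa [show i + 1 + 2 = i + 3 by omega]⟩
        rwa [← hnx, show i + 3 + (L - 2) = i + 1 + L by omega, h.per] at hx
      · refine hno i ⟨hi, ?_⟩
        rwa [← hnx, show i + 3 + (L - 1) = i + 2 + L by omega, h.per] at hx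

end Clique

end Vale.Agent.P048.Full
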