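import Vale.Agent.P048.Full.Ctx

/-!
The cut inequality and the resulting growth of the independence number of balls.
-/

namespace Vale.Agent.P048.Full

open Finset Vale.Agent.P048.Cycle

variable {V : Type*} [Fintype V] [DecidableEq V] {G : SimpleGraph V} {k r : ℕ}

/-- Balls grow until the independence number is `r`. -/
theorem FCtx.ball_succ (h : FCtx G k r) {Q : Finset V} (hQ : Q.Nonempty) (n : ℕ) :
    min r (al G (ball G Q n) + 1) ≤ al G (ball G Q (n + 1)) := by
  by_cases hlt : al G (ball G Q n) < r
  · obtain ⟨J, j1, j2, j3⟩ := exists_al G (ball G Q n)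
    have hne : J.Nonempty := by
      rw [← card_pos]
      have := al_pos (G := G) (hQ.mono (ball_mono (G := G) Q (Nat.zero_le n)))
      omega
    have h1 := h.nbhd j2 hne
    have h2 : cl G J ⊆ ball G Q (n + 1) := by
      intro x hx
      show x ∈ cl G (ball G Q n)
      rw [mem_cl] at hx ⊢
      rcases hx with hx | ⟨s, hs, hsx⟩
      · exact Or.inl (j1 hx)
      · exact Or.inr ⟨s, j1 hs, hsx⟩
    have h3 := card_le_card h2
    by_cases hge : r ≤ al G (ball G Q (n + 1))
    · omega
    have h4 := h.hind (ball G Q (n + 1)) (by omega)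
    by_contra hc
    have := Nat.mul_le_mul_left k
      (show al G (ball G Q (n + 1)) ≤ al G (ball G Q n) by omega)
    rw [j3] at h1
    omega
  · have := al_mono (G := G) (ball_mono (G := G) Q (show n ≤ n + 1 by omega))
    omega

theorem cl_mono {S T : Finset V} (h : S ⊆ T) : cl G S ⊆ cl G T := by
  intro x hx
  rw [mem_cl] at hx ⊢
  rcases hx with hx | ⟨s, hs, hsx⟩
  · exact Or.inl (h hx)
  · exact Or.inr ⟨s, h hs, hsx⟩

theorem ball_comp {Q R : Finset V} {a : ℕ} (h : Q ⊆ ball G R a) :
    ∀ n, ball G Q n ⊆ ball G R (a + n)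
  | 0 => h
  | n + 1 => cl_mono (ball_comp h n)

/-- The levels at least `D` and the ball of radius `D-2` have no edge between them. -/
theorem FCtx.al_cut (h : FCtx G k r) {Q : Finset V} (hQ : Q.Nonempty) {D : ℕ} (hD : 2 ≤ D) :
    al G (univ.filter fun x => D ≤ lev G Q x) + al G (ball G Q (D - 2)) ≤ r := by
  refine le_trans (al_add_le ?_ ?_) ((al_mono (subset_univ _)).trans h.hal)
  · rw [disjoint_left]
    intro x hx hx'
    simp only [mem_filter, mem_univ, true_and] at hx
    have := lev_le_of_mem hx'
    omega
  · intro x hx y hy hxy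
    simp only [mem_filter, mem_univ, true_and] at hx
    have := lev_le_of_mem hy
    have := h.lev_adj hQ hxy.symm
    omega

/-- Layer independence numbers below `D` against the two last balls. -/
theorem FCtx.sum_le_balls (h : FCtx G k r) {Q : Finset V} (hQ : Q.Nonempty) {D : ℕ} (hD : 2 ≤ D) :
    al G Q + ∑ i ∈ Ico 1 D, al G (layer G Q i) ≤
      al G (ball G Q (D - 1)) + al G (ball G Q (D - 2)) := by
  classical
  have h0 : layer G Q 0 = Q := by
    ext x; simp [layer, h.lev_zero hQ]
  have hins : range D = insert 0 (Ico 1 D) := by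
    ext i; simp only [mem_range, mem_insert, mem_Ico]; omega
  have hsum : al G Q + ∑ i ∈ Ico 1 D, al G (layer G Q i) =
      ∑ i ∈ range D, al G (layer G Q i) := by
    rw [hins, sum_insert (by simp), h0]
  rw [hsum, ← sum_filter_add_sum_filter_not (range D) (fun i => i % 2 = (D - 1) % 2)]
  refine Nat.add_le_add ?_ ?_
  · refine le_trans (h.sum_layers_le hQ _ fun i hi j hj hne => ?_) (al_mono fun x hx => ?_)
    · simp only [mem_filter] at hi hj; omega
    · obtain ⟨i, hi, hxi⟩ := mem_biUnion.mp hx
      simp only [mem_filter, mem_range] at hi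
      simp only [layer, mem_filter, mem_univ, true_and] at hxi
      exact ball_mono Q (show lev G Q x ≤ D - 1 by omega) (h.mem_ball_lev hQ x)
  · refine le_trans (h.sum_layers_le hQ _ fun i hi j hj hne => ?_) (al_mono fun x hx => ?_)
    · simp only [mem_filter] at hi hj; omega
    · obtain ⟨i, hi, hxi⟩ := mem_biUnion.mp hx
      simp only [mem_filter, mem_range] at hi
      simp only [layer, mem_filter, mem_univ, true_and] at hxi
      exact ball_mono Q (show lev G Q x ≤ D - 2 by omega) (h.mem_ball_lev hQ x)

/-- The cut at level `D` around a single vertex. -/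
theorem FCtx.cut (h : FCtx G k r) (v : V) {K D X s : ℕ} (hD : 2 ≤ D)
    (hsum : 2 * ∑ i ∈ Ico 1 D, (layer G {v} i).card + s ≤
      K * ∑ i ∈ Ico 1 D, al G (layer G {v} i) + X) :
    s + K + 2 * (k * al G (ball G {v} (D - 2))) ≤
      X + K * (al G (ball G {v} (D - 1)) + al G (ball G {v} (D - 2))) := by
  classical
  have hQ : ({v} : Finset V).Nonempty := singleton_nonempty v
  have h0 : layer G {v} 0 = {v} := by
    ext x; simp [layer, h.lev_zero hQ]
  set low := univ.filter fun x => lev G {v} x < D with hlow
  set U := univ.filter fun x => D ≤ lev G {v} x with hU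
  have hN : Fintype.card V = low.card + U.card := by
    rw [← card_univ, ← card_filter_add_card_filter_not (s := univ) fun x => lev G {v} x < D]
    congr 2
    exact filter_congr fun x _ => by omega
  have hlc : low.card = 1 + ∑ i ∈ Ico 1 D, (layer G {v} i).card := by
    have hins : range D = insert 0 (Ico 1 D) := by
      ext i; simp only [mem_range, mem_insert, mem_Ico]; omega
    rw [card_eq_sum_card_fiberwise (f := lev G {v}) (t := range D)
      (fun x hx => by simpa [hlow] using hx), hins, sum_insert (by simp)]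
    have e : ∀ i, i < D → (low.filter fun x => lev G {v} x = i) = layer G {v} i := by
      intro i hi; ext x
      simp only [hlow, layer, mem_filter, mem_univ, true_and]
      exact ⟨fun hh => hh.2, fun hh => ⟨by omega, hh⟩⟩
    rw [e 0 (by omega), h0, card_singleton]
    exact congrArg _ (sum_congr rfl fun i hi => by rw [e i (by simp at hi; omega)])
  have hcut := h.al_cut hQ hD
  rw [← hU] at hcut
  have hb := al_pos (G := G) (hQ.mono (ball_mono (G := G) {v} (Nat.zero_le (D - 2))))
  have hUc := h.hind U (by omega)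
  have h1 := Nat.mul_le_mul_left k hcut
  have hone : al G ({v} : Finset V) = 1 :=
    le_antisymm (le_trans al_le_card (by simp)) (al_pos hQ)
  have h2 := Nat.mul_le_mul_left K (h.sum_le_balls hQ hD)
  rw [hone] at h2
  have := h.hbig
  simp only [Nat.mul_add, Nat.mul_one] at h1 h2 ⊢
  omega

/-- No big clique, `k` even: every cut gives growth by two. -/
theorem FCtx.step_even (h : FCtx G k r) (v : V) {D : ℕ} (hD : 2 ≤ D)
    (hlay : ∀ i, 1 ≤ i → i < D → 2 * (layer G {v} i).card ≤ k * al G (layer G {v} i))
    (h1 : 2 * (layer G {v} 1).card + 1 ≤ k * al G (layer G {v} 1)) :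
    al G (ball G {v} (D - 2)) + 2 ≤ al G (ball G {v} (D - 1)) := by
  have hsum : 2 * ∑ i ∈ Ico 1 D, (layer G {v} i).card + 1 ≤
      k * ∑ i ∈ Ico 1 D, al G (layer G {v} i) + 0 := by
    rw [← add_sum_Ioo_eq_sum_Ico (by omega : 1 < D) (f := fun i => (layer G {v} i).card),
      ← add_sum_Ioo_eq_sum_Ico (by omega : 1 < D) (f := fun i => al G (layer G {v} i)),
      Nat.mul_add, Nat.mul_add, mul_sum, mul_sum]
    have := sum_le_sum (s := Ioo 1 D) fun i hi => hlay i (by simp at hi; omega) (by simp at hi; omega)
    omega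
  have hc := h.cut v hD hsum
  have := h.hk3
  by_contra hlt
  have := Nat.mul_le_mul_left k
    (show al G (ball G {v} (D - 1)) ≤ al G (ball G {v} (D - 2)) + 1 by omega)
  rw [Nat.mul_add] at hc this
  omega

theorem sum_layer_bound (v : V) {K D X : ℕ} (hD : 2 ≤ D)
    (h1 : 2 * (layer G {v} 1).card ≤ K * al G (layer G {v} 1) + X)
    (hlay : ∀ i, 2 ≤ i → i < D → 2 * (layer G {v} i).card ≤ K * al G (layer G {v} i)) :
    2 * ∑ i ∈ Ico 1 D, (layer G {v} i).card + 0 ≤
      K * ∑ i ∈ Ico 1 D, al G (layer G {v} i) + X := by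
  rw [← add_sum_Ioo_eq_sum_Ico (by omega : 1 < D) (f := fun i => (layer G {v} i).card),
    ← add_sum_Ioo_eq_sum_Ico (by omega : 1 < D) (f := fun i => al G (layer G {v} i)),
    Nat.mul_add, Nat.mul_add, mul_sum, mul_sum]
  have := sum_le_sum (s := Ioo 1 D) fun i hi => hlay i (by simp at hi; omega) (by simp at hi; omega)
  omega

/-- No big clique: balls around any vertex end above `r`. -/
theorem FCtx.no_big_false (h : FCtx G k r) (v : V)
    (hk12 : 12 ≤ k)
    (hlay : ∀ K i, k ≤ K + 1 → K ≤ k → (k % 2 = 1 ∨ K = k) → 1 ≤ i → 2 * i ≤ k →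
      2 * (layer G {v} i).card ≤ K * al G (layer G {v} i))
    (hstrict : k % 2 = 0 → 2 * (layer G {v} 1).card + 1 ≤ k * al G (layer G {v} 1)) : False := by
  have hk := h.hk
  have hQ : ({v} : Finset V).Nonempty := singleton_nonempty v
  have hb0 : 1 ≤ al G (ball G {v} 0) := al_pos hQ
  have hbr : ∀ n, al G (ball G {v} n) ≤ r := fun n => (al_mono (subset_univ _)).trans h.hal
  rcases Nat.mod_two_eq_zero_or_one k with he | ho
  · have key : ∀ j, 2 * j ≤ k → 2 * j + 1 ≤ al G (ball G {v} j) := by
      intro j
      induction j with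
      | zero => simpa using hb0
      | succ j ih =>
        intro hj
        have := ih (by omega)
        have := h.step_even v (D := j + 2) (by omega)
          (fun i hi hiD => hlay k i (by omega) le_rfl (Or.inr rfl) hi (by omega)) (hstrict he)
        simp only [show j + 2 - 2 = j by omega, show j + 2 - 1 = j + 1 by omega] at this
        omega
    have := key (k / 2) (by omega)
    have := hbr (k / 2)
    omega
  · have step : ∀ j, 2 * (j + 1) ≤ k →
        al G (ball G {v} j) + 2 ≤ al G (ball G {v} (j + 1)) ∧
          (k ≤ 2 * al G (ball G {v} j) → al G (ball G {v} j) + 3 ≤ al G (ball G {v} (j + 1))) := by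
      intro j hj
      have hsum := sum_layer_bound (G := G) v (K := k - 1) (X := 0) (D := j + 2) (by omega)
        (by simpa using hlay (k - 1) 1 (by omega) (by omega) (Or.inl ho) le_rfl (by omega))
        (fun i hi hiD => hlay (k - 1) i (by omega) (by omega) (Or.inl ho) (by omega) (by omega))
      have hc := h.cut v (by omega) hsum
      simp only [show j + 2 - 2 = j by omega, show j + 2 - 1 = j + 1 by omega] at hc
      obtain ⟨K, rfl⟩ : ∃ K, k = K + 1 := ⟨k - 1, by omega⟩
      simp only [Nat.add_sub_cancel, Nat.add_mul, Nat.one_mul, Nat.mul_add] at hc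
      constructor
      · by_contra hlt
        have := Nat.mul_le_mul_left K
          (show al G (ball G {v} (j + 1)) ≤ al G (ball G {v} j) + 1 by omega)
        have : 1 ≤ al G (ball G {v} j) :=
          al_pos (hQ.mono (ball_mono (G := G) {v} (Nat.zero_le j)))
        rw [Nat.mul_add] at *
        omega
      · intro h2
        by_contra hlt
        have := Nat.mul_le_mul_left K
          (show al G (ball G {v} (j + 1)) ≤ al G (ball G {v} j) + 2 by omega)
        rw [Nat.mul_add] at *
        omega
    have key : ∀ j, 2 * j ≤ k → 2 * j + 1 ≤ al G (ball G {v} j) := by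
      intro j
      induction j with
      | zero => simpa using hb0
      | succ j ih =>
        intro hj
        have := ih (by omega)
        have := (step j hj).1
        omega
    have h1 := key (k / 2 - 1) (by omega)
    have h2 := (step (k / 2 - 1) (by omega)).2 (by omega)
    have := hbr (k / 2 - 1 + 1)
    omega

/-- One big clique, disjoint from every other clique of half size: balls end above `r`. -/
theorem FCtx.big_false (h : FCtx G k r) (v : V) {t : ℕ} (hk20 : 19 ≤ k) (hk2 : k ≤ 2 * r)
    (htk : t ≤ k) (ht : k + 1 ≤ 2 * t) (h3 : t ≤ al G (ball G {v} 3) + 1)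
    (h1 : 2 * (layer G {v} 1).card ≤ (k - 1) * al G (layer G {v} 1) + (2 * t - 2))
    (hlay : ∀ i, 2 ≤ i → 2 * i ≤ k →
      2 * (layer G {v} i).card ≤ (k - 1) * al G (layer G {v} i)) : False := by
  have hk := h.hk
  have hQ : ({v} : Finset V).Nonempty := singleton_nonempty v
  have hbr : ∀ n, al G (ball G {v} n) ≤ r := fun n => (al_mono (subset_univ _)).trans h.hal
  have h4 : min r t ≤ al G (ball G {v} 4) := by
    have : min r (al G (ball G {v} 3) + 1) ≤ al G (ball G {v} 4) := h.ball_succ hQ 3
    omega
  have hcut : ∀ j, 1 ≤ j → 2 * (j + 1) ≤ k →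
      (k - 1) + 2 * (k * al G (ball G {v} j)) ≤ (2 * t - 2) +
        (k - 1) * (al G (ball G {v} (j + 1)) + al G (ball G {v} j)) := by
    intro j hj hjk
    have hc := h.cut v (D := j + 2) (by omega) (sum_layer_bound (G := G) v (by omega) h1
      (fun i hi hiD => hlay i hi (by omega)))
    simp only [show j + 2 - 2 = j by omega, show j + 2 - 1 = j + 1 by omega] at hc
    omega
  obtain ⟨K, hK⟩ : ∃ K, k = K + 1 := ⟨k - 1, by omega⟩
  simp only [show k - 1 = K by omega] at hcut
  by_cases hrt : r < t
  · have hb4 : al G (ball G {v} 4) = r := le_antisymm (hbr 4) (by omega)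
    have hb5 : al G (ball G {v} 5) = r := le_antisymm (hbr 5)
      (hb4 ▸ al_mono (ball_mono (G := G) {v} (show 4 ≤ 5 by omega)))
    have := hcut 4 (by omega) (by omega)
    rw [hb4, hb5, hK] at this
    simp only [Nat.add_mul, Nat.one_mul, Nat.mul_add] at this
    omega
  have key : ∀ j, 4 ≤ j → 2 * j ≤ k → t + 2 * (j - 4) ≤ al G (ball G {v} j) := by
    intro j
    induction j with
    | zero => omega
    | succ j ih =>
      intro hj hjk
      by_cases hj4 : j + 1 = 4
      · rw [hj4]; omega
      have := ih (by omega) (by omega)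
      have hc := hcut j (by omega) hjk
      rw [hK, Nat.add_mul, Nat.one_mul, Nat.mul_add, Nat.mul_add] at hc
      by_contra hlt
      have := Nat.mul_le_mul_left K
        (show al G (ball G {v} (j + 1)) ≤ al G (ball G {v} j) + 1 by omega)
      rw [Nat.mul_add] at this
      omega
  have := key (k / 2) (by omega) (by omega)
  have := hbr (k / 2)
  omega

end Vale.Agent.P048.Full
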