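import Vale.Agent.P048.Full.MainArgs
import Vale.Agent.P048.Full.Layer

/-!
The cycle-complete Ramsey identity in the whole range `n ≤ m`, for `m` beyond a fixed bound.
-/

namespace Vale.Agent.P048.Full

open Finset Vale.Agent.P048.Cycle

/-- `R(C_m, K_n) = (m-1)(n-1)+1` for all `3 ≤ n ≤ m` with `84 ≤ m`. -/
theorem ramsey_full {m n : ℕ} (hn : 3 ≤ n) (hnm : n ≤ m) (hm : 84 ≤ m) :
    IsLeast {N : ℕ | ∀ G : SimpleGraph (Fin N),
      (SimpleGraph.cycleGraph m).IsContained G ∨ ¬G.IndepSetFree n} ((m - 1) * (n - 1) + 1) :=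
  ramsey_of_layer hn hnm (by simpa [K0] using hm) fun _ _ _ _ k _ h hk0 =>
    ⟨fun _ _ _ hK hKk hi1 hi _ hS hclq => h.layer_bound (by unfold K0 at hk0; omega) hK hKk hi1 hi hS hclq,
      fun _ hno => h.layer_one_strict hno⟩

end Vale.Agent.P048.Full
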