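import Vale.Agent.P048.Full.NoBig
import Vale.Agent.P048.Full.Growth
import Vale.Agent.P048.Full.Layer
import Vale.Agent.P048.Full.Induct

/-!
The cycle-complete Ramsey identity for `n ≤ m` with `15 ≤ m`, and for `2n ≤ m`.
-/

namespace Vale.Agent.P048.Full

open Finset Vale.Agent.P048.Cycle

variable {V : Type*} [Fintype V] [DecidableEq V] {G : SimpleGraph V} {k r : ℕ}

/-- A counterexample has a clique on more than half of `k` vertices. -/
theorem FCtx.small_cliques_false (h : FCtx G k r) (hk : 12 ≤ k)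
    (hno : ∀ C : Finset V, (∀ x ∈ C, ∀ y ∈ C, x ≠ y → G.Adj x y) → 2 * C.card ≤ k) : False := by
  obtain ⟨v, -⟩ := h.nonempty
  refine h.no_big_false v hk (fun K i hK hKk hpar hi1 hi => ?_)
    fun _ => h.layer_one_strict hno
  refine h.layer_bound (by omega) hK hKk hi1 hi subset_rfl fun C _ hC => ?_
  have := hno C hC
  rcases hpar with hp | hp <;> omega

theorem FCtx.false_fourteen (h : FCtx G k r) (hk : 14 ≤ k) : False :=
  h.small_cliques_false (by omega) fun _ hC => h.no_half_clique hk hC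

/-- `R(C_m, K_n) = (m-1)(n-1)+1` for `3 ≤ n ≤ m` when `15 ≤ m`, and whenever `2n ≤ m`. -/
theorem ramsey_fifteen {m n : ℕ} (hn : 3 ≤ n) (hnm : n ≤ m) (hm : 15 ≤ m ∨ 2 * n ≤ m) :
    IsLeast {N : ℕ | ∀ G : SimpleGraph (Fin N),
      (SimpleGraph.cycleGraph m).IsContained G ∨ ¬G.IndepSetFree n} ((m - 1) * (n - 1) + 1) := by
  rcases hm with hm | hm
  · refine ramsey_of_card_le hn (by omega) fun G hal hC => ?_
    exact card_le_of (k := m - 1) (by omega)
      (fun r V _ _ G _ h => h.false_fourteen (by omega)) (n - 1) G (by omega) hal hC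
  · exact Cycle.ramsey_cycle_complete hn hm

end Vale.Agent.P048.Full
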