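import Vale.Agent.P048.Full.SmallNoBig
import Vale.Agent.P048.Full.CaseTwo
import Vale.Agent.P048.Full.ConflictFalse

/-!
The cycle-complete Ramsey identity for `n ≤ m` with `9 ≤ m`, and for `2n ≤ m`.
-/

namespace Vale.Agent.P048.Full

open Finset Vale.Agent.P048.Cycle

variable {V : Type*} [Fintype V] [DecidableEq V] {G : SimpleGraph V} {k r : ℕ}

/-- No clique has more than `k/2` vertices once `8 ≤ k`. -/
theorem FCtx.no_half_clique8 (h : FCtx G k r) (hk : 8 ≤ k) {C : Finset V}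
    (hC : ∀ x ∈ C, ∀ y ∈ C, x ≠ y → G.Adj x y) : 2 * C.card ≤ k := by
  classical
  by_contra hlt
  obtain ⟨Q, hQ, hmax⟩ := exists_max_image
    ((univ : Finset V).powerset.filter fun S => ∀ x ∈ S, ∀ y ∈ S, x ≠ y → G.Adj x y) Finset.card
    ⟨C, by simpa using hC⟩
  simp only [mem_filter, mem_powerset, subset_univ, true_and] at hQ hmax
  have := hmax C hC
  obtain ⟨f₀, L₀, hf₀, hfQ₀, hLk₀, -⟩ := exists_longest_through (by omega) h.hC hQ (by omega)
  obtain ⟨f, L, Z⟩ := exists_zmax ⟨f₀, L₀, hf₀, hfQ₀, hLk₀⟩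
  have S := setup_of h.hC hQ hmax (by omega) (by omega) Z.cyc Z.sub Z.le
    fun g M h1 h2 h3 => (Z.max g M h1 h2 h3).1
  by_cases hnp : NoLong G Q f L
  · exact S.false_of h.degree (h.hal.trans h.hk) hnp
  · obtain ⟨a, b, g, hg, ha, hb, hab, he⟩ := Z.cyc.exists_ear hnp
    exact Z.false_of_conflict hQ h.hC (by omega) hk h.degree hmax (h.hal.trans h.hk) hg ha hb hab he

/-- `R(C_m, K_n) = (m-1)(n-1)+1` for `3 ≤ n ≤ m` when `9 ≤ m`, and whenever `2n ≤ m`. -/
theorem ramsey_nine {m n : ℕ} (hn : 3 ≤ n) (hnm : n ≤ m) (hm : 9 ≤ m ∨ 2 * n ≤ m) :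
    IsLeast {N : ℕ | ∀ G : SimpleGraph (Fin N),
      (SimpleGraph.cycleGraph m).IsContained G ∨ ¬G.IndepSetFree n} ((m - 1) * (n - 1) + 1) := by
  rcases hm with hm | hm
  · refine ramsey_of_card_le hn (by omega) fun G hal hC => ?_
    exact card_le_of (k := m - 1) (by omega)
      (fun r V _ _ G _ h => h.false_of_small_cliques (by omega) fun _ hC => h.no_half_clique8 (by omega) hC)
      (n - 1) G (by omega) hal hC
  · exact Cycle.ramsey_cycle_complete hn hm

end Vale.Agent.P048.Full
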