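import Vale.Agent.P048.Full.Payers

/-!
Two disjoint cliques with about `k/2` vertices each are impossible.
-/

namespace Vale.Agent.P048.Full

open Finset Vale.Agent.P048.Cycle

variable {V : Type*} [DecidableEq V] {G : SimpleGraph V}

/-- A walk contains a path with the same ends. -/
theorem exists_path_of_walk : ∀ (l : List V) (u v : V), l.IsChain G.Adj → l.head? = some u →
    l.getLast? = some v → ∃ l', IsP G l' u v ∧ (∀ x ∈ l', x ∈ l) ∧ l'.length ≤ l.length := by
  intro l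
  induction l with
  | nil => intro u v _ hh; simp at hh
  | cons a t ih =>
    intro u v hc hh hl
    simp only [List.head?_cons, Option.some.injEq] at hh
    subst hh
    rcases t with _ | ⟨b, t'⟩
    · simp only [List.getLast?_singleton, Option.some.injEq] at hl
      exact ⟨[a], hl ▸ isP_singleton a, by simp, by simp⟩
    rw [List.isChain_cons_cons] at hc
    obtain ⟨p, hp, hps, hpl⟩ := ih b v hc.2 rfl (by simpa using hl)
    by_cases ha : a ∈ p
    · obtain ⟨A, B, rfl⟩ := List.append_of_mem ha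
      refine ⟨a :: B, hp.right, fun x hx => ?_, by simp at hpl ⊢; omega⟩
      exact List.mem_cons_of_mem _ (hps x (List.mem_append_right _ hx))
    · refine ⟨a :: p, hp.cons hc.1 ha, fun x hx => ?_, by simp at hpl ⊢; omega⟩
      rcases List.mem_cons.1 hx with rfl | hx
      · simp
      · exact List.mem_cons_of_mem _ (hps x hx)

variable [Fintype V]

/-- A linkage between `A` and `B` of least total length. -/
def MinLink (G : SimpleGraph V) (A B : Finset V) (l₁ l₂ : List V) (a₁ b₁ a₂ b₂ : V) : Prop :=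
  Link G univ A B l₁ l₂ a₁ b₁ a₂ b₂ ∧ ∀ m₁ m₂ c₁ d₁ c₂ d₂, Link G univ A B m₁ m₂ c₁ d₁ c₂ d₂ →
    l₁.length + l₂.length ≤ m₁.length + m₂.length

variable {A B : Finset V} {l₁ l₂ : List V} {a₁ b₁ a₂ b₂ : V}

theorem MinLink.swap (h : MinLink G A B l₁ l₂ a₁ b₁ a₂ b₂) : MinLink G A B l₂ l₁ a₂ b₂ a₁ b₁ :=
  ⟨h.1.swap, fun m₁ m₂ c₁ d₁ c₂ d₂ hm => by have := h.2 m₁ m₂ c₁ d₁ c₂ d₂ hm; omega⟩

theorem MinLink.symm (h : MinLink G A B l₁ l₂ a₁ b₁ a₂ b₂) :
    MinLink G B A l₁.reverse l₂.reverse b₁ a₁ b₂ a₂ :=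
  ⟨h.1.symm, fun m₁ m₂ c₁ d₁ c₂ d₂ hm => by
    have := h.2 _ _ _ _ _ _ hm.symm
    simp at this ⊢; omega⟩

/-- No walk avoiding one path is shorter than the other path. -/
theorem MinLink.no_short (h : MinLink G A B l₁ l₂ a₁ b₁ a₂ b₂) {W : List V} {u v : V}
    (hc : W.IsChain G.Adj) (hh : W.head? = some u) (hl : W.getLast? = some v) (hu : u ∈ A)
    (hv : v ∈ B) (hd : ∀ x ∈ W, x ∉ l₁) (hlen : W.length < l₂.length) : False := by
  obtain ⟨p, hp, hps, hpl⟩ := exists_path_of_walk W u v hc hh hl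
  obtain ⟨q, w, hq, hw, hqp, hqB, -⟩ := hp.trim hv
  obtain ⟨r, z, hr, hz, hrq, hrA, -⟩ := hq.reverse.trim hu
  have hrl : r.length ≤ q.length := by
    rw [← List.toFinset_card_of_nodup hr.2.1, ← List.toFinset_card_of_nodup hq.2.1]
    refine card_le_card fun x hx => ?_
    rw [List.mem_toFinset] at hx ⊢
    exact List.mem_reverse.1 (hrq x hx)
  have hql : q.length ≤ p.length := by
    rw [← List.toFinset_card_of_nodup hq.2.1, ← List.toFinset_card_of_nodup hp.2.1]
    refine card_le_card fun x hx => ?_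
    rw [List.mem_toFinset] at hx ⊢
    exact hqp x hx
  have hsub : ∀ x ∈ r.reverse, x ∈ W := fun x hx =>
    hps x (hqp x (List.mem_reverse.1 (hrq x (List.mem_reverse.1 hx))))
  have := h.2 l₁ r.reverse a₁ b₁ z w ⟨h.1.p₁, hr.reverse, h.1.ha₁, hz, h.1.hb₁, hw,
    fun x _ => mem_univ x, fun x hx hx' => hd x (hsub x hx') hx, h.1.x₁, h.1.y₁,
    fun x hx hxA => hrA x (List.mem_reverse.1 hx) hxA,
    fun x hx hxB => hqB x (List.mem_reverse.1 (hrq x (List.mem_reverse.1 hx))) hxB⟩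
  rw [List.length_reverse] at this
  omega

/-- A walk of at most three vertices from `A` continued along the second path after position `j`. -/
theorem MinLink.no_cut (h : MinLink G A B l₁ l₂ a₁ b₁ a₂ b₂) {g : ℕ → V} {e : ℕ}
    (he : e + 1 = l₂.length) (hg : PF G g e) (hg1 : g e = b₂)
    (hgm : ∀ x, x ∈ l₂ ↔ ∃ i, i ≤ e ∧ g i = x) {W : List V} {u v : V} (hc : W.IsChain G.Adj)
    (hh : W.head? = some u) (hl : W.getLast? = some v) (hu : u ∈ A) (hd : ∀ x ∈ W, x ∉ l₁) {j : ℕ}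
    (hj : j ≤ e) (hadj : G.Adj v (g j)) (hlt : W.length < j) : False := by
  have hp := hg.sg hj le_rfl
  refine h.no_short (W := W ++ sg g j e) (u := u) (v := b₂)
    (List.IsChain.append hc hp.1 fun x hx y hy => ?_) ?_ ?_ hu h.1.hb₂ (fun x hx hx1 => ?_) ?_
  · rw [hl, Option.mem_def, Option.some.injEq] at hx
    rw [hp.2.2.1, Option.mem_def, Option.some.injEq] at hy
    exact hx ▸ hy ▸ hadj
  · rw [List.head?_append, hh]; rfl
  · rw [List.getLast?_append, hp.2.2.2, hg1]; rfl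
  · rcases List.mem_append.1 hx with hx | hx
    · exact hd x hx hx1
    · obtain ⟨i, -, hi, rfl⟩ := mem_sg.1 hx
      exact h.1.disj _ hx1 ((hgm _).2 ⟨i, hi, rfl⟩)
  · simp; omega

/-- The vertices near the `A` end of a linkage. -/
def near (f g : ℕ → V) (e₁ e₂ : ℕ) : Finset V :=
  {f 0, f (min 1 e₁), f (min 2 e₁), g 0, g (min 1 e₂), g (min 2 e₂)}

/-- All but eight payers have their witness paths off the linkage. -/
theorem MinLink.good (h : MinLink G A B l₁ l₂ a₁ b₁ a₂ b₂) (hd : Disjoint A B) {P : Finset V}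
    {pa pq : V → V} (hP : IsPayers G A P pa pq) :
    ∃ P', P' ⊆ P ∧ P.card ≤ P'.card + 8 ∧
      ∀ x ∈ P', ∀ z ∈ [pq x, pa x, x], z ∉ l₁ ∧ z ∉ l₂ := by
  classical
  obtain ⟨f, hf, hf0, hf1, hfm⟩ := h.1.p₁.toPF
  obtain ⟨g, hg, hg0, hg1, hgm⟩ := h.1.p₂.toPF
  have hp1 := List.length_pos_of_ne_nil h.1.p₁.ne_nil
  have hp2 := List.length_pos_of_ne_nil h.1.p₂.ne_nil
  set e₁ := l₁.length - 1
  set e₂ := l₂.length - 1
  set S := near f g e₁ e₂ with hS
  refine ⟨P.filter fun x => x ∉ S ∧ pa x ∉ S ∧ pq x ∉ S, filter_subset _ _, ?_, ?_⟩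
  · set U1 := P.filter fun x => x ∈ S
    set U2 := P.filter fun x => pa x ∈ S
    set U3 := P.filter fun x => pq x ∈ S
    have hsub : P ⊆ (P.filter fun x => x ∉ S ∧ pa x ∉ S ∧ pq x ∉ S) ∪ (U1 ∪ U2 ∪ U3) := by
      intro x hx
      simp only [U1, U2, U3, mem_union, mem_filter]
      tauto
    have h3 : U3.card ≤ 2 := by
      rw [← card_image_of_injOn (f := pq)
        (hP.2.2.2.2.mono (coe_subset.2 (filter_subset _ _)))]
      refine (card_le_card (t := {f 0, g 0}) fun y hy => ?_).trans card_le_two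
      obtain ⟨x, hx, rfl⟩ := mem_image.1 hy
      obtain ⟨hxP, hxS⟩ := mem_filter.1 hx
      have hyA := (hP.2.2.1 x hxP).2.1
      have cf : ∀ i, i ≤ e₁ → pq x = f i → pq x = f 0 := fun i hi e => by
        rw [hf0]; exact h.1.x₁ _ ((hfm _).2 ⟨i, hi, e.symm⟩) hyA
      have cg : ∀ i, i ≤ e₂ → pq x = g i → pq x = g 0 := fun i hi e => by
        rw [hg0]; exact h.1.x₂ _ ((hgm _).2 ⟨i, hi, e.symm⟩) hyA
      simp only [hS, near, mem_insert, mem_singleton] at hxS ⊢
      rcases hxS with e | e | e | e | e | e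
      · exact Or.inl e
      · exact Or.inl (cf _ (min_le_right _ _) e)
      · exact Or.inl (cf _ (min_le_right _ _) e)
      · exact Or.inr e
      · exact Or.inr (cg _ (min_le_right _ _) e)
      · exact Or.inr (cg _ (min_le_right _ _) e)
    have h12 : U1.card + U2.card ≤ 6 := by
      have hS6 : S.card ≤ 6 := by rw [hS, near]; exact card_le_six
      refine le_trans ?_ hS6
      rw [← card_image_of_injOn (f := pa) (s := U2)
        (hP.2.2.2.1.mono (coe_subset.2 (filter_subset _ _))), ← card_union_of_disjoint]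
      · refine card_le_card fun y hy => ?_
        rcases mem_union.1 hy with hy | hy
        · exact (mem_filter.1 hy).2
        · obtain ⟨x, hx, rfl⟩ := mem_image.1 hy
          exact (mem_filter.1 hx).2
      · rw [disjoint_left]
        intro y hy hy'
        obtain ⟨x, hx, rfl⟩ := mem_image.1 hy'
        exact (hP.2.2.1 x (mem_filter.1 hx).1).2.2.2.2 (mem_filter.1 hy).1
    have := (card_le_card hsub).trans (card_union_le _ _)
    have := card_union_le (U1 ∪ U2) U3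
    have := card_union_le U1 U2
    omega
  · intro x hx
    obtain ⟨hxP, hxS, haS, hqS⟩ := mem_filter.1 hx
    obtain ⟨-, hqA, hqa, hax, -⟩ := hP.2.2.1 x hxP
    simp only [hS, near, mem_insert, mem_singleton, not_or] at hxS haS hqS
    have hq : pq x ∉ l₁ ∧ pq x ∉ l₂ := by
      refine ⟨fun hm => ?_, fun hm => ?_⟩
      · exact hqS.1 (by rw [hf0]; exact h.1.x₁ _ hm hqA)
      · exact hqS.2.2.2.1 (by rw [hg0]; exact h.1.x₂ _ hm hqA)
    -- the second vertex
    have ha : pa x ∉ l₁ ∧ pa x ∉ l₂ := by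
      refine ⟨fun hm => ?_, fun hm => ?_⟩
      · obtain ⟨i, hi, e⟩ := (hfm _).1 hm
        rcases Nat.lt_or_ge i 2 with h2 | h2
        · interval_cases i
          · exact haS.1 e.symm
          · exact haS.2.1 (by rw [min_eq_left hi]; exact e.symm)
        · exact h.swap.no_cut (e := e₁) (by omega) hf hf1 hfm (W := [pq x]) (by simp) rfl rfl hqA
            (by simpa using hq.2) hi (e ▸ hqa) (by simp; omega)
      · obtain ⟨i, hi, e⟩ := (hgm _).1 hm
        rcases Nat.lt_or_ge i 2 with h2 | h2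
        · interval_cases i
          · exact haS.2.2.2.1 e.symm
          · exact haS.2.2.2.2.1 (by rw [min_eq_left hi]; exact e.symm)
        · exact h.no_cut (e := e₂) (by omega) hg hg1 hgm (W := [pq x]) (by simp) rfl rfl hqA
            (by simpa using hq.1) hi (e ▸ hqa) (by simp; omega)
    have hx' : x ∉ l₁ ∧ x ∉ l₂ := by
      refine ⟨fun hm => ?_, fun hm => ?_⟩
      · obtain ⟨i, hi, e⟩ := (hfm _).1 hm
        rcases Nat.lt_or_ge i 3 with h3 | h3
        · interval_cases i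
          · exact hxS.1 e.symm
          · exact hxS.2.1 (by rw [min_eq_left hi]; exact e.symm)
          · exact hxS.2.2.1 (by rw [min_eq_left hi]; exact e.symm)
        · exact h.swap.no_cut (e := e₁) (by omega) hf hf1 hfm (W := [pq x, pa x]) (by simpa using hqa)
            rfl rfl hqA (by simp [hq.2, ha.2]) hi (e ▸ hax) (by simp; omega)
      · obtain ⟨i, hi, e⟩ := (hgm _).1 hm
        rcases Nat.lt_or_ge i 3 with h3 | h3
        · interval_cases i
          · exact hxS.2.2.2.1 e.symm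
          · exact hxS.2.2.2.2.1 (by rw [min_eq_left hi]; exact e.symm)
          · exact hxS.2.2.2.2.2 (by rw [min_eq_left hi]; exact e.symm)
        · exact h.no_cut (e := e₂) (by omega) hg hg1 hgm (W := [pq x, pa x]) (by simpa using hqa)
            rfl rfl hqA (by simp [hq.1, ha.1]) hi (e ▸ hax) (by simp; omega)
    intro z hz
    simp only [List.mem_cons, List.not_mem_nil, or_false] at hz
    rcases hz with rfl | rfl | rfl
    · exact hq
    · exact ha
    · exact hx'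

/-- The least `k` for which `FCtx.pair` is proved here. -/
def K0 : ℕ := 83

variable {k r : ℕ}

/-- Two disjoint cliques of about `k/2` vertices are impossible. -/
theorem FCtx.pair (h : FCtx G k r) (hk0 : K0 ≤ k)
    (hA : ∀ x ∈ A, ∀ y ∈ A, x ≠ y → G.Adj x y) (hB : ∀ x ∈ B, ∀ y ∈ B, x ≠ y → G.Adj x y)
    (hd : Disjoint A B) (h1 : k + 1 ≤ 2 * A.card) (h2 : k ≤ 2 * B.card) : False := by
  classical
  unfold K0 at hk0
  let Q : ℕ → Prop := fun N => ∃ l₁ l₂ a₁ b₁ a₂ b₂, Link G univ A B l₁ l₂ a₁ b₁ a₂ b₂ ∧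
    l₁.length + l₂.length = N
  have hQ : ∃ N, Q N := by
    obtain ⟨l₁, l₂, a₁, b₁, a₂, b₂, hl⟩ :=
      linkage h.connected h.noCut (subset_univ A) (subset_univ B) hd (by omega) (by omega)
    exact ⟨_, l₁, l₂, a₁, b₁, a₂, b₂, hl, rfl⟩
  obtain ⟨l₁, l₂, a₁, b₁, a₂, b₂, hM, hlong⟩ : ∃ l₁ l₂ a₁ b₁ a₂ b₂,
      MinLink G A B l₁ l₂ a₁ b₁ a₂ b₂ ∧ l₁.length ≤ l₂.length := by
    obtain ⟨l₁, l₂, a₁, b₁, a₂, b₂, hl, hlen⟩ := Nat.find_spec hQ
    have hm : MinLink G A B l₁ l₂ a₁ b₁ a₂ b₂ := ⟨hl, fun m₁ m₂ c₁ d₁ c₂ d₂ hm => by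
      rw [hlen]; exact Nat.find_min' hQ ⟨m₁, m₂, c₁, d₁, c₂, d₂, hm, rfl⟩⟩
    rcases le_total l₁.length l₂.length with hle | hle
    · exact ⟨_, _, _, _, _, _, hm, hle⟩
    · exact ⟨_, _, _, _, _, _, hm.swap, hle⟩
  have hL := hM.1
  obtain ⟨f, hf, hf0, hf1, hfm⟩ := hL.p₁.toPF
  obtain ⟨g, hg, hg0, hg1, hgm⟩ := hL.p₂.toPF
  have hp1 := List.length_pos_of_ne_nil hL.p₁.ne_nil
  have hp2 := List.length_pos_of_ne_nil hL.p₂.ne_nil
  set e₁ := l₁.length - 1 with he₁
  set e₂ := l₂.length - 1 with he₂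
  subst a₁ b₁ a₂ b₂
  have fm : ∀ i, i ≤ e₁ → f i ∈ l₁ := fun i hi => (hfm _).mpr ⟨i, hi, rfl⟩
  have gm : ∀ i, i ≤ e₂ → g i ∈ l₂ := fun i hi => (hgm _).mpr ⟨i, hi, rfl⟩
  have fg : ∀ i j, i ≤ e₁ → j ≤ e₂ → f i ≠ g j := fun i j hi hj e =>
    hL.disj _ (fm i hi) (e ▸ gm j hj)
  have fB : ∀ i, i ≤ e₁ → f i ∈ B → i = e₁ := fun i hi h =>
    hf.1 i e₁ hi le_rfl (hL.y₁ _ (fm i hi) h)
  have gB : ∀ i, i ≤ e₂ → g i ∈ B → i = e₂ := fun i hi h =>
    hg.1 i e₂ hi le_rfl (hL.y₂ _ (gm i hi) h)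
  have he1 : 1 ≤ e₁ := by
    by_contra hh
    exact disjoint_left.mp hd hL.ha₁ (by rw [show 0 = e₁ by omega]; exact hL.hb₁)
  have he2 : 1 ≤ e₂ := by
    by_contra hh
    exact disjoint_left.mp hd hL.ha₂ (by rw [show 0 = e₂ by omega]; exact hL.hb₂)
  -- the linkage is long
  have hFk : k ≤ e₁ + e₂ := by
    by_contra hlt
    obtain ⟨E, hEn, hEl, hEB⟩ := exists_extra B (f e₁) (g e₂)
      ((k - 1 - (e₁ + e₂)) - (A.card - 2)) (by omega)
    obtain ⟨w, hw, hwB, hw'⟩ := clique_path hB E (sg f 0 e₁) (f 0) (f e₁)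
      (hf.sg (by omega) le_rfl) hL.hb₁ hEn (fun x hx => (hEB x hx).1) (fun x hx hx' => by
        obtain ⟨i, -, hi, e⟩ := mem_sg.mp hx'
        have := fB i hi (e ▸ (hEB x hx).1)
        subst this; exact (hEB x hx).2.1 e.symm)
    have hwne : w ≠ g e₂ := by
      rcases hw' with hh | rfl
      · exact (hEB w hh).2.2
      · exact fg _ _ le_rfl le_rfl
    have hpath := hw.append (hg.sg (Nat.zero_le e₂) le_rfl).reverse (hB w hwB _ hL.hb₂ hwne) (by
      intro x hx hx'
      rw [List.mem_reverse, mem_sg] at hx'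
      obtain ⟨j, -, hj, e⟩ := hx'
      rw [List.mem_append, mem_sg] at hx
      rcases hx with ⟨i, -, hi, rfl⟩ | hx
      · exact fg i j hi hj e.symm
      · have := gB j hj (e ▸ (hEB x hx).1)
        subst this; exact (hEB x hx).2.2 e.symm)
    refine h.hC (cyc_close hA hpath hL.ha₁ hL.ha₂ (fg _ _ (by omega) (by omega)) ?_
      (L := k + 1) ?_ ?_)
    · intro x hx hxA
      simp only [List.mem_append, List.mem_reverse, mem_sg] at hx
      rcases hx with (⟨i, -, hi, rfl⟩ | hx) | ⟨i, -, hi, rfl⟩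
      · exact Or.inl (hL.x₁ _ (fm i hi) hxA)
      · exact absurd (hEB x hx).1 (disjoint_left.mp hd hxA)
      · exact Or.inr (hL.x₂ _ (gm i hi) hxA)
    · simp [hEl]; omega
    · simp [hEl]; omega
  obtain ⟨PA, paA, pqA, hPA⟩ := h.payers (by omega) hA (by omega)
  obtain ⟨PB, paB, pqB, hPB⟩ := h.payers (by omega) hB h2
  obtain ⟨PA', hAs, hAc, hAoff⟩ := hM.good hd hPA
  obtain ⟨PB', hBs, hBc, hBoff⟩ := hM.symm.good hd.symm hPB
  simp only [List.mem_reverse] at hBoff
  -- picks on the second path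
  have hchord : ∀ i j, i + 2 ≤ j → j ≤ e₂ → ¬G.Adj (g i) (g j) := by
    intro i j hij hj hadj
    refine hM.no_cut (W := sg g 0 i) (by omega) hg rfl hgm (hg.sg (Nat.zero_le i) (by omega)).1
      (hg.sg (Nat.zero_le i) (by omega)).2.2.1 (hg.sg (Nat.zero_le i) (by omega)).2.2.2 hL.ha₂
      (fun x hx hx1 => ?_) hj hadj (by simp; omega)
    obtain ⟨n, -, hn, rfl⟩ := mem_sg.1 hx
    exact hL.disj _ hx1 (gm n (by omega))
  set M := (e₂ - 8) / 2 + 1 with hMdef
  set J := (range M).image fun n => g (4 + 2 * n) with hJ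
  have hJc : J.card = M := by
    rw [hJ, card_image_of_injOn, card_range]
    intro a ha b hb e
    simp at ha hb
    have := hg.1 _ _ (by omega) (by omega) e
    omega
  have hAJ : ∀ x ∈ PA', ∀ y ∈ J, x ≠ y ∧ ¬G.Adj x y := by
    intro x hx y hy
    obtain ⟨n, hn, rfl⟩ := mem_image.1 hy
    rw [mem_range] at hn
    obtain ⟨-, q1, q2, q3, -⟩ := hPA.2.2.1 x (hAs hx)
    refine ⟨fun e => (hAoff x hx x (by simp)).2 (e ▸ gm _ (by omega)), fun hadj => ?_⟩
    exact hM.no_cut (W := [pqA x, paA x, x]) (u := pqA x) (v := x) (by omega) hg rfl hgm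
      (by simp [q2, q3]) rfl rfl q1 (fun z hz => (hAoff x hx z hz).1) (by omega) hadj
      (by simp; omega)
  have hBJ : ∀ x ∈ PB', ∀ y ∈ J, x ≠ y ∧ ¬G.Adj x y := by
    intro x hx y hy
    obtain ⟨n, hn, rfl⟩ := mem_image.1 hy
    rw [mem_range] at hn
    obtain ⟨-, q1, q2, q3, -⟩ := hPB.2.2.1 x (hBs hx)
    refine ⟨fun e => (hBoff x hx x (by simp)).2 (e ▸ gm _ (by omega)), fun hadj => ?_⟩
    refine hM.symm.no_cut (W := [pqB x, paB x, x]) (g := fun i => g (e₂ - i)) (e := e₂) (u := pqB x)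
      (v := x) (j := e₂ - (4 + 2 * n)) (by simp; omega) hg.reverse (by simp) (fun z => ?_)
      (by simp [q2, q3]) rfl rfl q1 (fun z hz => by simpa using (hBoff x hx z hz).1) (by omega)
      (by show G.Adj x (g (e₂ - (e₂ - (4 + 2 * n)))); rwa [show e₂ - (e₂ - (4 + 2 * n)) = 4 + 2 * n by omega])
      (by simp; omega)
    rw [List.mem_reverse, hgm]
    exact ⟨fun ⟨i, hi, e⟩ => ⟨e₂ - i, by omega, by show g (e₂ - (e₂ - i)) = z; rwa [show e₂ - (e₂ - i) = i by omega]⟩,
      fun ⟨i, hi, e⟩ => ⟨e₂ - i, by omega, e⟩⟩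
  have hAB : ∀ x ∈ PA', ∀ y ∈ PB', x ≠ y ∧ ¬G.Adj x y := by
    intro x hx y hy
    obtain ⟨-, q1, q2, q3, -⟩ := hPA.2.2.1 x (hAs hx)
    obtain ⟨-, p1, p2, p3, -⟩ := hPB.2.2.1 y (hBs hy)
    have key : ∀ W : List V, W.IsChain G.Adj → W.head? = some (pqA x) →
        W.getLast? = some (pqB y) → (∀ z ∈ W, z ∈ [pqA x, paA x, x] ∨ z ∈ [pqB y, paB y, y]) →
        W.length ≤ 6 → False := fun W hc hh hl hm hlen =>
      hM.no_short hc hh hl q1 p1 (fun z hz => by
        rcases hm z hz with hz | hz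
        · exact (hAoff x hx z hz).1
        · exact (hBoff y hy z hz).1) (by omega)
    refine ⟨fun e => key [pqA x, paA x, x, paB y, pqB y] ?_ rfl rfl (by simp) (by simp),
      fun hadj => key [pqA x, paA x, x, y, paB y, pqB y] ?_ rfl rfl (by simp) (by simp)⟩
    · subst e; simp [q2, q3, p3.symm, p2.symm]
    · simp [q2, q3, hadj, p3.symm, p2.symm]
  have hind : Indep G (PA' ∪ PB' ∪ J) := by
    intro x hx y hy hxy
    simp only [mem_union] at hx hy
    rcases hx with (hx | hx) | hx <;> rcases hy with (hy | hy) | hy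
    · exact hPA.1 x (hAs hx) y (hAs hy) hxy
    · exact (hAB x hx y hy).2 hxy
    · exact (hAJ x hx y hy).2 hxy
    · exact (hAB y hy x hx).2 hxy.symm
    · exact hPB.1 x (hBs hx) y (hBs hy) hxy
    · exact (hBJ x hx y hy).2 hxy
    · exact (hAJ y hy x hx).2 hxy.symm
    · exact (hBJ y hy x hx).2 hxy.symm
    · obtain ⟨a, ha, rfl⟩ := mem_image.1 hx
      obtain ⟨b, hb, rfl⟩ := mem_image.1 hy
      rw [mem_range] at ha hb
      rcases lt_trichotomy a b with hl | hl | hl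
      · exact hchord _ _ (by omega) (by omega) hxy
      · subst hl; exact G.irrefl hxy
      · exact hchord _ _ (by omega) (by omega) hxy.symm
  have hc := le_al (G := G) (subset_univ (PA' ∪ PB' ∪ J)) hind
  rw [card_union_of_disjoint, card_union_of_disjoint, hJc] at hc
  · have := h.hal
    have := h.hk
    have := hPA.2.1
    have := hPB.2.1
    omega
  · exact disjoint_left.2 fun x hx hx' => (hAB x hx x hx').1 rfl
  · refine disjoint_left.2 fun x hx hx' => ?_
    rcases mem_union.1 hx with hx | hx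
    · exact (hAJ x hx x hx').1 rfl
    · exact (hBJ x hx x hx').1 rfl

end Vale.Agent.P048.Full
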