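import Vale.Agent.P048.Full.Step
import Vale.Agent.P048.Full.Induct
import Vale.Agent.P048.Full.Pair

/-!
The Ramsey identity for `n ≤ m`, `K0 < m`, from the two layer lemmas.
-/

namespace Vale.Agent.P048.Full

open Finset Vale.Agent.P048.Cycle

theorem ramsey_of_layer {m n : ℕ} (hn : 3 ≤ n) (hnm : n ≤ m) (hm : K0 + 1 ≤ m)
    (hlayer : ∀ (V : Type) [Fintype V] [DecidableEq V] (G : SimpleGraph V) (k r : ℕ),
      FCtx G k r → K0 ≤ k →
      (∀ (v : V) (K i : ℕ), k ≤ K + 1 → K ≤ k → 1 ≤ i → 2 * i ≤ k → ∀ S : Finset V,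
        S ⊆ layer G {v} i →
        (∀ C, C ⊆ S → (∀ x ∈ C, ∀ y ∈ C, x ≠ y → G.Adj x y) → 2 * C.card ≤ K) →
        2 * S.card ≤ K * al G S) ∧
      (∀ v : V,
        (∀ C : Finset V, (∀ x ∈ C, ∀ y ∈ C, x ≠ y → G.Adj x y) → 2 * C.card ≤ k) →
        2 * (layer G {v} 1).card + 1 ≤ k * al G (layer G {v} 1))) :
    IsLeast {N : ℕ | ∀ G : SimpleGraph (Fin N),
      (SimpleGraph.cycleGraph m).IsContained G ∨ ¬G.IndepSetFree n} ((m - 1) * (n - 1) + 1) := by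
  have hk0 : 19 ≤ m - 1 ∧ K0 ≤ m - 1 := by
    have : K0 = 83 := rfl
    omega
  refine ramsey_of_card_le hn (by omega) fun G hal hC => ?_
  refine card_le_of (k := m - 1) (by omega) (fun r V _ _ G hr h => ?_) (n - 1) G (by omega) hal hC
  obtain ⟨h1, h2⟩ := hlayer V G _ _ h hk0.2
  exact h.step_false hk0.1 hr
    (fun Q hQc hQ => by
      obtain ⟨P, pa, pq, hP⟩ := h.payers (by omega) hQc hQ
      exact ⟨P, hP.1, hP.2.1, hP.sub_ball⟩)
    (fun A B hA hB hd hA2 hB2 => h.pair hk0.2 hA hB hd hA2 hB2) h1 h2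

end Vale.Agent.P048.Full
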