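import Vale.Agent.P048.Full.NoBigSetup
import Vale.Agent.P048.Full.Drop
import Vale.Agent.P048.Full.Ctx
import Vale.Agent.P048.Cycle.Ports

/-!
A clique with more than half of `k + 1` vertices forces more than `k` independent vertices.
-/

namespace Vale.Agent.P048.Full

open Finset Vale.Agent.P048.Cycle

variable {V : Type*} [DecidableEq V]

/-- Positions followed by a vertex of `Q`. -/
def after (f : ℕ → V) (L : ℕ) (Q : Finset V) : Finset ℕ := (range L).filter fun p => f (p + 1) ∈ Q

/-- Positions preceded by a vertex of `Q`. -/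
def before (f : ℕ → V) (L : ℕ) (Q : Finset V) : Finset ℕ :=
  (range L).filter fun p => f (p + (L - 1)) ∈ Q

/-- Positions next to no vertex of `Q`. -/
def free0 (f : ℕ → V) (L : ℕ) (Q : Finset V) : Finset ℕ :=
  range L \ (after f L Q ∪ before f L Q)

open Classical in
/-- Positions of the neighbours of `o` on the cycle. -/
noncomputable def nbp (G : SimpleGraph V) (f : ℕ → V) (L : ℕ) (o : V) : Finset ℕ :=
  (range L).filter fun p => G.Adj o (f p)

variable {G : SimpleGraph V} {k L : ℕ} {Q : Finset V} {f : ℕ → V}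

theorem Setup.t_le (S : Setup G k Q f L) : Q.card ≤ L :=
  (card_le_card S.hQ).trans (card_img S.hf).le

theorem Setup.card_after (S : Setup G k Q f L) : (after f L Q).card = Q.card :=
  S.hf.card_shift_eq S.hQ 1

theorem Setup.card_free0 (S : Setup G k Q f L) :
    (free0 f L Q).card + 2 * Q.card = L + (after f L Q ∩ before f L Q).card := by
  have h1 := card_union_add_card_inter (after f L Q) (before f L Q)
  rw [S.card_after, show (before f L Q).card = Q.card from S.hf.card_shift_eq S.hQ (L - 1)] at h1
  have h2 := card_sdiff_add_card_eq_card (s := after f L Q ∪ before f L Q) (t := range L)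
    (union_subset (filter_subset _ _) (filter_subset _ _))
  rw [card_range] at h2
  unfold free0
  omega

/-- Some position beside the cycle's non-clique vertices is next to the clique. -/
theorem Setup.free0_lt (S : Setup G k Q f L) (ht : Q.card < L) :
    (free0 f L Q).card + Q.card + 1 ≤ L := by
  have hL := S.hf.pos
  set B := range L \ after f L Q with hBdef
  have hsub : free0 f L Q ⊆ B := sdiff_subset_sdiff Subset.rfl subset_union_left
  have hB : B.card + Q.card = L := by
    rw [hBdef, ← S.card_after, card_sdiff_add_card_eq_card (show after f L Q ⊆ range L from filter_subset _ _), card_range]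
  have := card_le_card hsub
  by_contra hlt
  have heq := eq_of_subset_of_card_le hsub (by omega)
  have hcl : ∀ p, f (p + 1) ∉ Q → f (p + (L - 1)) ∉ Q := by
    intro p hp hp'
    have hm : p % L ∈ B := by
      simp only [hBdef, after, mem_sdiff, mem_filter, mem_range, S.hf.mod_succ p 1]
      exact ⟨Nat.mod_lt _ (by omega), fun e => hp e.2⟩
    rw [← heq] at hm
    simp only [free0, before, mem_sdiff, mem_union, mem_filter, mem_range, S.hf.mod_succ p] at hm
    exact hm.2 (Or.inr ⟨hm.1, hp'⟩)
  obtain ⟨p, hp⟩ := card_pos.1 (show 0 < B.card by omega)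
  simp only [hBdef, after, mem_sdiff, mem_filter, mem_range, not_and] at hp
  have hp1 := hp.2 hp.1
  set x := p + 1 with hx
  have hind : ∀ m, f (x + m * (L - 1)) ∉ Q ∨ f (x + m * (L - 1) + 1) ∉ Q := by
    intro m
    induction m with
    | zero => exact Or.inl (by simpa using hp1)
    | succ m ih =>
      rw [Nat.succ_mul, ← Nat.add_assoc]
      rcases ih with e | e
      · right
        rwa [show x + m * (L - 1) + (L - 1) + 1 = x + m * (L - 1) + L by omega, S.hf.per]
      · exact Or.inl (hcl _ e)
  have hall : ∀ z, f (z + 0) ∈ Q → f (z + 1) ∉ Q := by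
    intro z hz hz1
    set m := x + (L - z % L) with hm
    have hmod := Nat.mod_lt z (show L > 0 by omega)
    have hmL : m * (L - 1) + m = m * L := by
      rw [← Nat.mul_succ]; congr 1; omega
    rcases hind m with e | e
    · rw [← S.hf.per, show x + m * (L - 1) + L = z % L + m * L by omega, S.hf.periodic_mul,
        per_mod S.hf.per] at e
      exact e (by simpa using hz)
    · rw [← S.hf.per, show x + m * (L - 1) + 1 + L = z % L + 1 + m * L by omega, S.hf.periodic_mul,
        S.hf.mod_succ] at e
      exact e hz1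
  have h0 := card_le_card (show ((range L).filter fun i => f (i + 0) ∈ Q) ⊆ B from fun z hz => by
    simp only [mem_filter] at hz
    simp only [hBdef, after, mem_sdiff, mem_filter]
    exact ⟨hz.1, fun e => hall z hz.2 e.2⟩)
  rw [S.hf.card_shift_eq S.hQ 0] at h0
  have := S.hQk
  have := S.hLk
  omega

theorem Setup.nb_le (S : Setup G k Q f L) {o : V} (ho : o ∉ img f L) :
    (nbp G f L o).card ≤ (free0 f L Q).card + 2 ∧
      ∀ i ∈ nbp G f L o, i ∈ after f L Q → i ∈ before f L Q →
        (nbp G f L o).card ≤ (free0 f L Q).card + 1 := by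
  classical
  set N := nbp G f L o with hN
  have h1 : (N ∩ after f L Q).card ≤ 1 := card_le_one.2 fun a ha b hb => by
    simp only [hN, nbp, after, mem_inter, mem_filter, mem_range] at ha hb
    exact S.one_pred ho ha.1.1 hb.1.1 ha.2.2 hb.2.2 ha.1.2 hb.1.2
  have h2 : (N ∩ before f L Q).card ≤ 1 := card_le_one.2 fun a ha b hb => by
    simp only [hN, nbp, before, mem_inter, mem_filter, mem_range] at ha hb
    exact S.one_succ ho ha.1.1 hb.1.1 ha.2.2 hb.2.2 ha.1.2 hb.1.2
  have hcov : N ⊆ (N ∩ after f L Q ∪ N ∩ before f L Q) ∪ free0 f L Q := fun p hp => by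
    have hr : p ∈ range L := (mem_filter.1 hp).1
    simp only [free0, mem_union, mem_inter, mem_sdiff]
    tauto
  have h3 := card_le_card hcov
  have h4 := card_union_le (N ∩ after f L Q ∪ N ∩ before f L Q) (free0 f L Q)
  have h5 := card_union_le (N ∩ after f L Q) (N ∩ before f L Q)
  refine ⟨by omega, fun i hi hia hib => ?_⟩
  have h6 := card_union_add_card_inter (N ∩ after f L Q) (N ∩ before f L Q)
  have h7 : 1 ≤ ((N ∩ after f L Q) ∩ (N ∩ before f L Q)).card :=
    card_pos.2 ⟨i, by simp [hi, hia, hib]⟩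
  omega

theorem Setup.nb_bound (S : Setup G k Q f L) {o : V} (ho : o ∉ img f L) :
    (nbp G f L o).card + Q.card ≤ L + 1 := by
  have := S.nb_le ho
  rcases S.t_le.lt_or_eq with hlt | heq
  · have := S.free0_lt hlt
    omega
  · have hA : after f L Q = range L :=
      eq_of_subset_of_card_le (filter_subset _ _) (by rw [S.card_after, card_range]; omega)
    have : (nbp G f L o).card ≤ 1 := card_le_one.2 fun a ha b hb => by
      classical
      simp only [nbp, mem_filter] at ha hb
      have ha' := ha.1
      have hb' := hb.1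
      rw [← hA] at ha' hb'
      simp only [after, mem_filter, mem_range] at ha' hb'
      exact S.one_pred ho ha'.1 hb'.1 ha'.2 hb'.2 ha.2 hb.2
    omega

theorem Setup.nb_two (S : Setup G k Q f L) {o : V} (ho : o ∉ img f L) :
    2 * (nbp G f L o).card ≤ L := by
  classical
  have hL := S.hf.pos
  set N := nbp G f L o with hN
  have hmem : ∀ p ∈ N, p < L ∧ G.Adj o (f p) := fun p hp => by
    simpa [hN, nbp] using hp
  have hc : (N.image fun p => (p + 1) % L).card = N.card := by
    refine card_image_of_injOn fun a ha b hb e => ?_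
    have e' : f (a + 1) = f (b + 1) := by
      rw [← per_mod S.hf.per (a + 1), ← per_mod S.hf.per (b + 1)]; exact congrArg f e
    have := (hmem a ha).1
    have := (hmem b hb).1
    have := inj_window S.hf.per S.hf.inj e' (by omega) (by omega)
    omega
  have hd : Disjoint N (N.image fun p => (p + 1) % L) := by
    rw [disjoint_left]
    rintro x hx hx'
    obtain ⟨p, hp, rfl⟩ := mem_image.1 hx'
    have := (hmem _ hx).2
    rw [per_mod S.hf.per] at this
    exact S.no_consec ho (hmem p hp).2 this
  have := card_le_card (show N ∪ (N.image fun p => (p + 1) % L) ⊆ range L from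
    union_subset (filter_subset _ _) fun x hx => by
      obtain ⟨p, -, rfl⟩ := mem_image.1 hx
      exact mem_range.2 (Nat.mod_lt _ (by omega)))
  rw [card_union_of_disjoint hd, hc, card_range] at this
  omega

/-- An edge between outside vertices attached before two clique vertices. -/
theorem Setup.conflict (S : Setup G k Q f L) {i j : ℕ} (hi : i < L) (hj : j < L) (hne : i ≠ j)
    (hi1 : f (i + 1) ∈ Q) (hj1 : f (j + 1) ∈ Q) {o o' : V} (ho : o ∉ img f L) (ho' : o' ∉ img f L)
    (h1 : G.Adj (f i) o) (h2 : G.Adj o o') (h3 : G.Adj (f j) o') :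
    L = k ∧ (after f L Q ∩ before f L Q).card ≤ 2 := by
  classical
  wlog hij : i < j generalizing i j o o'
  · exact this hj hi hne.symm hj1 hi1 ho' ho h3 h2.symm h1 (by omega)
  have hL := S.hf.pos
  have hR : IsP G [o, o'] o o' :=
    (isP_singleton o').cons h2 (by simpa using h2.ne)
  have hRf : ∀ x ∈ [o, o'], x ∉ img f L := by simp [ho, ho']
  obtain ⟨g, hg, himg⟩ := S.hf.reroute hR hRf hij hj h1 h3.symm (S.chord hij hj hi1 hj1)
  have hQg : Q ⊆ img g ([o, o'].length + L) := himg ▸ S.hQ.trans subset_union_right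
  simp only [List.length_cons, List.length_nil, Nat.zero_add] at hg hQg
  have hLk : L = k := by
    by_contra hh
    have := S.hLk
    exact S.too_long hg hQg (by omega) (by omega)
  refine ⟨hLk, ?_⟩
  · refine (card_le_card (t := {i, j}) fun p hp => ?_).trans card_le_two
    simp only [after, before, mem_inter, mem_filter, mem_range] at hp
    obtain ⟨⟨hpL, hp1⟩, -, hp2⟩ := hp
    simp only [mem_insert, mem_singleton]
    by_contra hpn
    simp only [not_or] at hpn
    have ha : G.Adj (f (p + 1 + (L - 1 - 1))) (f (p + 1 + 0)) := by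
      rw [show p + 1 + (L - 1 - 1) = p + (L - 1) by omega, Nat.add_zero]
      exact S.hQc _ hp2 _ hp1 (S.hf.ne (by omega) (by omega)).symm
    have h4L : 4 ≤ L := by
      have := S.t_le
      have := S.hk
      omega
    have hF := PCyc.drop (L := L - 1) (f := fun n => f (p + 1 + n))
      (by rw [Nat.sub_add_cancel (by omega)]; exact S.hf.shift (p + 1)) (by omega) ha
    set F := fun n => f (p + 1 + n % (L - 1)) with hFdef
    have key : ∀ q, q < L → p ≠ q → f (q + 1) ∈ Q →
        ∃ q', q' < L - 1 ∧ F q' = f q ∧ F (q' + 1) ∈ Q := by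
      intro q hq hpq hq1
      set q' := (q + 2 * L - (p + 1)) % L with hq'
      have hlt := Nat.mod_lt (q + 2 * L - (p + 1)) (show L > 0 by omega)
      have e0 : ∀ c, f (p + 1 + q' + c) = f (q + c) := fun c => by
        rw [show p + 1 + q' + c = q' + (p + 1 + c) by omega, hq', S.hf.mod_succ,
          show q + 2 * L - (p + 1) + (p + 1 + c) = q + c + 2 * L by omega, S.hf.periodic_mul]
      have hlt1 : q' < L - 1 := by
        by_contra hh
        have := e0 0
        rw [Nat.add_zero, Nat.add_zero, show p + 1 + q' = p + L by omega, S.hf.per] at this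
        exact hpq (S.hf.inj _ _ hpL hq this)
      refine ⟨q', hlt1, ?_, ?_⟩
      · simpa [hFdef, Nat.mod_eq_of_lt hlt1] using e0 0
      · rcases Nat.lt_or_ge (q' + 1) (L - 1) with hlt2 | hge
        · simpa [hFdef, Nat.mod_eq_of_lt hlt2, ← Nat.add_assoc, e0 1] using hq1
        · simpa [hFdef, show q' + 1 = L - 1 by omega] using hp1
    obtain ⟨i', hi', ei, ei'⟩ := key i hi hpn.1 hi1
    obtain ⟨j', hj', ej, ej'⟩ := key j hj hpn.2 hj1
    have fin : ∀ a b x y, a < b → b < L - 1 → F (a + 1) ∈ Q → F (b + 1) ∈ Q → x ∉ img f L →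
        y ∉ img f L → G.Adj (F a) x → G.Adj (F b) y → G.Adj x y → False := by
      intro a b x y hab hb ha1 hb1 hx hy hax hby hxy
      have himgF : ∀ z, z ∈ img F (L - 1) → z ∈ img f L := fun z hz => by
        obtain ⟨n, -, rfl⟩ := mem_image.1 hz
        exact mem_img S.hf _
      obtain ⟨g', hg', -⟩ := hF.reroute (R := [x, y])
        ((isP_singleton y).cons hxy (by simpa using hxy.ne)) (fun z hz hz' => by
          simp at hz; rcases hz with rfl | rfl
          · exact hx (himgF _ hz')
          · exact hy (himgF _ hz')) hab hb hax hby.symm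
        (S.hQc _ ha1 _ hb1 (hF.ne (by omega) (by omega)))
      refine S.hC ?_
      have := hg'.hasCyc
      rwa [show [x, y].length + (L - 1) = k + 1 by simp; omega] at this
    rcases Nat.lt_trichotomy i' j' with hl | hl | hl
    · exact fin i' j' o o' hl hj' ei' ej' ho ho' (ei ▸ h1) (ej ▸ h3) h2
    · subst hl
      exact S.hf.ne hij (by omega) (ei.symm.trans ej)
    · exact fin j' i' o' o hl hi' ej' ei' ho' ho (ej ▸ h3) (ei ▸ h1) h2.symm

variable [Fintype V]

open Classical in
/-- The neighbours of `o` outside the cycle. -/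
noncomputable def outN (G : SimpleGraph V) (f : ℕ → V) (L : ℕ) (o : V) : Finset V :=
  univ.filter fun y => G.Adj o y ∧ y ∉ img f L

theorem Setup.deg_split (S : Setup G k Q f L) (hdeg : ∀ x, k ≤ degIn G univ x) (o : V) :
    k ≤ (nbp G f L o).card + (outN G f L o).card := by
  classical
  refine (hdeg o).trans ((card_le_card (t := (nbp G f L o).image f ∪ outN G f L o)
    fun y hy => ?_).trans ((card_union_le _ _).trans (Nat.add_le_add_right card_image_le _)))
  simp only [mem_filter, mem_univ, true_and] at hy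
  by_cases hy' : y ∈ img f L
  · obtain ⟨n, hn, rfl⟩ := mem_image.1 hy'
    exact mem_union_left _ (mem_image.2 ⟨n, by simp [nbp, mem_range.1 hn, hy], rfl⟩)
  · exact mem_union_right _ (by simp [outN, hy, hy'])

theorem Setup.exists_out (S : Setup G k Q f L) (hdeg : ∀ x, k ≤ degIn G univ x) (i : ℕ) :
    ∃ o, G.Adj (f i) o ∧ o ∉ img f L := by
  classical
  by_contra hh
  simp only [not_exists, not_and, not_not] at hh
  have h1 := (hdeg (f i)).trans (card_le_card (t := (img f L).erase (f i)) fun y hy => by
    simp only [mem_filter, mem_univ, true_and] at hy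
    exact mem_erase.2 ⟨hy.ne.symm, hh y hy⟩)
  rw [card_erase_of_mem (mem_img S.hf i), card_img S.hf] at h1
  have := S.hLk
  have := S.hf.pos
  omega

/-- The configuration forces `k + 1` independent vertices. -/
theorem Setup.false_of (S : Setup G k Q f L) (hdeg : ∀ x, k ≤ degIn G univ x)
    (hal : al G univ ≤ k) (hnp : NoLong G Q f L) : False := by
  classical
  have hk := S.hk
  have hLk := S.hLk
  have hQk := S.hQk
  have htL := S.t_le
  set A := after f L Q with hA
  have hAt : A.card = Q.card := S.card_after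
  have memA : ∀ i ∈ A, i < L ∧ f (i + 1) ∈ Q := fun i hi => by simpa [hA, after] using hi
  choose o ho hoo using fun i => S.exists_out hdeg i
  set P := A.image o with hP
  set off : ℕ → Finset V := fun i => outN G f L (o i) \ P with hoff
  have memO : ∀ i y, y ∈ off i → G.Adj (o i) y ∧ y ∉ img f L ∧ ∀ j ∈ A, y ≠ o j := fun i y hy => by
    simp only [hoff, outN, hP, mem_sdiff, mem_filter, mem_univ, true_and, mem_image, not_exists,
      not_and] at hy
    exact ⟨hy.1.1, hy.1.2, fun j hj e => hy.2 j hj e.symm⟩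
  -- a path between two payers
  have nopath : ∀ i j R, i ∈ A → j ∈ A → i ≠ j → IsP G R (o i) (o j) → (∀ x ∈ R, x ∉ img f L) →
      (R.length = 1 ∨ R.length = 3 ∨ R.length = 4) → False := by
    intro i j R hi hj hne hR hRf hlen
    rcases Nat.lt_or_gt_of_ne hne with hl | hl
    · rcases hlen with h1 | h34
      · exact S.no_path hR hRf h1 hl (memA j hj).1 (memA i hi).2 (memA j hj).2 (ho i) (ho j).symm
      · exact hnp R _ _ i j hR hRf h34 hl (memA j hj).1 (memA i hi).2 (memA j hj).2 (ho i)
          (ho j).symm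
    · rcases hlen with h1 | h34
      · exact S.no_path hR.reverse (by simpa using hRf) (by simpa using h1) hl (memA i hi).1
          (memA j hj).2 (memA i hi).2 (ho j) (ho i).symm
      · exact hnp R.reverse _ _ j i hR.reverse (by simpa using hRf) (by simpa using h34) hl
          (memA i hi).1 (memA j hj).2 (memA i hi).2 (ho j) (ho i).symm
  have oinj : ∀ i ∈ A, ∀ j ∈ A, o i = o j → i = j := fun i hi j hj e => by
    by_contra hne
    exact nopath i j [o i] hi hj hne (by rw [← e]; exact isP_singleton _) (by simpa using hoo i)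
      (Or.inl rfl)
  have hsep : ∀ i ∈ A, ∀ j ∈ A, i ≠ j → ∀ x ∈ off i, ∀ y ∈ off j, x ≠ y ∧ ¬G.Adj x y := by
    intro i hi j hj hne x hx y hy
    obtain ⟨x1, x2, x3⟩ := memO i x hx
    obtain ⟨y1, y2, y3⟩ := memO j y hy
    have hij : o i ≠ o j := fun e => hne (oinj i hi j hj e)
    refine ⟨fun e => ?_, fun e => ?_⟩
    · subst e
      exact nopath i j [o i, x, o j] hi hj hne
        (((isP_singleton (o j)).cons y1.symm (by simpa using x3 j hj)).cons x1
          (by simp [hij, (x3 i hi).symm]))
        (by simp [hoo i, hoo j, x2]) (Or.inr (Or.inl rfl))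
    · exact nopath i j [o i, x, y, o j] hi hj hne
        ((((isP_singleton (o j)).cons y1.symm (by simpa using y3 j hj)).cons e
          (by simp [e.ne, x3 j hj])).cons x1
          (by simp [hij, (x3 i hi).symm, (y3 i hi).symm]))
        (by simp [hoo i, hoo j, x2, y2]) (Or.inr (Or.inr rfl))
  have hconf : ∀ i ∈ A, (outN G f L (o i) ∩ P).card ≤ 1 := fun i hi => card_le_one.2 fun a ha b hb => by
    simp only [hP, outN, mem_inter, mem_filter, mem_univ, true_and, mem_image] at ha hb
    obtain ⟨⟨a1, -⟩, j, hj, rfl⟩ := ha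
    obtain ⟨⟨b1, -⟩, l, hl, rfl⟩ := hb
    by_contra hne
    exact nopath j l [o j, o i, o l] hj hl (fun e => hne (congrArg o e))
      (((isP_singleton (o l)).cons b1 (by simpa using b1.ne)).cons a1.symm
        (by simp [a1.ne.symm, hne]))
      (by simp [hoo i, hoo j, hoo l]) (Or.inr (Or.inl rfl))
  -- a pair in `off i`, or a tight clique
  have piece : ∀ i ∈ A, ∃ J, J ⊆ off i ∧ Indep G J ∧ 1 ≤ J.card ∧ (J.card = 2 ∨
      L = k ∧ k + 1 = (nbp G f L (o i)).card + Q.card ∧ Q.card ≤ (off i).card + 1 ∧
        ∀ x ∈ off i, ∀ y ∈ off i, x ≠ y → G.Adj x y) := by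
    intro i hi
    by_cases hcl : ∀ x ∈ off i, ∀ y ∈ off i, x ≠ y → G.Adj x y
    swap
    · simp only [not_forall] at hcl
      obtain ⟨x, hx, y, hy, hne, hxy⟩ := hcl
      refine ⟨{x, y}, by simp [insert_subset_iff, hx, hy], fun a ha b hb => ?_,
        by rw [card_pair hne]; omega, Or.inl (card_pair hne)⟩
      simp only [mem_insert, mem_singleton] at ha hb
      rcases ha with rfl | rfl <;> rcases hb with rfl | rfl
      exacts [G.irrefl, hxy, fun e => hxy e.symm, G.irrefl]
    have hni : o i ∉ off i := fun hh => (memO i _ hh).2.2 i hi rfl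
    have hc1 := S.hclique (insert (o i) (off i)) (by
      intro x hx y hy hxy
      rw [mem_insert] at hx hy
      rcases hx with rfl | hx <;> rcases hy with rfl | hy
      · exact absurd rfl hxy
      · exact (memO i y hy).1
      · exact (memO i x hx).1.symm
      · exact hcl x hx y hy hxy)
    rw [card_insert_of_notMem hni] at hc1
    have hsum : (outN G f L (o i) ∩ P).card + (off i).card = (outN G f L (o i)).card := by
      rw [Nat.add_comm]; exact card_sdiff_add_card_inter _ _
    have hd := S.deg_split hdeg (o i)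
    have hc2 := hconf i hi
    have hnb := S.nb_bound (hoo i)
    have h0 : (outN G f L (o i) ∩ P).card = 0 := by
      by_contra hh
      obtain ⟨z, hz⟩ := card_pos.1 (Nat.pos_of_ne_zero hh)
      simp only [hP, outN, mem_inter, mem_filter, mem_univ, true_and, mem_image] at hz
      obtain ⟨⟨z1, -⟩, j, hj, rfl⟩ := hz
      obtain ⟨-, c2⟩ := S.conflict (memA i hi).1 (memA j hj).1
        (fun e => z1.ne (congrArg o e)) (memA i hi).2 (memA j hj).2 (hoo i) (hoo j) (ho i) z1 (ho j)
      have := (S.nb_le (hoo i)).1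
      have := S.card_free0
      omega
    have hne : (off i).Nonempty := card_pos.1 (by omega)
    obtain ⟨y, hy⟩ := hne
    refine ⟨{y}, by simpa using hy, fun a ha b hb => ?_, by simp,
      Or.inr ⟨by omega, by omega, by omega, hcl⟩⟩
    rw [mem_singleton] at ha hb
    subst ha; subst hb; exact G.irrefl
  choose J hJoff hJind hJ1 hJ2 using piece
  -- unions of pieces
  have hunion : ∀ K : ℕ → Finset V, (∀ i ∈ A, K i ⊆ off i ∧ Indep G (K i)) →
      Indep G (A.biUnion K) ∧ (A.biUnion K).card = ∑ i ∈ A, (K i).card := by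
    intro K hK
    refine ⟨fun x hx y hy => ?_, card_biUnion fun i hi j hj hne => disjoint_left.2 fun x hx hx' =>
      (hsep i hi j hj hne x ((hK i hi).1 hx) x ((hK j hj).1 hx')).1 rfl⟩
    obtain ⟨i, hi, hx⟩ := mem_biUnion.1 hx
    obtain ⟨j, hj, hy⟩ := mem_biUnion.1 hy
    by_cases e : i = j
    · subst e; exact (hK i hi).2 x hx y hy
    · exact (hsep i hi j hj e x ((hK i hi).1 hx) y ((hK j hj).1 hy)).2
  let K : ℕ → Finset V := fun i => if h : i ∈ A then J i h else ∅
  have hK : ∀ i ∈ A, K i ⊆ off i ∧ Indep G (K i) := fun i hi => by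
    simp only [K, dif_pos hi]; exact ⟨hJoff i hi, hJind i hi⟩
  obtain ⟨hUi, hUc⟩ := hunion K hK
  have hUal := le_al (G := G) (subset_univ _) hUi
  set D := A.filter fun i => (K i).card ≠ 2 with hD
  have hsum : 2 * A.card ≤ (A.biUnion K).card + D.card := by
    rw [hUc, hD, card_filter, ← sum_add_distrib, Nat.mul_comm, ← smul_eq_mul, ← sum_const]
    refine sum_le_sum fun i hi => ?_
    have := hJ1 i hi
    simp only [K, dif_pos hi]
    split_ifs <;> omega
  rcases D.eq_empty_or_nonempty with hDe | ⟨i₀, hi₀⟩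
  · rw [hDe, card_empty, hAt] at hsum
    omega
  have hdef : ∀ i ∈ D, i ∈ A ∧ L = k ∧ k + 1 = (nbp G f L (o i)).card + Q.card ∧
      Q.card ≤ (off i).card + 1 ∧ ∀ x ∈ off i, ∀ y ∈ off i, x ≠ y → G.Adj x y := fun i hi => by
    obtain ⟨hiA, hi2⟩ := mem_filter.1 hi
    simp only [K, dif_pos hiA] at hi2
    exact ⟨hiA, (hJ2 i hiA).resolve_left hi2⟩
  obtain ⟨hi₀A, hLeq, hnb, hoffc, hcl⟩ := hdef i₀ hi₀
  rcases htL.lt_or_eq with hlt | heq
  · -- at most one tight clique
    have hsub : D ⊆ A \ (A ∩ before f L Q) := fun i hi => by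
      obtain ⟨hiA, -, hn, -⟩ := hdef i hi
      refine mem_sdiff.2 ⟨hiA, fun hh => ?_⟩
      have h1 := (S.nb_le (hoo i)).2 i
        (by simp [nbp, (memA i hiA).1, (ho i).symm]) hiA (mem_inter.1 hh).2
      have := S.free0_lt hlt
      omega
    have h1 := card_le_card hsub
    rw [card_sdiff_of_subset inter_subset_left] at h1
    have := S.card_free0
    have := (S.nb_le (hoo i₀)).1
    have := S.nb_two (hoo i₀)
    have := S.free0_lt hlt
    rw [← hA] at *
    omega
  · -- the clique fills the cycle
    have himgQ : img f L = Q := (eq_of_subset_of_card_le S.hQ (by rw [card_img S.hf]; omega)).symm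
    obtain ⟨y, hy, hyn⟩ : ∃ y ∈ off i₀, ¬G.Adj (f i₀) y := by
      by_contra hh
      simp only [not_exists, not_and, not_not] at hh
      have hni : o i₀ ∉ off i₀ := fun e => (memO i₀ _ e).2.2 i₀ hi₀A rfl
      have hnf : f i₀ ∉ insert (o i₀) (off i₀) := by
        rw [mem_insert, not_or]
        exact ⟨(ho i₀).ne, fun e => (memO i₀ _ e).2.1 (mem_img S.hf _)⟩
      have hc := S.hclique (insert (f i₀) (insert (o i₀) (off i₀))) (by
        intro a ha b hb hab
        simp only [mem_insert] at ha hb
        rcases ha with rfl | rfl | ha <;> rcases hb with rfl | rfl | hb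
        all_goals first
          | exact absurd rfl hab
          | exact ho i₀
          | exact (ho i₀).symm
          | exact hh _ hb
          | exact (hh _ ha).symm
          | exact (memO i₀ _ hb).1
          | exact (memO i₀ _ ha).1.symm
          | exact hcl a ha b hb hab)
      rw [card_insert_of_notMem hnf, card_insert_of_notMem hni] at hc
      omega
    let K' : ℕ → Finset V := fun i => if i = i₀ then {y} else K i
    have hK' : ∀ i ∈ A, K' i ⊆ off i ∧ Indep G (K' i) := fun i hi => by
      simp only [K']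
      split_ifs with e
      · subst e
        refine ⟨by simpa using hy, fun a ha b hb => ?_⟩
        rw [mem_singleton] at ha hb
        subst ha; subst hb; exact G.irrefl
      · exact hK i hi
    obtain ⟨hU'i, hU'c⟩ := hunion K' hK'
    have hU't : A.card ≤ (A.biUnion K').card := by
      rw [hU'c, card_eq_sum_ones]
      refine sum_le_sum fun i hi => ?_
      simp only [K']
      split_ifs
      · simp
      · simp only [K, dif_pos hi]; exact hJ1 i hi
    have hfar : ∀ x ∈ A.biUnion K', x ≠ f i₀ ∧ ¬G.Adj (f i₀) x := by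
      intro x hx
      obtain ⟨j, hj, hxj⟩ := mem_biUnion.1 hx
      have hxo := (hK' j hj).1 hxj
      obtain ⟨x1, x2, x3⟩ := memO j x hxo
      refine ⟨fun e => x2 (e ▸ mem_img S.hf _), fun hadj => ?_⟩
      by_cases e : j = i₀
      · simp only [K', if_pos e, mem_singleton] at hxj
        exact hyn (hxj ▸ hadj)
      refine S.hC (port_close (A := Q) S.hQc (l := [x, o j]) (q := f i₀) (q' := f j)
        ((isP_singleton (o j)).cons x1.symm (by simpa using x3 j hj)) ?_ (himgQ ▸ mem_img S.hf _)
        (himgQ ▸ mem_img S.hf _) (fun e' => e (S.hf.inj _ _ (memA i₀ hi₀A).1 (memA j hj).1 e').symm)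
        hadj (ho j).symm (by simp; omega) (by simp; omega))
      intro z hz
      simp at hz
      rcases hz with rfl | rfl
      · exact himgQ ▸ x2
      · exact himgQ ▸ hoo j
    have hind : Indep G (insert (f i₀) (A.biUnion K')) := by
      intro a ha b hb
      rw [mem_insert] at ha hb
      rcases ha with rfl | ha <;> rcases hb with rfl | hb
      · exact G.irrefl
      · exact (hfar b hb).2
      · exact fun e => (hfar a ha).2 e.symm
      · exact hU'i a ha b hb
    have := le_al (G := G) (subset_univ _) hind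
    rw [card_insert_of_notMem fun hh => (hfar _ hh).1 rfl] at this
    omega

/-- A periodic enumeration of a clique. -/
theorem clique_pcyc (hQc : ∀ x ∈ Q, ∀ y ∈ Q, x ≠ y → G.Adj x y) (h3 : 3 ≤ Q.card) :
    ∃ g, PCyc G g Q.card ∧ Q ⊆ img g Q.card := by
  set e := Q.equivFin.symm with he
  refine ⟨fun n => (e ⟨n % Q.card, Nat.mod_lt _ (by omega)⟩).1, ⟨h3, fun i => by simp, ?_, ?_⟩,
    fun x hx => ?_⟩
  · intro i j hi hj h
    have := e.injective (Subtype.ext h)
    simpa [Fin.ext_iff, Nat.mod_eq_of_lt hi, Nat.mod_eq_of_lt hj] using this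
  · intro i
    refine hQc _ (e _).2 _ (e _).2 fun h => ?_
    have hh := e.injective (Subtype.ext h)
    simp only [Fin.ext_iff] at hh
    have := Nat.mod_lt i (show Q.card > 0 by omega)
    rw [Nat.add_mod, Nat.mod_eq_of_lt (show 1 < Q.card by omega)] at hh
    rcases Nat.lt_or_ge (i % Q.card + 1) Q.card with hl | hl
    · rw [Nat.mod_eq_of_lt hl] at hh; omega
    · rw [show i % Q.card + 1 = Q.card by omega, Nat.mod_self] at hh; omega
  · refine mem_image.2 ⟨(Q.equivFin ⟨x, hx⟩).1, mem_range.2 (Q.equivFin ⟨x, hx⟩).2, ?_⟩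
    simp [he, Nat.mod_eq_of_lt (Q.equivFin ⟨x, hx⟩).2]

/-- Cycle lengths through `Q` up to `k` have a maximum; any such cycle gives a configuration. -/
theorem setup_of (hC : ¬HasCyc G (k + 1)) (hQc : ∀ x ∈ Q, ∀ y ∈ Q, x ≠ y → G.Adj x y)
    (hmaxQ : ∀ C : Finset V, (∀ x ∈ C, ∀ y ∈ C, x ≠ y → G.Adj x y) → C.card ≤ Q.card)
    (hk2 : k + 1 ≤ 2 * Q.card) (h5 : 5 ≤ Q.card)
    (hf : PCyc G f L) (hfQ : Q ⊆ img f L) (hLk : L ≤ k)
    (hmax : ∀ (g : ℕ → V) (M : ℕ), PCyc G g M → Q ⊆ img g M → M ≤ k → M ≤ L) :
    Setup G k Q f L := by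
  exact ⟨h5, hC, hQc, hk2, hmaxQ, hf, hfQ, hLk, hmax⟩

/-- A longest cycle of length at most `k` through a clique. -/
theorem exists_longest_through (hk : 2 ≤ k) (hC : ¬HasCyc G (k + 1))
    (hQc : ∀ x ∈ Q, ∀ y ∈ Q, x ≠ y → G.Adj x y) (h3 : 3 ≤ Q.card) :
    ∃ f L, PCyc G f L ∧ Q ⊆ img f L ∧ L ≤ k ∧
      ∀ (g : ℕ → V) (M : ℕ), PCyc G g M → Q ⊆ img g M → M ≤ k → M ≤ L := by
  classical
  have htk : Q.card ≤ k := by
    by_contra hh
    exact hC (clique_cyc hQc (by omega) (by omega))
  let Good : ℕ → Prop := fun L => ∃ f, PCyc G f L ∧ Q ⊆ img f L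
  obtain ⟨L, hLk, ⟨f, hf, hfQ⟩, hmax⟩ :
      ∃ L, L ≤ k ∧ Good L ∧ ∀ M, Good M → M ≤ k → M ≤ L :=
    ⟨Nat.findGreatest Good k, Nat.findGreatest_le k,
      Nat.findGreatest_spec (P := Good) htk (clique_pcyc hQc h3),
      fun M hM hMk => Nat.le_findGreatest hMk hM⟩
  exact ⟨f, L, hf, hfQ, hLk, fun g M hg hgQ hM => hmax M ⟨g, hg, hgQ⟩ hM⟩

/-- With at least eight clique vertices no long conflict path exists. -/
theorem Setup.noLong (S : Setup G k Q f L) (h8 : 8 ≤ Q.card) : NoLong G Q f L := by
  intro R o o' i j hR hRf hlen hij hj hi1 hj1 h1 h2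
  obtain ⟨g, hg, himg⟩ := S.hf.reroute hR hRf hij hj h1 h2 (S.chord hij hj hi1 hj1)
  have hQg : Q ⊆ img g (R.length + L) := himg ▸ S.hQ.trans subset_union_right
  have := S.hLk
  have := S.t_le
  by_cases hle : R.length + L ≤ k + 1
  · exact S.too_long hg hQg (by omega) hle
  set d := R.length + L - (k + 1) with hd
  by_cases hd1 : d = 1 ∧ ∀ n, ¬(g n ∈ Q ∧ g (n + 2) ∈ Q)
  · obtain ⟨g', hg', hQ'⟩ := PCyc.drop_two S.hQc hg hQg hd1.2
      (by have := S.hQk; have := S.hk; omega) (by omega)
    exact S.too_long hg' hQ' (by omega) (by omega)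
  · refine S.hC (PCyc.drop_runs S.hQc hg hQg (by omega) S.hQk (d := d) (by omega) (by omega)
      (by omega) (fun he => ?_) fun _ => h8)
    simp only [he, true_and, not_forall, not_not] at hd1
    exact hd1

/-- No clique has more than `k/2` vertices once `14 ≤ k`. -/
theorem FCtx.no_half_clique {r : ℕ} (h : FCtx G k r) (hk : 14 ≤ k) {C : Finset V}
    (hC : ∀ x ∈ C, ∀ y ∈ C, x ≠ y → G.Adj x y) : 2 * C.card ≤ k := by
  classical
  by_contra hlt
  obtain ⟨Q, hQ, hmax⟩ := exists_max_image
    ((univ : Finset V).powerset.filter fun S => ∀ x ∈ S, ∀ y ∈ S, x ≠ y → G.Adj x y) Finset.card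
    ⟨C, by simpa using hC⟩
  simp only [mem_filter, mem_powerset, subset_univ, true_and] at hQ hmax
  have := hmax C hC
  obtain ⟨f, L, hf, hfQ, hLk, hfmax⟩ := exists_longest_through (by omega) h.hC hQ (by omega)
  have S := setup_of h.hC hQ hmax (by omega) (by omega) hf hfQ hLk hfmax
  exact S.false_of h.degree (h.hal.trans h.hk) (S.noLong (by omega))

end Vale.Agent.P048.Full
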