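import Vale.Agent.P048.Cycle.Colour
import Vale.Agent.P048.Cycle.Dirac

/-!
Rerouting a cycle through an outside path, and deleting a vertex from a cycle.
-/

namespace Vale.Agent.P048.Full

open Finset Vale.Agent.P048.Cycle

variable {V : Type*} [DecidableEq V] {G : SimpleGraph V}

/-- `f` runs periodically through a cycle with `L` vertices. -/
structure PCyc (G : SimpleGraph V) (f : ℕ → V) (L : ℕ) : Prop where
  pos : 3 ≤ L
  per : ∀ i, f (i + L) = f i
  inj : ∀ i j, i < L → j < L → f i = f j → i = j
  adj : ∀ i, G.Adj (f i) (f (i + 1))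

/-- The vertices of a periodic cycle. -/
def img (f : ℕ → V) (L : ℕ) : Finset V := (range L).image f

variable {f : ℕ → V} {L : ℕ}

theorem mem_img (h : PCyc G f L) (i : ℕ) : f i ∈ img f L :=
  mem_image.2 ⟨i % L, mem_range.2 (Nat.mod_lt _ (by have := h.pos; omega)), per_mod h.per i⟩

theorem card_img (h : PCyc G f L) : (img f L).card = L := by
  rw [img, card_image_of_injOn, card_range]
  intro i hi j hj e
  simp at hi hj
  exact h.inj i j hi hj e

theorem PCyc.ne (h : PCyc G f L) {i j : ℕ} (h1 : i < j) (h2 : j < i + L) : f i ≠ f j := fun e => by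
  have := inj_window h.per h.inj e (by omega) (by omega)
  omega

theorem PCyc.hasCyc (h : PCyc G f L) : HasCyc G L := by
  have := h.pos
  refine ⟨sg f 0 (L - 1), _, _, isP_arc h.per h.inj h.adj (Nat.zero_le _) (by omega), ?_, ?_⟩
  · have h1 := h.adj (L - 1)
    rw [show L - 1 + 1 = 0 + L by omega, h.per] at h1
    exact h1
  · simp; omega

theorem exists_pcyc {c : List V} {u v : V} (hc : IsP G c u v) (hvu : G.Adj v u) (h3 : 3 ≤ c.length) :
    ∃ g, PCyc G g c.length ∧ img g c.length = c.toFinset := by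
  obtain ⟨g, hper, hinj, hadj, hmem⟩ :=
    exists_periodic (S := c.toFinset) hc hvu (fun x hx => List.mem_toFinset.2 hx) rfl
  have hp : PCyc G g c.length := ⟨h3, hper, hinj, hadj⟩
  refine ⟨g, hp, eq_of_subset_of_card_le (fun x hx => ?_) ?_⟩
  · obtain ⟨i, -, rfl⟩ := mem_image.1 hx
    exact hmem i
  · rw [card_img hp]
    exact List.toFinset_card_le c

/-- An outside path between two cycle vertices whose successors are adjacent lengthens the cycle. -/
theorem PCyc.reroute (h : PCyc G f L) {R : List V} {o o' : V} (hR : IsP G R o o')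
    (hRf : ∀ x ∈ R, x ∉ img f L) {i j : ℕ} (hij : i < j) (hj : j < L) (h1 : G.Adj (f i) o)
    (h2 : G.Adj o' (f j)) (hch : G.Adj (f (i + 1)) (f (j + 1))) :
    ∃ g, PCyc G g (R.length + L) ∧ img g (R.length + L) = R.toFinset ∪ img f L := by
  have hL := h.pos
  have a1 := (isP_arc h.per h.inj h.adj (a := i + 1) (b := j) (by omega) (by omega)).reverse
  have a2 := isP_arc h.per h.inj h.adj (a := j + 1) (b := i + L) (by omega) (by omega)
  have p1 := hR.append a1 h2 fun x hx hx' => by
    obtain ⟨n, -, -, rfl⟩ := mem_sg.1 (List.mem_reverse.1 hx')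
    exact hRf _ hx (mem_img h n)
  have p2 := p1.append a2 hch fun x hx hx' => by
    obtain ⟨n, hn1, hn2, rfl⟩ := mem_sg.1 hx'
    rcases List.mem_append.1 hx with hx | hx
    · exact hRf _ hx (mem_img h n)
    · obtain ⟨n', hn1', hn2', e⟩ := mem_sg.1 (List.mem_reverse.1 hx)
      exact h.ne (show n' < n by omega) (by omega) e
  have hclose : G.Adj (f (i + L)) o := by rw [h.per]; exact h1
  have hlen : (R ++ (sg f (i + 1) j).reverse ++ sg f (j + 1) (i + L)).length = R.length + L := by
    simp; omega
  obtain ⟨g, hg, himg⟩ := exists_pcyc p2 hclose (by omega)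
  rw [hlen] at hg himg
  refine ⟨g, hg, ?_⟩
  rw [himg]
  apply Finset.ext
  intro x
  simp only [List.toFinset_append, List.toFinset_reverse, mem_union, List.mem_toFinset, mem_sg,
    or_assoc]
  refine or_congr Iff.rfl ⟨?_, fun hx => ?_⟩
  · rintro (⟨n, -, -, rfl⟩ | ⟨n, -, -, rfl⟩) <;> exact mem_img h n
  · obtain ⟨n, hn, rfl⟩ := mem_image.1 hx
    rw [mem_range] at hn
    rcases Nat.lt_or_ge i n with hin | hin
    · rcases Nat.lt_or_ge j n with hjn | hjn
      · exact Or.inr ⟨n, by omega, by omega, rfl⟩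
      · exact Or.inl ⟨n, by omega, hjn, rfl⟩
    · exact Or.inr ⟨n + L, by omega, by omega, h.per n⟩

/-- Start the cycle at position `s`. -/
theorem PCyc.shift (h : PCyc G f L) (s : ℕ) : PCyc G (fun n => f (s + n)) L := by
  refine ⟨h.pos, fun i => ?_, fun i j hi hj e => ?_, fun i => ?_⟩
  · show f (s + (i + L)) = f (s + i)
    rw [← Nat.add_assoc, h.per]
  · have := inj_window h.per h.inj (show f (s + i) = f (s + j) from e) (by omega) (by omega)
    omega
  · exact h.adj (s + i)

theorem img_shift (h : PCyc G f L) (s : ℕ) : img (fun n => f (s + n)) L = img f L := by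
  refine eq_of_subset_of_card_le (fun x hx => ?_) (by rw [card_img h, card_img (h.shift s)])
  obtain ⟨n, -, rfl⟩ := mem_image.1 hx
  exact mem_img h _

/-- Delete the last vertex when its two neighbours are adjacent. -/
theorem PCyc.drop (h : PCyc G f (L + 1)) (hL : 3 ≤ L) (ha : G.Adj (f (L - 1)) (f 0)) :
    PCyc G (fun n => f (n % L)) L := by
  refine ⟨hL, fun i => ?_, fun i j hi hj e => ?_, fun i => ?_⟩
  · simp
  · simp only [Nat.mod_eq_of_lt hi, Nat.mod_eq_of_lt hj] at e
    exact h.inj i j (by omega) (by omega) e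
  · have hlt := Nat.mod_lt i (show L > 0 by omega)
    show G.Adj (f (i % L)) (f ((i + 1) % L))
    rw [Nat.add_mod, Nat.mod_eq_of_lt (show 1 < L by omega)]
    rcases Nat.lt_or_ge (i % L + 1) L with hh | hh
    · rw [Nat.mod_eq_of_lt hh]; exact h.adj _
    · rw [show i % L + 1 = L by omega, Nat.mod_self, show i % L = L - 1 by omega]; exact ha

theorem img_drop : img (fun n => f (n % L)) L = img f L :=
  image_congr fun n hn => by simp at hn; simp [Nat.mod_eq_of_lt hn]

end Vale.Agent.P048.Full
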