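import Vale.Agent.P048.Full.Ctx
import Vale.Agent.P048.Full.Reroute
import Vale.Agent.P048.Cycle.TwoClique

/-!
A clique with at least half of `k` vertices has many pairwise non-adjacent vertices at distance two.
-/

namespace Vale.Agent.P048.Full

open Finset Vale.Agent.P048.Cycle

variable {V : Type*} [Fintype V] [DecidableEq V] {G : SimpleGraph V}

/-- Payers of `Q`: independent, each with a witness path from `Q` through `pa`. -/
def IsPayers (G : SimpleGraph V) (Q P : Finset V) (pa pq : V → V) : Prop :=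
  Indep G P ∧ Q.card ≤ P.card + 1 ∧
    (∀ x ∈ P, x ∉ Q ∧ pq x ∈ Q ∧ G.Adj (pq x) (pa x) ∧ G.Adj (pa x) x ∧ pa x ∉ P) ∧
    Set.InjOn pa P ∧ Set.InjOn pq P

variable {f : ℕ → V} {L : ℕ}

/-- The positions whose shift by `s` lies in `T` are at least as many as `T`. -/
theorem card_pos_filter (h : PCyc G f L) {T : Finset V} (hT : T ⊆ img f L) (s : ℕ) :
    T.card ≤ ((range L).filter fun n => f (n + s) ∈ T).card := by
  refine (card_le_card (t := ((range L).filter fun n => f (n + s) ∈ T).image fun n => f (n + s))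
    fun q hq => ?_).trans card_image_le
  obtain ⟨n, hn, rfl⟩ := mem_image.1 (hT hq)
  have hL := h.pos
  have hs : (n + (L * (s + 1) - s)) % L + s ≡ n [MOD L] := by
    show _ % L = _ % L
    rw [Nat.mod_add_mod]
    have : s ≤ L * (s + 1) := le_trans (Nat.le_succ s) (Nat.le_mul_of_pos_left _ (by omega))
    rw [show n + (L * (s + 1) - s) + s = n + L * (s + 1) by omega, Nat.add_mul_mod_self_left]
  have he : f ((n + (L * (s + 1) - s)) % L + s) = f n := by
    rw [← per_mod h.per ((n + (L * (s + 1) - s)) % L + s), hs, per_mod h.per]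
  refine mem_image.2 ⟨_, mem_filter.2 ⟨mem_range.2 (Nat.mod_lt _ (by omega)), ?_⟩, he⟩
  rw [he]; exact hq

/-- Turn predecessors on a conflict-free cycle into payers. -/
theorem collect {k : ℕ} {Q Q' X : Finset V} (hdeg : ∀ x, k ≤ degIn G univ x) (h : PCyc G f L)
    (hQ'c : Q.card ≤ Q'.card + 1) (hQ'Q : Q' ⊆ Q) (hQ' : Q' ⊆ img f L) (hX : img f L ⊆ X)
    (hQX : Q ⊆ X) (hXk : X.card ≤ k)
    (hno : ∀ i j, i < j → j < L → f (i + 1) ∈ Q' → f (j + 1) ∈ Q' → ∀ o o', o ∉ X → o' ∉ X →
      G.Adj (f i) o → G.Adj (f j) o' → o ≠ o' ∧ ¬G.Adj o o') :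
    ∃ P pa pq, IsPayers G Q P pa pq := by
  classical
  have hout : ∀ i, ∃ o, o ∉ X ∧ G.Adj (f i) o := by
    intro i
    by_contra hh
    simp only [not_exists, not_and] at hh
    have h1 := hdeg (f i)
    have h2 : degIn G univ (f i) ≤ (X.erase (f i)).card := by
      refine card_le_card fun y hy => ?_
      rw [mem_filter] at hy
      refine mem_erase.2 ⟨hy.2.ne.symm, ?_⟩
      by_contra hy'
      exact hh y hy' hy.2
    rw [card_erase_of_mem (hX (mem_img h i))] at h2
    have := card_pos.2 ⟨_, hX (mem_img h i)⟩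
    omega
  choose o ho1 ho2 using hout
  set A := (range L).filter fun n => f (n + 1) ∈ Q' with hA
  have hinj : Set.InjOn o A := by
    intro i hi j hj e
    simp only [hA, coe_filter, Set.mem_setOf_eq, mem_range] at hi hj
    rcases lt_trichotomy i j with hl | hl | hl
    · exact absurd e (hno i j hl hj.1 hi.2 hj.2 _ _ (ho1 i) (ho1 j) (ho2 i) (ho2 j)).1
    · exact hl
    · exact absurd e.symm (hno j i hl hi.1 hj.2 hi.2 _ _ (ho1 j) (ho1 i) (ho2 j) (ho2 i)).1
  let inv : V → ℕ := fun x => if hx : ∃ i ∈ A, o i = x then hx.choose else 0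
  have hinv : ∀ i ∈ A, inv (o i) = i := by
    intro i hi
    have hx : ∃ j ∈ A, o j = o i := ⟨i, hi, rfl⟩
    simp only [inv, dif_pos hx]
    exact hinj hx.choose_spec.1 hi hx.choose_spec.2
  refine ⟨A.image o, fun x => f (inv x), fun x => f (inv x + 1), ?_, ?_, ?_, ?_, ?_⟩
  · intro x hx y hy hxy
    obtain ⟨i, hi, rfl⟩ := mem_image.1 hx
    obtain ⟨j, hj, rfl⟩ := mem_image.1 hy
    simp only [hA, mem_filter, mem_range] at hi hj
    rcases lt_trichotomy i j with hl | hl | hl
    · exact (hno i j hl hj.1 hi.2 hj.2 _ _ (ho1 i) (ho1 j) (ho2 i) (ho2 j)).2 hxy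
    · subst hl; exact G.irrefl hxy
    · exact (hno j i hl hi.1 hj.2 hi.2 _ _ (ho1 j) (ho1 i) (ho2 j) (ho2 i)).2 hxy.symm
  · rw [card_image_of_injOn hinj]
    have := card_pos_filter h hQ' 1
    rw [← hA] at this
    omega
  · intro x hx
    obtain ⟨i, hi, rfl⟩ := mem_image.1 hx
    have hiA := hi
    simp only [hA, mem_filter, mem_range] at hi
    refine ⟨fun hq => ho1 i (hQX hq), ?_, ?_, ?_, ?_⟩
    · simp only [hinv i hiA]; exact hQ'Q hi.2
    · simp only [hinv i hiA]; exact (h.adj i).symm
    · simp only [hinv i hiA]; exact ho2 i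
    · intro hp
      obtain ⟨j, -, e⟩ := mem_image.1 hp
      exact ho1 j (e ▸ hX (mem_img h _))
  · intro x hx y hy e
    obtain ⟨i, hi, rfl⟩ := mem_image.1 (mem_coe.1 hx)
    obtain ⟨j, hj, rfl⟩ := mem_image.1 (mem_coe.1 hy)
    simp only [hinv i hi, hinv j hj] at e
    simp only [hA, mem_filter, mem_range] at hi hj
    rw [h.inj i j hi.1 hj.1 e]
  · intro x hx y hy e
    obtain ⟨i, hi, rfl⟩ := mem_image.1 (mem_coe.1 hx)
    obtain ⟨j, hj, rfl⟩ := mem_image.1 (mem_coe.1 hy)
    simp only [hinv i hi, hinv j hj] at e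
    simp only [hA, mem_filter, mem_range] at hi hj
    have := inj_window h.per h.inj e (by omega) (by omega)
    rw [show i = j by omega]

/-- On a cycle of length `k` with three removable vertices the outside neighbours do not conflict. -/
theorem payers_full {k : ℕ} {Q : Finset V} (hC : ¬HasCyc G (k + 1))
    (hdeg : ∀ x, k ≤ degIn G univ x) (hQc : ∀ x ∈ Q, ∀ y ∈ Q, x ≠ y → G.Adj x y) (hk : 5 ≤ k)
    (h : PCyc G f k) (hQ : Q ⊆ img f k) {R : Finset ℕ} (hR : 3 ≤ R.card)
    (hRQ : ∀ p ∈ R, p < k ∧ f (p + 1) ∈ Q ∧ f (p + (k - 1)) ∈ Q) :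
    ∃ P pa pq, IsPayers G Q P pa pq := by
  classical
  refine collect hdeg h (by omega) subset_rfl hQ subset_rfl hQ (by rw [card_img h])
    fun i j hij hj hi1 hj1 o o' ho ho' h1 h2 => ⟨fun e => ?_, fun hadj => ?_⟩
  · subst e
    have hch := hQc _ hi1 _ hj1 (h.ne (by omega) (by omega))
    obtain ⟨g, hg, -⟩ := h.reroute (isP_singleton o) (fun x hx => by simp at hx; exact hx ▸ ho) hij
      hj h1 h2.symm hch
    refine hC ?_
    have := hg.hasCyc
    simpa [Nat.add_comm] using this
  · obtain ⟨p, hp⟩ := card_pos.1 (show 0 < ((R.erase i).erase j).card by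
      have := pred_card_le_card_erase (s := R) (a := i)
      have := pred_card_le_card_erase (s := R.erase i) (a := j)
      omega)
    simp only [mem_erase] at hp
    obtain ⟨hpk, hp1, hp2⟩ := hRQ p hp.2.2
    have hs := h.shift (p + 1)
    have hd : PCyc G (fun n => f (p + 1 + n % (k - 1))) (k - 1) := by
      refine PCyc.drop (f := fun n => f (p + 1 + n)) (L := k - 1)
        (by rwa [show k - 1 + 1 = k by omega]) (by omega) ?_
      show G.Adj (f (p + 1 + (k - 1 - 1))) (f (p + 1 + 0))
      rw [show p + 1 + (k - 1 - 1) = p + (k - 1) by omega, Nat.add_zero]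
      exact hQc _ hp2 _ hp1 (h.ne (by omega) (by omega)).symm
    set F := fun n => f (p + 1 + n % (k - 1)) with hF
    -- the position of `n` in the shortened cycle
    have key : ∀ n, n < k → n ≠ p → f (n + 1) ∈ Q →
        ∃ n', n' < k - 1 ∧ F n' = f n ∧ F (n' + 1) ∈ Q := by
      intro n hn hnp hnQ
      obtain ⟨n', hn', e⟩ : ∃ n', n' < k - 1 ∧ (p + 1 + n' = n ∨ p + 1 + n' = n + k) := by
        rcases Nat.lt_or_ge p n with hl | hl
        · exact ⟨n - (p + 1), by omega, Or.inl (by omega)⟩
        · exact ⟨n + k - (p + 1), by omega, Or.inr (by omega)⟩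
      have ef : f (p + 1 + n') = f n := by
        rcases e with e | e <;> rw [e]
        exact h.per n
      refine ⟨n', hn', by simp only [hF, Nat.mod_eq_of_lt hn']; exact ef, ?_⟩
      simp only [hF]
      rcases Nat.lt_or_ge (n' + 1) (k - 1) with hl | hl
      · rw [Nat.mod_eq_of_lt hl]
        rcases e with e | e
        · rwa [show p + 1 + (n' + 1) = n + 1 by omega]
        · rwa [show p + 1 + (n' + 1) = n + 1 + k by omega, h.per]
      · rw [show n' + 1 = k - 1 by omega, Nat.mod_self, Nat.add_zero]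
        exact hp1
    obtain ⟨i', hi', ei, ei'⟩ := key i (by omega) (fun e => hp.2.1 e.symm) hi1
    obtain ⟨j', hj', ej, ej'⟩ := key j hj (fun e => hp.1 e.symm) hj1
    have himg : ∀ x, x ∈ img F (k - 1) → x ∈ img f k := by
      intro x hx
      obtain ⟨n, -, rfl⟩ := mem_image.1 hx
      exact mem_img h _
    have hne' : i' ≠ j' := by
      intro e; subst e
      exact h.ne hij (by omega) (ei.symm.trans ej)
    have fin : ∀ a b x y, a < b → b < k - 1 → F (a + 1) ∈ Q → F (b + 1) ∈ Q → x ∉ img f k →
        y ∉ img f k → G.Adj (F a) x → G.Adj (F b) y → G.Adj x y → False := by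
      intro a b x y hab hb ha1 hb1 hx hy hax hby hxy
      have hch := hQc _ ha1 _ hb1 (hd.ne (by omega) (by omega))
      obtain ⟨g, hg, -⟩ := hd.reroute (R := [x, y]) (o := x) (o' := y)
        ((isP_singleton y).cons hxy (by simp; exact hxy.ne)) (fun z hz hz' => by
          simp at hz; rcases hz with rfl | rfl
          · exact hx (himg _ hz')
          · exact hy (himg _ hz')) hab hb hax hby.symm hch
      refine hC ?_
      have := hg.hasCyc
      simpa [show 2 + (k - 1) = k + 1 by omega] using this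
    rcases Nat.lt_or_ge i' j' with hl | hl
    · exact fin i' j' o o' hl hj' ei' ej' ho ho' (ei ▸ h1) (ej ▸ h2) hadj
    · exact fin j' i' o' o (by omega) hi' ej' ei' ho' ho (ej ▸ h2) (ei ▸ h1) hadj.symm

variable {k r : ℕ}

/-- The payers of a clique with at least half of `k` vertices. -/
theorem FCtx.payers (h : FCtx G k r) (hk : 12 ≤ k) {Q : Finset V}
    (hQc : ∀ x ∈ Q, ∀ y ∈ Q, x ≠ y → G.Adj x y) (hQ : k ≤ 2 * Q.card) :
    ∃ P pa pq, IsPayers G Q P pa pq := by
  classical
  have htk : Q.card ≤ k := by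
    by_contra hh
    obtain ⟨T, hT, hTc⟩ := exists_subset_card_eq (show k + 1 ≤ Q.card by omega)
    obtain ⟨a, ha, b, hb, hab⟩ := one_lt_card.mp (show 1 < T.card by omega)
    refine h.hC (cyc_close (A := T) (fun x hx y hy => hQc x (hT hx) y (hT hy))
      ((isP_singleton (G := G) b).cons (hQc a (hT ha) b (hT hb) hab) (by simpa using hab))
      ha hb hab (fun x hx _ => by simpa using hx) (by simp; omega) (by simp; omega))
  obtain ⟨q0, hq0⟩ := card_pos.1 (show 0 < Q.card by omega)
  set Q' := Q.erase q0 with hQ'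
  have hQ'c : Q'.card + 1 = Q.card := card_erase_add_one hq0
  have hQ'Q : Q' ⊆ Q := erase_subset _ _
  let Good : ℕ → Prop := fun L => L ≤ k ∧
    ∃ f : ℕ → V, PCyc G f L ∧ Q' ⊆ img f L ∧ q0 ∉ img f L
  have hex : ∃ L, Good L := by
    obtain ⟨a, ha, b, hb, hab⟩ := one_lt_card.mp (show 1 < Q'.card by omega)
    obtain ⟨E, hEn, hEl, hEA⟩ := exists_extra Q' a b (Q'.card - 2) (by omega)
    obtain ⟨w, hw, hwQ, hw'⟩ := clique_path (A := Q')
      (fun x hx y hy => hQc x (hQ'Q hx) y (hQ'Q hy)) E [a] a a (isP_singleton a) ha hEn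
      (fun x hx => (hEA x hx).1) (fun x hx hx' => (hEA x hx).2.1 (by simpa using hx'))
    have hbl : b ∉ [a] ++ E := by
      intro hb'
      simp at hb'
      rcases hb' with e | e
      · exact hab e.symm
      · exact (hEA b e).2.2 rfl
    have hwb : w ≠ b := fun e => hbl (e ▸ hw.last_mem)
    have hw2 := hw.concat (hQc _ (hQ'Q hwQ) _ (hQ'Q hb) hwb) hbl
    have hlen : ([a] ++ E ++ [b]).length = Q'.card := by simp [hEl]; omega
    obtain ⟨g, hg, himg⟩ := exists_pcyc hw2 (hQc _ (hQ'Q hb) _ (hQ'Q ha) hab.symm) (by omega)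
    rw [hlen] at hg himg
    have hsub : img g Q'.card ⊆ Q' := by
      rw [himg]
      intro x hx
      simp only [List.mem_toFinset, List.mem_append, List.mem_singleton] at hx
      rcases hx with (hx | hx) | hx
      · exact hx ▸ ha
      · exact (hEA x hx).1
      · exact hx ▸ hb
    refine ⟨Q'.card, by omega, g, hg, ?_, fun hh => ?_⟩
    · exact (eq_of_subset_of_card_le hsub (by rw [card_img hg])).ge
    · exact notMem_erase q0 Q (hsub hh)
  obtain ⟨L, ⟨hLk, f, hf, hfQ, hfq⟩, hmax⟩ : ∃ L, Good L ∧ ∀ M, Good M → M ≤ L := by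
    obtain ⟨L₀, hL₀⟩ := hex
    exact ⟨Nat.findGreatest Good k, Nat.findGreatest_spec (P := Good) hL₀.1 hL₀,
      fun M hM => Nat.le_findGreatest hM.1 hM⟩
  rcases Nat.lt_or_ge L k with hlt | hge
  · -- room below `k`
    refine collect h.degree hf (Q' := Q') (X := insert q0 (img f L)) (by omega) hQ'Q hfQ
      (subset_insert _ _) (fun x hx => ?_) ?_ fun i j hij hj hi1 hj1 o o' ho ho' h1 h2 => ?_
    · by_cases e : x = q0
      · exact e ▸ mem_insert_self _ _
      · exact mem_insert_of_mem (hfQ (mem_erase.2 ⟨e, hx⟩))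
    · refine (card_insert_le _ _).trans ?_
      rw [card_img hf]; omega
    have hch := hQc _ (hQ'Q hi1) _ (hQ'Q hj1) (hf.ne (by omega) (by omega))
    simp only [mem_insert, not_or] at ho ho'
    have fin : ∀ R : List V, IsP G R o o' → (∀ x ∈ R, x = o ∨ x = o') → R.length ≤ 2 →
        1 ≤ R.length → False := by
      intro R hR hRo hR2 hR1
      obtain ⟨g, hg, hgi⟩ := hf.reroute hR (fun x hx => by
        rcases hRo x hx with rfl | rfl
        · exact ho.2
        · exact ho'.2) hij hj h1 h2.symm hch
      rcases Nat.lt_or_ge (R.length + L) (k + 1) with hh | hh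
      · have := hmax _ ⟨show R.length + L ≤ k by omega, g, hg, by
          rw [hgi]; exact hfQ.trans subset_union_right, by
          rw [hgi, mem_union, List.mem_toFinset, not_or]
          refine ⟨fun hq => ?_, hfq⟩
          rcases hRo _ hq with e | e
          · exact ho.1 e.symm
          · exact ho'.1 e.symm⟩
        omega
      · exact h.hC (by
          have := hg.hasCyc
          rwa [show R.length + L = k + 1 by omega] at this)
    exact ⟨fun e => fin [o] (e ▸ isP_singleton o) (by simp) (by simp) (by simp), fun hadj =>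
      fin [o, o'] ((isP_singleton o').cons hadj (by simpa using hadj.ne)) (by simp) (by simp)
        (by simp)⟩
  · obtain rfl : L = k := by omega
    -- no two consecutive vertices of `Q'`
    have hcons : ∀ n, f n ∈ Q' → f (n + 1) ∉ Q' := by
      intro n hn hn'
      have hp := (hf.shift (n + 1))
      have hP := isP_arc hp.per hp.inj hp.adj (a := 0) (b := L - 1) (Nat.zero_le _) (by omega)
      have hlast : f (n + 1 + (L - 1)) = f n := by
        rw [show n + 1 + (L - 1) = n + L by omega, hf.per]
      have hne0 : q0 ≠ f (n + 1) := fun e => hfq (e ▸ mem_img hf _)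
      have hne1 : f n ≠ q0 := fun e => hfq (e.symm ▸ mem_img hf _)
      have hA := hP.concat (w := q0)
        (by show G.Adj (f (n + 1 + (L - 1))) q0; rw [hlast]; exact hQc _ (hQ'Q hn) _ hq0 hne1)
        (fun hm => by
          obtain ⟨i, -, -, e⟩ := mem_sg.1 hm
          exact hfq (e ▸ mem_img hf _))
      refine h.hC ⟨_, _, _, hA, ?_, by simp; omega⟩
      show G.Adj q0 (f (n + 1 + 0))
      exact hQc _ hq0 _ (hQ'Q hn') hne0
    -- removable positions
    have rem : ∀ s : ℕ, 3 * Q'.card ≤ L + ((range L).filter fun n =>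
        f (s + n + 1) ∈ Q' ∧ f (s + n + (L - 1)) ∈ Q').card := by
      intro s
      have hs := hf.shift s
      have hT : Q' ⊆ img (fun n => f (s + n)) L := by rw [img_shift hf]; exact hfQ
      have c0 := card_pos_filter hs hT 0
      have c1 := card_pos_filter hs hT 1
      have c2 := card_pos_filter hs hT (L - 1)
      simp only [Nat.add_zero] at c0
      set S0 := (range L).filter fun n => f (s + n) ∈ Q'
      set S1 := (range L).filter fun n => f (s + (n + 1)) ∈ Q'
      set S2 := (range L).filter fun n => f (s + (n + (L - 1))) ∈ Q'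
      have hd : Disjoint S0 (S1 ∪ S2) := by
        rw [disjoint_left]
        intro n hn hn'
        simp only [S0, S1, S2, mem_union, mem_filter] at hn hn'
        rcases hn' with ⟨-, h'⟩ | ⟨-, h'⟩
        · exact hcons _ hn.2 h'
        · refine hcons _ h' ?_
          rw [show s + (n + (L - 1)) + 1 = s + n + L by omega, hf.per]
          exact hn.2
      have hsub : S0 ∪ (S1 ∪ S2) ⊆ range L :=
        union_subset (filter_subset _ _) (union_subset (filter_subset _ _) (filter_subset _ _))
      have h1 := card_le_card hsub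
      rw [card_union_of_disjoint hd, card_range] at h1
      have h2 := card_union_add_card_inter S1 S2
      have h3 : S1 ∩ S2 = (range L).filter fun n =>
          f (s + n + 1) ∈ Q' ∧ f (s + n + (L - 1)) ∈ Q' := by
        ext n; simp [S1, S2, Nat.add_assoc]; tauto
      rw [h3] at h2
      omega
    obtain ⟨m, hm⟩ := card_pos.1 (show 0 < ((range L).filter fun n =>
        f (0 + n + 1) ∈ Q' ∧ f (0 + n + (L - 1)) ∈ Q').card by have := rem 0; omega)
    simp only [mem_filter, mem_range, Nat.zero_add] at hm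
    obtain ⟨hmL, hm1, hm2⟩ := hm
    -- replace `f m` by `q0`
    set F : ℕ → V := fun n => if n % L = L - 1 then q0 else f (m + 1 + n % L) with hF
    have hFlt : ∀ n, n < L - 1 → F n = f (m + 1 + n) := fun n hn => by
      simp only [hF, Nat.mod_eq_of_lt (show n < L by omega), if_neg (show n ≠ L - 1 by omega)]
    have hFtop : F (L - 1) = q0 := by
      simp only [hF, Nat.mod_eq_of_lt (show L - 1 < L by omega), if_true]
    have hFc : PCyc G F L := by
      refine ⟨hf.pos, fun i => by simp [hF], fun i j hi hj e => ?_, fun i => ?_⟩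
      · rcases Nat.lt_or_ge i (L - 1) with a | a <;> rcases Nat.lt_or_ge j (L - 1) with b | b
        · rw [hFlt i a, hFlt j b] at e
          have := inj_window hf.per hf.inj e (by omega) (by omega)
          omega
        · rw [hFlt i a, show j = L - 1 by omega, hFtop] at e
          exact absurd (e ▸ mem_img hf _) hfq
        · rw [hFlt j b, show i = L - 1 by omega, hFtop] at e
          exact absurd (e ▸ mem_img hf _) hfq
        · omega
      · have hb : F (i + 1) = F ((i % L + 1) % L) := by simp [hF, Nat.add_mod]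
        have ha : F i = F (i % L) := by simp [hF]
        have hlt := Nat.mod_lt i (show L > 0 by omega)
        rw [ha, hb]
        set n := i % L
        rcases Nat.lt_or_ge n (L - 2) with hl | hl
        · rw [Nat.mod_eq_of_lt (show n + 1 < L by omega), hFlt n (by omega), hFlt (n + 1) (by omega)]
          exact hf.adj _
        rcases Nat.lt_or_ge n (L - 1) with hl' | hl'
        · rw [Nat.mod_eq_of_lt (show n + 1 < L by omega), show n + 1 = L - 1 by omega, hFtop,
            hFlt n hl', show m + 1 + n = m + (L - 1) by omega]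
          exact hQc _ (hQ'Q hm2) _ hq0 fun e => hfq (e ▸ mem_img hf _)
        · rw [show n = L - 1 by omega, hFtop, show L - 1 + 1 = L by omega, Nat.mod_self,
            hFlt 0 (by omega)]
          exact hQc _ hq0 _ (hQ'Q hm1) fun e => hfq (e.symm ▸ mem_img hf _)
    have hFQ : Q ⊆ img F L := by
      intro x hx
      by_cases e : x = q0
      · exact mem_image.2 ⟨L - 1, mem_range.2 (by omega), e ▸ hFtop⟩
      obtain ⟨n, hn, hnx⟩ := mem_image.1 (show x ∈ img (fun n => f (m + 1 + n)) L by
        rw [img_shift hf]; exact hfQ (mem_erase.2 ⟨e, hx⟩))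
      rw [mem_range] at hn
      refine mem_image.2 ⟨n, mem_range.2 hn, ?_⟩
      rw [hFlt n ?_]
      · exact hnx
      · by_contra hh
        rw [show m + 1 + n = m + L by omega, hf.per] at hnx
        exact hcons (m + (L - 1)) hm2 (by
          rw [show m + (L - 1) + 1 = m + L by omega, hf.per, hnx]
          exact mem_erase.2 ⟨e, hx⟩)
    -- at least three removable positions
    set R0 := (range L).filter fun n =>
      f (m + 1 + n + 1) ∈ Q' ∧ f (m + 1 + n + (L - 1)) ∈ Q' with hR0
    refine payers_full h.hC h.degree hQc (by omega) hFc hFQ (R := insert (L - 1) R0) ?_ fun p hp => ?_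
    · have h1 := rem (m + 1)
      rw [← hR0] at h1
      have : 3 * Q'.card ≤ L + (insert (L - 1) R0).card :=
        h1.trans (Nat.add_le_add_left (card_le_card (subset_insert _ _)) _)
      omega
    · rcases mem_insert.1 hp with rfl | hp
      · refine ⟨by omega, ?_, ?_⟩
        · rw [show L - 1 + 1 = 0 + L by omega, hFc.per, hFlt 0 (by omega)]
          exact hQ'Q hm1
        · rw [show L - 1 + (L - 1) = L - 2 + L by omega, hFc.per, hFlt (L - 2) (by omega),
            show m + 1 + (L - 2) = m + (L - 1) by omega]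
          exact hQ'Q hm2
      · simp only [hR0, mem_filter, mem_range] at hp
        obtain ⟨hpL, hp1, hp2⟩ := hp
        have notQ : f (m + 1 + p) ∉ Q' := fun hh => hcons _ hh hp1
        have hp0 : p ≠ 0 := fun e => notQ (by subst e; exact hm1)
        have hpe : p ≠ L - 2 := fun e => notQ (by
          rw [show m + 1 + p = m + (L - 1) by omega]; exact hm2)
        have hpt : p ≠ L - 1 ∨ p = L - 1 := by omega
        rcases hpt with hpt | rfl
        · refine ⟨hpL, ?_, ?_⟩
          · rw [hFlt (p + 1) (by omega), show m + 1 + (p + 1) = m + 1 + p + 1 by omega]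
            exact hQ'Q hp1
          · rw [show p + (L - 1) = p - 1 + L by omega, hFc.per, hFlt (p - 1) (by omega)]
            have : m + 1 + p + (L - 1) = m + 1 + (p - 1) + L := by omega
            rw [this, hf.per] at hp2
            exact hQ'Q hp2
        · refine ⟨by omega, ?_, ?_⟩
          · rw [show L - 1 + 1 = 0 + L by omega, hFc.per, hFlt 0 (by omega)]
            exact hQ'Q hm1
          · rw [show L - 1 + (L - 1) = L - 2 + L by omega, hFc.per, hFlt (L - 2) (by omega),
              show m + 1 + (L - 2) = m + (L - 1) by omega]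
            exact hQ'Q hm2

theorem IsPayers.sub_ball {Q P : Finset V} {pa pq : V → V} (h : IsPayers G Q P pa pq) :
    P ⊆ ball G Q 2 := by
  intro x hx
  obtain ⟨-, h1, h2, h3, -⟩ := h.2.2.1 x hx
  exact mem_cl.2 (Or.inr ⟨pa x, mem_cl.2 (Or.inr ⟨pq x, h1, h2⟩), h3⟩)

end Vale.Agent.P048.Full
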