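import Vale.Agent.P048.Full.Drop

/-!
Runs of a cycle outside a clique `Q` on it: counting, cutting a run, dropping free clique vertices.
-/

namespace Vale.Agent.P048.Full

open Finset Vale.Agent.P048.Cycle

variable {V : Type*} [DecidableEq V] {G : SimpleGraph V} {f : ℕ → V} {L : ℕ} {Q : Finset V}

/-- One at the last clique position before a run. -/
def si (f : ℕ → V) (Q : Finset V) (i : ℕ) : ℕ := if f i ∈ Q ∧ f (i + 1) ∉ Q then 1 else 0

/-- One at the last position of a run. -/
def ei (f : ℕ → V) (Q : Finset V) (i : ℕ) : ℕ := if f i ∉ Q ∧ f (i + 1) ∈ Q then 1 else 0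

/-- One on an edge between `Q` and the rest. -/
def xi (Q : Finset V) (u v : V) : ℕ := if (u ∈ Q ↔ v ∈ Q) then 0 else 1

/-- The number of runs outside `Q`. -/
def nr (f : ℕ → V) (L : ℕ) (Q : Finset V) : ℕ :=
  ((range L).filter fun i => f i ∈ Q ∧ f (i + 1) ∉ Q).card

/-- The clique vertices whose two cycle neighbours are in the clique. -/
def frees (f : ℕ → V) (L : ℕ) (Q : Finset V) : Finset V :=
  ((range L).filter fun i => f i ∈ Q ∧ f (i + 1) ∈ Q ∧ f (i + 2) ∈ Q).image fun i => f (i + 1)

theorem nr_eq_sum : nr f L Q = ∑ i ∈ range L, si f Q i := by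
  simp only [nr, si, ← card_filter]

theorem sum_ei (h : PCyc G f L) : ∑ i ∈ range L, ei f Q i = nr f L Q := by
  have key : ∀ i, si f Q i + qi f Q (i + 1) = ei f Q i + qi f Q i := by
    intro i
    unfold si ei qi
    by_cases a : f i ∈ Q <;> by_cases b : f (i + 1) ∈ Q <;> simp [a, b]
  have hs : ∑ i ∈ range L, (si f Q i + qi f Q (i + 1)) = ∑ i ∈ range L, (ei f Q i + qi f Q i) :=
    sum_congr rfl fun i _ => key i
  rw [sum_add_distrib, sum_add_distrib, sum_shift (fun i => by simp [qi, h.per]) 1] at hs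
  rw [nr_eq_sum]
  omega

theorem sum_xi (h : PCyc G f L) : ∑ i ∈ range L, xi Q (f i) (f (i + 1)) = 2 * nr f L Q := by
  have key : ∀ i, xi Q (f i) (f (i + 1)) = si f Q i + ei f Q i := by
    intro i
    unfold si ei xi
    by_cases a : f i ∈ Q <;> by_cases b : f (i + 1) ∈ Q <;> simp [a, b]
  rw [sum_congr rfl (fun i _ => key i), sum_add_distrib, sum_ei h, ← nr_eq_sum]
  omega

theorem card_le_frees (h : PCyc G f L) (hQ : Q ⊆ img f L) :
    Q.card ≤ (frees f L Q).card + 2 * nr f L Q := by
  let fi : ℕ → ℕ := fun i => if f i ∈ Q ∧ f (i + 1) ∈ Q ∧ f (i + 2) ∈ Q then 1 else 0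
  have key : ∀ i, qi f Q (i + 1) ≤ fi i + (ei f Q i + si f Q (i + 1)) := by
    intro i
    unfold qi ei si
    simp only [fi, Nat.add_assoc, Nat.reduceAdd]
    by_cases a : f i ∈ Q <;> by_cases b : f (i + 1) ∈ Q <;> by_cases c : f (i + 2) ∈ Q <;>
      simp [a, b, c]
  have hs := (sum_qi h hQ 1).trans (sum_le_sum fun i (_ : i ∈ range L) => key i)
  rw [sum_add_distrib, sum_add_distrib, sum_ei h,
    sum_shift (fun i => by simp [si, h.per, Nat.add_right_comm i L 1]) 1, ← nr_eq_sum] at hs
  have hf : ∑ i ∈ range L, fi i = (frees f L Q).card := by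
    rw [frees, card_image_of_injOn]
    · simp only [fi, ← card_filter]
    · intro i hi j hj e
      simp only [coe_filter, Set.mem_setOf_eq, mem_range] at hi hj
      have := inj_window h.per h.inj (show f (i + 1) = f (j + 1) from e) (by omega) (by omega)
      omega
  omega

/-- The position of a vertex relative to a start. -/
theorem exists_off (h : PCyc G f L) (s n : ℕ) :
    ∃ m, m < L ∧ f n = f (s + m) ∧ f (n + 1) = f (s + m + 1) := by
  obtain ⟨m, hm, he⟩ := mem_image.1 (show f n ∈ img (fun i => f (s + i)) L by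
    rw [img_shift h]; exact mem_img h n)
  refine ⟨m, mem_range.1 hm, he.symm, ?_⟩
  have hmod : (s + m) % L = n % L := by
    have hp : L > 0 := by have := h.pos; omega
    exact h.inj _ _ (Nat.mod_lt _ hp) (Nat.mod_lt _ hp) (by
      rw [per_mod h.per, per_mod h.per]; exact he)
  rw [← per_mod h.per (n + 1), ← per_mod h.per (s + m + 1), Nat.add_mod, ← hmod, ← Nat.add_mod]

/-- Replace a run by the chord between its two ends. -/
theorem PCyc.cut_run (h : PCyc G f L) (hQc : ∀ x ∈ Q, ∀ y ∈ Q, x ≠ y → G.Adj x y)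
    (hQ : Q ⊆ img f L) {p s : ℕ} (hs : 3 + s ≤ L) (hs1 : 1 ≤ s) (h0 : f p ∈ Q)
    (hin : ∀ e, 1 ≤ e → e ≤ s → f (p + e) ∉ Q) (h1 : f (p + s + 1) ∈ Q) :
    ∃ g, PCyc G g (L - s) ∧ Q ⊆ img g (L - s) ∧ img g (L - s) ⊆ img f L ∧
      nr g (L - s) Q + 1 ≤ nr f L Q ∧
      ∀ n, f (n + 1) ∈ Q → (f n ∈ Q ∨ f n ≠ f (p + s)) →
        ∃ n', g n' = f n ∧ g (n' + 1) = f (n + 1) := by
  have hL := h.pos
  have hg := h.cut (i := p) (d := s) hs ((Nat.add_assoc p s 1).symm ▸ qchord hQc h (e := s + 1) (by omega) (by omega) h0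
    (by rwa [← Nat.add_assoc]))
  set g := cutf f L p s with hgdef
  have gv : ∀ m, m < L - s → g m = f (p + s + 1 + m) := fun m hm => cutf_lt hm
  refine ⟨g, hg, fun x hx => ?_, fun x hx => ?_, ?_, fun n hn1 hn => ?_⟩
  · obtain ⟨n, -, rfl⟩ := mem_image.1 (hQ hx)
    obtain ⟨m, hm, he, -⟩ := exists_off h (p + s + 1) n
    refine mem_image.2 ⟨m, mem_range.2 ?_, ?_⟩
    · by_contra hh
      apply hin (s + 1 + m - L) (by omega) (by omega)
      rw [← h.per, show p + (s + 1 + m - L) + L = p + s + 1 + m by omega, ← he]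
      exact hx
    · rw [gv m, he]
      by_contra hh
      apply hin (s + 1 + m - L) (by omega) (by omega)
      rw [← h.per, show p + (s + 1 + m - L) + L = p + s + 1 + m by omega, ← he]
      exact hx
  · obtain ⟨m, hm, rfl⟩ := mem_image.1 hx
    rw [mem_range] at hm
    rw [gv m hm]
    exact mem_img h _
  · set S := (range L).filter fun i => f i ∈ Q ∧ f (i + 1) ∉ Q
    set S' := (range (L - s)).filter fun i => g i ∈ Q ∧ g (i + 1) ∉ Q
    have hp : p % L ∈ S := by
      refine mem_filter.2 ⟨mem_range.2 (Nat.mod_lt _ (by omega)), ?_, ?_⟩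
      · rwa [per_mod h.per]
      · rw [← per_mod h.per, Nat.mod_add_mod, per_mod h.per]
        exact hin 1 le_rfl hs1
    have : S'.card ≤ (S.erase (p % L)).card := by
      refine card_le_card_of_injOn (fun m => (p + s + 1 + m) % L) (fun m hm => ?_) ?_
      · simp only [S', coe_filter, Set.mem_setOf_eq, mem_range] at hm
        obtain ⟨hml, hm0, hm1⟩ := hm
        have hlast : m + 1 < L - s := by
          by_contra hh
          rw [show m + 1 = 0 + (L - s) by omega, hg.per, gv 0 (by omega)] at hm1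
          exact hm1 h1
        rw [gv m hml] at hm0
        rw [gv (m + 1) hlast] at hm1
        refine mem_erase.2 ⟨fun e => ?_, mem_filter.2 ⟨mem_range.2 (Nat.mod_lt _ (by omega)), ?_, ?_⟩⟩
        · exact h.ne (show p < p + s + 1 + m by omega) (by omega) (by
            rw [← per_mod h.per p, ← per_mod h.per (p + s + 1 + m)]; exact congrArg f e.symm)
        · rwa [per_mod h.per]
        · rw [← per_mod h.per, Nat.mod_add_mod, per_mod h.per]
          exact hm1
      · intro m hm m' hm' e
        simp only [S', coe_filter, Set.mem_setOf_eq, mem_range] at hm hm'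
        have := inj_window h.per h.inj (i := p + s + 1 + m) (j := p + s + 1 + m') (by
          rw [← per_mod h.per (p + s + 1 + m), ← per_mod h.per (p + s + 1 + m')]
          exact congrArg f e) (by omega) (by omega)
        omega
    rw [card_erase_of_mem hp] at this
    have := card_pos.2 ⟨_, hp⟩
    show S'.card + 1 ≤ S.card
    omega
  · obtain ⟨m, hm, he, he'⟩ := exists_off h (p + s + 1) n
    have hm1 : m + 1 < L - s := by
      by_contra hh
      have hbad : ∀ e, 1 ≤ e → e ≤ s → p + s + 1 + m + 1 ≠ p + e + L := by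
        intro e e1 e2 ee
        apply hin e e1 e2
        rwa [← h.per, ← ee, ← he']
      rcases Nat.lt_or_ge (m + 1) L with hl | hl
      · exact hbad (s + 2 + m - L) (by omega) (by omega) (by omega)
      · have hmL : p + s + 1 + m = p + s + L := by omega
        rw [hmL, h.per] at he
        rcases hn with hq | hne
        · exact hin s hs1 le_rfl (he ▸ hq)
        · exact hne he
    exact ⟨m, by rw [gv m (by omega), he], by rw [gv (m + 1) hm1, he', Nat.add_assoc (p + s + 1)]⟩

/-- Delete free clique vertices one at a time. -/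
theorem PCyc.drop_free (h : PCyc G f L) (hQc : ∀ x ∈ Q, ∀ y ∈ Q, x ≠ y → G.Adj x y) :
    ∀ e, e ≤ (frees f L Q).card → 3 + e ≤ L → HasCyc G (L - e) := by
  intro e
  induction e generalizing f L with
  | zero => intro _ _; simpa using h.hasCyc
  | succ e ih =>
    intro he hL
    obtain ⟨q, hq⟩ := card_pos.1 (show 0 < (frees f L Q).card by omega)
    obtain ⟨i, hi, rfl⟩ := mem_image.1 hq
    obtain ⟨-, hi0, hi1, hi2⟩ := mem_filter.1 hi
    obtain ⟨M, rfl⟩ : ∃ M, L = M + 1 := ⟨L - 1, by omega⟩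
    have hs := h.shift (i + 2)
    have ha : G.Adj (f (i + 2 + (M - 1))) (f (i + 2 + 0)) := by
      refine hQc _ ?_ _ hi2 (h.ne (show i + 2 + 0 < i + 2 + (M - 1) by omega) (by omega)).symm
      rw [show i + 2 + (M - 1) = i + (M + 1) by omega, h.per]
      exact hi0
    have hg := hs.drop (L := M) (by omega) ha
    set g : ℕ → V := fun n => f (i + 2 + n % M) with hgdef
    have hsub : (frees f (M + 1) Q).erase (f (i + 1)) ⊆ frees g M Q := by
      intro v hv
      obtain ⟨hne, hv⟩ := mem_erase.1 hv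
      obtain ⟨n, hn, rfl⟩ := mem_image.1 hv
      obtain ⟨-, n0, n1, n2⟩ := mem_filter.1 hn
      obtain ⟨m, hm, e0, e1⟩ := exists_off h (i + 2) n
      have e2 : f (n + 2) = f (i + 2 + m + 2) := by
        obtain ⟨m', hm', a, b⟩ := exists_off h (i + 2 + m + 1) (n + 1)
        have := inj_window h.per h.inj (i := i + 2 + m + 1) (j := i + 2 + m + 1 + m')
          (a ▸ e1.symm) (by omega) (by omega)
        rw [show n + 2 = n + 1 + 1 by rfl, b, ← this]
      have hgv : ∀ j, j < M → g j = f (i + 2 + j) := fun j hj => by simp [hgdef, Nat.mod_eq_of_lt hj]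
      -- the vertex `f (n+1)` keeps clique neighbours
      have hm' : m + 1 ≠ M := fun e => hne (by
        rw [e1, show i + 2 + m + 1 = i + 1 + (M + 1) by omega, h.per])
      rcases Nat.lt_or_ge (m + 1) M with hlt | hge
      · refine mem_image.2 ⟨m, mem_filter.2 ⟨mem_range.2 (by omega), ?_, ?_, ?_⟩, ?_⟩
        · rw [hgv m (by omega), ← e0]; exact n0
        · rw [hgv (m + 1) hlt, ← Nat.add_assoc, ← e1]; exact n1
        · rcases Nat.lt_or_ge (m + 2) M with hl | hl
          · rw [hgv (m + 2) hl, ← Nat.add_assoc, ← e2]; exact n2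
          · rw [show m + 2 = 0 + M by omega, hg.per, hgv 0 (by omega)]; exact hi2
        · rw [hgv (m + 1) hlt, ← Nat.add_assoc, ← e1]
      · have hmM : m = M := by omega
        refine mem_image.2 ⟨M - 1, mem_filter.2 ⟨mem_range.2 (by omega), ?_, ?_, ?_⟩, ?_⟩
        · rw [hgv (M - 1) (by omega), show i + 2 + (M - 1) = i + (M + 1) by omega, h.per]; exact hi0
        · rw [show M - 1 + 1 = 0 + M by omega, hg.per, hgv 0 (by omega)]; exact hi2
        · rw [show M - 1 + 2 = 1 + M by omega, hg.per, hgv 1 (by omega)]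
          rwa [e2, show i + 2 + m + 2 = i + 2 + 1 + (M + 1) by omega, h.per] at n2
        · rw [show M - 1 + 1 = 0 + M by omega, hg.per, hgv 0 (by omega), e1,
            show i + 2 + m + 1 = i + 2 + 0 + (M + 1) by omega, h.per]
    have hc := (card_erase_of_mem hq).symm.le.trans (card_le_card hsub)
    have := ih hg (by omega) (by omega)
    rwa [show M + 1 - (e + 1) = M - e by omega]

/-- Reroute through an outside path, keeping the number of runs. -/
theorem PCyc.reroute_runs (h : PCyc G f L) (hQc : ∀ x ∈ Q, ∀ y ∈ Q, x ≠ y → G.Adj x y)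
    (hQ : Q ⊆ img f L) {o : ℕ → V} {l m : ℕ} (ho : PF G o l)
    (hoff : ∀ n, n ≤ l → o n ∉ img f L) (hm1 : 1 ≤ m) (hm : m < L)
    (ha' : f 0 ∈ Q) (hb' : f m ∈ Q) (hao : G.Adj (f (L - 1)) (o 0))
    (hob : G.Adj (o l) (f (m - 1))) :
    ∃ g, PCyc G g (l + 1 + L) ∧ Q ⊆ img g (l + 1 + L) ∧
      nr g (l + 1 + L) Q + 1 ≤ nr f L Q + qi f Q (L - 1) + qi f Q (m - 1) := by
  have hL := h.pos
  set M := l + 1 + L with hM
  set F : ℕ → V := fun n => if n ≤ l then o n else
    if n < l + 1 + m then f (l + m - n) else f (n - (l + 1)) with hF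
  have F1 : ∀ n, n ≤ l → F n = o n := fun n hn => by simp [hF, hn]
  have F2 : ∀ n, n < m → F (l + 1 + n) = f (m - 1 - n) := fun n hn => by
    simp only [hF]
    rw [if_neg (by omega), if_pos (by omega)]
    congr 1
    omega
  have F3 : ∀ n, m ≤ n → F (l + 1 + n) = f n := fun n hn => by
    simp only [hF]
    rw [if_neg (by omega), if_neg (by omega)]
    congr 1
    omega
  set g : ℕ → V := fun n => F (n % M) with hgdef
  have gv : ∀ n, n < M → g n = F n := fun n hn => by simp [hgdef, Nat.mod_eq_of_lt hn]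
  have hg : PCyc G g M := by
    refine ⟨by omega, fun n => by simp [hgdef], fun a b hab hb e => ?_, fun n => ?_⟩
    · rw [gv a hab, gv b hb] at e
      have cls : ∀ n, n < M → (n ≤ l ∧ F n = o n) ∨
          (∃ j, j < L ∧ F n = f j ∧ ((j < m ∧ n = l + 1 + (m - 1 - j)) ∨ (m ≤ j ∧ n = l + 1 + j))) := by
        intro n hn
        rcases Nat.lt_or_ge l n with h1 | h1
        · right
          rcases Nat.lt_or_ge (n - (l + 1)) m with h2 | h2
          · refine ⟨m - 1 - (n - (l + 1)), by omega, ?_, Or.inl ⟨by omega, by omega⟩⟩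
            rw [← F2 _ h2]; congr 1; omega
          · refine ⟨n - (l + 1), by omega, ?_, Or.inr ⟨h2, by omega⟩⟩
            rw [← F3 _ h2]; congr 1; omega
        · exact Or.inl ⟨h1, F1 n h1⟩
      rcases cls a hab with ⟨a1, a2⟩ | ⟨i, i1, a2, a3⟩ <;> rcases cls b hb with ⟨b1, b2⟩ | ⟨j, j1, b2, b3⟩ <;>
        rw [a2, b2] at e
      · exact ho.1 a b a1 b1 e
      · exact absurd (e ▸ mem_img h j) (hoff a a1)
      · exact absurd (e.symm ▸ mem_img h i) (hoff b b1)
      · have := h.inj i j i1 j1 e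
        omega
    · have hlt := Nat.mod_lt n (show M > 0 by omega)
      show G.Adj (F (n % M)) (F ((n + 1) % M))
      rw [Nat.add_mod, Nat.mod_eq_of_lt (show 1 < M by omega)]
      generalize n % M = j at hlt
      rcases Nat.lt_or_ge (j + 1) M with hh | hh
      · rw [Nat.mod_eq_of_lt hh]
        rcases Nat.lt_or_ge (j + 1) (l + 1) with c1 | c1
        · rw [F1 j (by omega), F1 (j + 1) (by omega)]; exact ho.2 j (by omega)
        rcases Nat.lt_or_ge j (l + 1) with c2 | c2
        · rw [F1 j (by omega), show j + 1 = l + 1 + 0 by omega, F2 0 (by omega), show j = l by omega]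
          exact hob
        obtain ⟨e, rfl⟩ : ∃ e, j = l + 1 + e := ⟨j - (l + 1), by omega⟩
        rcases Nat.lt_or_ge (e + 1) m with c3 | c3
        · rw [F2 e (by omega), show l + 1 + e + 1 = l + 1 + (e + 1) by omega, F2 _ c3]
          have := h.adj (m - 1 - (e + 1))
          rw [show m - 1 - (e + 1) + 1 = m - 1 - e by omega] at this
          exact this.symm
        rcases Nat.lt_or_ge e m with c4 | c4
        · rw [F2 e c4, show l + 1 + e + 1 = l + 1 + m by omega, F3 m le_rfl,
            show m - 1 - e = 0 by omega]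
          exact hQc _ ha' _ hb' (h.ne (by omega) (by omega))
        · rw [F3 e c4, show l + 1 + e + 1 = l + 1 + (e + 1) by omega, F3 _ (by omega)]
          exact h.adj e
      · rw [show j + 1 = M by omega, Nat.mod_self, F1 0 (Nat.zero_le _),
          show j = l + 1 + (L - 1) by omega, F3 _ (by omega)]
        exact hao
  refine ⟨g, hg, fun x hx => ?_, ?_⟩
  · obtain ⟨n, hn, rfl⟩ := mem_image.1 (hQ hx)
    rw [mem_range] at hn
    rcases Nat.lt_or_ge n m with hnm | hnm
    · refine mem_image.2 ⟨l + 1 + (m - 1 - n), mem_range.2 (by omega), ?_⟩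
      rw [gv _ (by omega), F2 _ (by omega), show m - 1 - (m - 1 - n) = n by omega]
    · refine mem_image.2 ⟨l + 1 + n, mem_range.2 (by omega), ?_⟩
      rw [gv _ (by omega), F3 _ hnm]
  · have hoQ : ∀ n, n ≤ l → o n ∉ Q := fun n hn hq => hoff n hn (hQ hq)
    have sg := sum_xi (Q := Q) hg
    have sf := sum_xi (Q := Q) h
    obtain ⟨m', rfl⟩ : ∃ m', m = m' + 1 := ⟨m - 1, by omega⟩
    obtain ⟨u, hu⟩ : ∃ u, L = m' + 1 + (u + 1) := ⟨L - (m' + 1) - 1, by omega⟩
    rw [hu, sum_range_add _ (m' + 1), sum_range_succ, sum_range_succ] at sf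
    rw [show M = l + 1 + ((m' + 1) + (u + 1)) by omega, sum_range_add _ (l + 1),
      sum_range_add _ (m' + 1), sum_range_succ, sum_range_succ, sum_range_succ] at sg
    -- path part
    have A0 : ∑ n ∈ range l, xi Q (g n) (g (n + 1)) = 0 := sum_eq_zero fun n hn => by
      rw [mem_range] at hn
      rw [gv n (by omega), gv (n + 1) (by omega), F1 n (by omega), F1 (n + 1) (by omega)]
      simp [xi, hoQ n (by omega), hoQ (n + 1) (by omega)]
    have A1 : xi Q (g l) (g (l + 1)) = qi f Q m' := by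
      rw [gv l (by omega), gv (l + 1) (by omega), F1 l le_rfl]
      have := F2 0 (by omega)
      rw [Nat.add_zero] at this
      rw [this, show m' + 1 - 1 - 0 = m' by omega]
      by_cases a : f m' ∈ Q <;> simp [xi, qi, hoQ l le_rfl, a]
    have B0 : ∑ n ∈ range m', xi Q (g (l + 1 + n)) (g (l + 1 + n + 1)) =
        ∑ n ∈ range m', xi Q (f n) (f (n + 1)) := by
      rw [← sum_range_reflect (fun n => xi Q (f n) (f (n + 1))) m']
      refine sum_congr rfl fun n hn => ?_
      rw [mem_range] at hn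
      rw [gv _ (by omega), gv _ (by omega), F2 n (by omega), show l + 1 + n + 1 = l + 1 + (n + 1) by omega,
        F2 (n + 1) (by omega), show m' + 1 - 1 - n = m' - 1 - n + 1 by omega,
        show m' + 1 - 1 - (n + 1) = m' - 1 - n by omega]
      by_cases a : f (m' - 1 - n) ∈ Q <;> by_cases b : f (m' - 1 - n + 1) ∈ Q <;> simp [xi, a, b]
    have B1 : xi Q (g (l + 1 + m')) (g (l + 1 + m' + 1)) = 0 := by
      rw [gv _ (by omega), gv _ (by omega), F2 m' (by omega),
        show l + 1 + m' + 1 = l + 1 + (m' + 1) by omega, F3 _ le_rfl,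
        show m' + 1 - 1 - m' = 0 by omega]
      simp [xi, ha', hb']
    have C0 : ∀ n, n < u → xi Q (g (l + 1 + (m' + 1 + n))) (g (l + 1 + (m' + 1 + n) + 1)) =
        xi Q (f (m' + 1 + n)) (f (m' + 1 + n + 1)) := by
      intro n hn
      rw [gv _ (by omega), gv _ (by omega), F3 _ (by omega),
        show l + 1 + (m' + 1 + n) + 1 = l + 1 + (m' + 1 + n + 1) by omega, F3 _ (by omega)]
    have C1 : xi Q (g (l + 1 + (m' + 1 + u))) (g (l + 1 + (m' + 1 + u) + 1)) = qi f Q (L - 1) := by
      rw [gv _ (by omega), F3 _ (by omega), show l + 1 + (m' + 1 + u) + 1 = 0 + M by omega, hg.per,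
        gv 0 (by omega), F1 0 (Nat.zero_le _), show m' + 1 + u = L - 1 by omega]
      by_cases a : f (L - 1) ∈ Q <;> simp [xi, qi, hoQ 0 (Nat.zero_le _), a]
    have Z1 : xi Q (f m') (f (m' + 1)) + qi f Q m' = 1 := by
      by_cases a : f m' ∈ Q <;> simp [xi, qi, hb', a]
    have Z2 : xi Q (f (m' + 1 + u)) (f (m' + 1 + u + 1)) + qi f Q (L - 1) = 1 := by
      rw [show m' + 1 + u + 1 = 0 + L by omega, h.per, show m' + 1 + u = L - 1 by omega]
      by_cases a : f (L - 1) ∈ Q <;> simp [xi, qi, ha', a]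
    rw [sum_congr rfl (fun n hn => C0 n (mem_range.1 hn)), A0, A1, B0, B1, C1] at sg
    rw [← hu] at sf sg
    rw [← hM] at sg
    simp only [Nat.add_sub_cancel]
    omega

end Vale.Agent.P048.Full
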