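import Vale.Agent.P048.Full.NoBig
import Vale.Agent.P048.Full.Conflict

/-!
Without a long conflict path a big clique is impossible; with one, see `ConflictFalse`.
-/

namespace Vale.Agent.P048.Full

open Finset Vale.Agent.P048.Cycle

variable {V : Type*} [DecidableEq V] {G : SimpleGraph V} {k L : ℕ} {Q : Finset V} {f : ℕ → V}

/-- A failure of `NoLong` is an ear with three or four vertices between two predecessors. -/
theorem PCyc.exists_ear (hf : PCyc G f L) (h : ¬NoLong G Q f L) :
    ∃ a b g, (g = 3 ∨ g = 4) ∧ Pred f Q a ∧ Pred f Q b ∧ a ≠ b ∧ Ear G (img f L) a b g := by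
  classical
  by_contra hno
  simp only [not_exists, not_and] at hno
  refine h fun R o o' i j hR hRf hlen hij hj hi1 hj1 h1 h2 => ?_
  exact hno (f i) (f j) R.length hlen ⟨i, rfl, hi1⟩ ⟨j, rfl, hj1⟩ (hf.ne hij (by omega))
    (Ear.of_isP hR hRf h1 h2)

end Vale.Agent.P048.Full
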