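import Vale.Agent.P048.Full.Growth
import Vale.Agent.P048.Cycle.Main

/-!
A minimal counterexample is impossible, given the payer, pair and layer lemmas.
-/

namespace Vale.Agent.P048.Full

open Finset Vale.Agent.P048.Cycle

variable {V : Type*} [Fintype V] [DecidableEq V] {G : SimpleGraph V} {k r : ℕ}

theorem FCtx.step_false (h : FCtx G k r) (hk19 : 19 ≤ k) (hk2 : k ≤ 2 * r)
    (hpay : ∀ Q : Finset V, (∀ x ∈ Q, ∀ y ∈ Q, x ≠ y → G.Adj x y) → k ≤ 2 * Q.card →
      ∃ P : Finset V, Indep G P ∧ Q.card ≤ P.card + 1 ∧ P ⊆ ball G Q 2)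
    (hpair : ∀ A B : Finset V, (∀ x ∈ A, ∀ y ∈ A, x ≠ y → G.Adj x y) →
      (∀ x ∈ B, ∀ y ∈ B, x ≠ y → G.Adj x y) → Disjoint A B → k + 1 ≤ 2 * A.card →
      k ≤ 2 * B.card → False)
    (hlb : ∀ (v : V) (K i : ℕ), k ≤ K + 1 → K ≤ k → 1 ≤ i → 2 * i ≤ k → ∀ S : Finset V,
      S ⊆ layer G {v} i →
      (∀ C, C ⊆ S → (∀ x ∈ C, ∀ y ∈ C, x ≠ y → G.Adj x y) → 2 * C.card ≤ K) →
      2 * S.card ≤ K * al G S)
    (hone : ∀ v : V,
      (∀ C : Finset V, (∀ x ∈ C, ∀ y ∈ C, x ≠ y → G.Adj x y) → 2 * C.card ≤ k) →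
      2 * (layer G {v} 1).card + 1 ≤ k * al G (layer G {v} 1)) : False := by
  classical
  by_cases hbig : ∃ Q : Finset V, (∀ x ∈ Q, ∀ y ∈ Q, x ≠ y → G.Adj x y) ∧ k + 1 ≤ 2 * Q.card
  · obtain ⟨Q, hQc, hQk⟩ := hbig
    have htk : Q.card ≤ k := by
      by_contra hh
      exact h.hC (clique_cyc hQc (by omega) (by omega))
    obtain ⟨v, hv⟩ := card_pos.mp (show 0 < Q.card by omega)
    have hvne : ({v} : Finset V).Nonempty := singleton_nonempty v
    have hQ1 : Q ⊆ ball G {v} 1 := by
      intro q hq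
      show q ∈ cl G {v}
      rw [mem_cl]
      by_cases e : q = v
      · exact Or.inl (by simp [e])
      · exact Or.inr ⟨v, by simp, hQc v hv q hq (Ne.symm e)⟩
    obtain ⟨P, hP1, hP2, hP3⟩ := hpay Q hQc (by omega)
    have h3 : Q.card ≤ al G (ball G {v} 3) + 1 := by
      have h' : P.card ≤ al G (ball G {v} 3) := le_al (hP3.trans (ball_comp hQ1 2)) hP1
      omega
    have hfree : ∀ C : Finset V, Disjoint Q C → (∀ x ∈ C, ∀ y ∈ C, x ≠ y → G.Adj x y) →
        2 * C.card ≤ k - 1 := by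
      intro C hd hC
      by_contra hh
      exact hpair Q C hQc hC hd hQk (by omega)
    refine h.big_false v hk19 hk2 htk hQk h3 ?_ fun i hi hik => ?_
    · have hS := hlb v (k - 1) 1 (by omega) (by omega) le_rfl (by omega) (layer G {v} 1 \ Q)
        sdiff_subset (fun C hC hCc => hfree C
          (disjoint_left.mpr fun x hx hx' => (mem_sdiff.mp (hC hx')).2 hx) hCc)
      have hmono := Nat.mul_le_mul_left (k - 1)
        (al_mono (G := G) (sdiff_subset : layer G {v} 1 \ Q ⊆ layer G {v} 1))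
      have hcard : (layer G {v} 1).card ≤ (layer G {v} 1 \ Q).card + (Q.card - 1) := by
        rw [← card_erase_of_mem hv]
        refine le_trans (card_le_card fun x hx => ?_) (card_union_le _ _)
        rw [mem_union, mem_sdiff, mem_erase]
        by_cases hxQ : x ∈ Q
        · refine Or.inr ⟨fun e => ?_, hxQ⟩
          subst e
          have := (h.lev_zero hvne x).mpr (mem_singleton_self x)
          simp only [layer, mem_filter, mem_univ, true_and] at hx
          omega
        · exact Or.inl ⟨hx, hxQ⟩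
      omega
    · refine hlb v (k - 1) i (by omega) (by omega) (by omega) hik _ subset_rfl
        fun C hC hCc => hfree C (disjoint_left.mpr fun x hx hx' => ?_) hCc
      have h1 := lev_le_of_mem (hQ1 hx)
      have h2 := hC hx'
      simp only [layer, mem_filter, mem_univ, true_and] at h2
      omega
  · simp only [not_exists, not_and, not_le] at hbig
    obtain ⟨v, -⟩ := h.nonempty
    have hno : ∀ C : Finset V, (∀ x ∈ C, ∀ y ∈ C, x ≠ y → G.Adj x y) → 2 * C.card ≤ k :=
      fun C hC => by have := hbig C hC; omega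
    refine h.no_big_false v (by omega) (fun K i hK1 hK2 hK3 hi1 hi2 => ?_) (fun _ => hone v hno)
    refine hlb v K i hK1 hK2 hi1 hi2 _ subset_rfl fun C _ hC => ?_
    have := hno C hC
    omega

end Vale.Agent.P048.Full
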